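import Mathlib

/-! Quantised density evolution, kernel computation (helper file).

Points are triples `(a, b, c)` of sum `30` (the vector `(a, b, c) / 10` of mean one); a law is a list
of natural weights of total `2 ^ 24`.  An unnormalised vector is split into three neighbouring mesh
points; the contributions are collected in one natural number with digits in base `2 ^ 64`. -/

namespace Vale.Agent.P154.AF.Eng

structure P3 where
  a : Nat
  b : Nat
  c : Nat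
deriving DecidableEq

/-- strict application -/
def frc (x : Nat) (k : Nat → Nat) : Nat := Nat.rec (k 0) (fun n _ => k (Nat.succ n)) x

def frcB (x : Nat) (k : Nat → Bool) : Bool := Nat.rec (k 0) (fun n _ => k (Nat.succ n)) x

/-- digit position of a triple with smallest entry `lo` and middle entry `md` -/
def pos2 (lo md : Nat) : Nat := Nat.add (Nat.mul md 13) lo

/-- digit position of a triple -/
def pos (a b c : Nat) : Nat :=
  cond (Nat.ble a b)
    (cond (Nat.ble b c) (pos2 a b) (cond (Nat.ble a c) (pos2 a c) (pos2 c a)))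
    (cond (Nat.ble a c) (pos2 b a) (cond (Nat.ble b c) (pos2 b c) (pos2 c b)))

/-- `r` units at digit `p` -/
def tm (r p : Nat) : Nat := Nat.shiftLeft r (Nat.mul 64 p)

/-- contributions of the unnormalised vector `(x, y, z)` -/
def contrib (x y z : Nat) : Nat :=
  frc (Nat.add x (Nat.add y z)) fun S =>
  cond (Nat.beq S 0) 0 <|
  frc (Nat.mul 30 x) fun x' => frc (Nat.mul 30 y) fun y' => frc (Nat.mul 30 z) fun z' =>
  frc (Nat.div x' S) fun fx => frc (Nat.div y' S) fun fy => frc (Nat.div z' S) fun fz =>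
  frc (Nat.mod x' S) fun rx => frc (Nat.mod y' S) fun ry => frc (Nat.mod z' S) fun rz =>
  frc (Nat.sub 30 (Nat.add fx (Nat.add fy fz))) fun t =>
  cond (Nat.beq t 0) (tm S (pos fx fy fz)) <|
  cond (Nat.beq t 1)
    (Nat.add (tm rx (pos (Nat.succ fx) fy fz))
      (Nat.add (tm ry (pos fx (Nat.succ fy) fz)) (tm rz (pos fx fy (Nat.succ fz)))))
    (Nat.add (tm (Nat.sub S rx) (pos fx (Nat.succ fy) (Nat.succ fz)))
      (Nat.add (tm (Nat.sub S ry) (pos (Nat.succ fx) fy (Nat.succ fz)))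
      (tm (Nat.sub S rz) (pos (Nat.succ fx) (Nat.succ fy) fz))))

/-- contributions of the six products of `x` with the permutations of `y` -/
def six (x y : P3) : Nat :=
  Nat.add (contrib (Nat.mul x.a y.a) (Nat.mul x.b y.b) (Nat.mul x.c y.c))
  (Nat.add (contrib (Nat.mul x.a y.a) (Nat.mul x.b y.c) (Nat.mul x.c y.b))
  (Nat.add (contrib (Nat.mul x.a y.b) (Nat.mul x.b y.a) (Nat.mul x.c y.c))
  (Nat.add (contrib (Nat.mul x.a y.b) (Nat.mul x.b y.c) (Nat.mul x.c y.a))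
  (Nat.add (contrib (Nat.mul x.a y.c) (Nat.mul x.b y.a) (Nat.mul x.c y.b))
   (contrib (Nat.mul x.a y.c) (Nat.mul x.b y.b) (Nat.mul x.c y.a))))))

/-- row of doubled contributions of `x` with a list of points, in continuation form -/
def rowF (x : P3) : List P3 → (List Nat → Bool) → Bool
  | [], k => k []
  | y :: l, k => frcB (Nat.mul 2 (six x y)) fun v => rowF x l fun r => k (v :: r)

/-- triangular table: for each suffix `x :: l` the row `six x x, 2 six x y, ...` -/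
def tabF : List P3 → (List (List Nat) → Bool) → Bool
  | [], k => k []
  | x :: l, k => frcB (six x x) fun v => rowF x l fun r => tabF l fun t => k ((v :: r) :: t)

/-- scalar product of a row with the weights -/
noncomputable def sm (row : List Nat) : List Nat → Nat :=
  @List.rec Nat (fun _ => List Nat → Nat) (fun _ => 0)
    (fun t _ ih W => @List.rec Nat (fun _ => Nat) 0
      (fun w ws _ => Nat.add (Nat.mul w t) (ih ws)) W) row

/-- quadratic form of the weights with the triangular table -/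
noncomputable def qd (T : List (List Nat)) : List Nat → Nat :=
  @List.rec (List Nat) (fun _ => List Nat → Nat) (fun _ => 0)
    (fun r _ ih W => @List.rec Nat (fun _ => Nat) 0
      (fun w ws _ => Nat.add (Nat.mul w (sm r (w :: ws))) (ih ws)) W) T

/-- sum of a list -/
noncomputable def sumL (l : List Nat) : Nat :=
  @List.rec Nat (fun _ => Nat) 0 (fun w _ ih => Nat.add w ih) l

/-- digitwise comparison: `sc * o ≤` digit of `acc` at the position of each point -/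
noncomputable def chkO (sc acc : Nat) (ps : List P3) : List Nat → Bool :=
  @List.rec P3 (fun _ => List Nat → Bool)
    (fun os => @List.rec Nat (fun _ => Bool) true (fun _ _ _ => false) os)
    (fun p _ ih os => @List.rec Nat (fun _ => Bool) false
      (fun o os' _ => cond (Nat.ble (Nat.mul sc o)
        (Nat.mod (Nat.shiftRight acc (Nat.mul 64 (pos p.a p.b p.c))) 18446744073709551616))
        (ih os') false) os) ps

/-- one stage: the first point of the list (the vertex) takes the remaining mass -/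
noncomputable def stg (sc : Nat) (ps : List P3) (T : List (List Nat)) (W O : List Nat) : Bool :=
  @List.rec Nat (fun _ => Bool) false
    (fun o os _ => cond (Nat.beq (sumL (o :: os)) 16777216)
      (frcB (qd T W) fun acc => chkO sc acc ps os) false) O

/-- mesh points other than the vertex `(30, 0, 0)` -/
def ptsT : List P3 :=
  [⟨29, 1, 0⟩, ⟨28, 2, 0⟩, ⟨28, 1, 1⟩, ⟨27, 3, 0⟩, ⟨27, 2, 1⟩, ⟨26, 4, 0⟩, ⟨26, 3, 1⟩,
  ⟨26, 2, 2⟩, ⟨25, 5, 0⟩, ⟨25, 4, 1⟩, ⟨25, 3, 2⟩, ⟨24, 6, 0⟩, ⟨24, 5, 1⟩, ⟨24, 4, 2⟩, ⟨24, 3, 3⟩,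
  ⟨23, 7, 0⟩, ⟨23, 6, 1⟩, ⟨23, 5, 2⟩, ⟨23, 4, 3⟩, ⟨22, 8, 0⟩, ⟨22, 7, 1⟩, ⟨22, 6, 2⟩, ⟨22, 5, 3⟩,
  ⟨22, 4, 4⟩, ⟨21, 9, 0⟩, ⟨21, 8, 1⟩, ⟨21, 7, 2⟩, ⟨21, 6, 3⟩, ⟨21, 5, 4⟩, ⟨20, 10, 0⟩,
  ⟨20, 9, 1⟩, ⟨20, 8, 2⟩, ⟨20, 7, 3⟩, ⟨20, 6, 4⟩, ⟨20, 5, 5⟩, ⟨19, 11, 0⟩, ⟨19, 10, 1⟩,
  ⟨19, 9, 2⟩, ⟨19, 8, 3⟩, ⟨19, 7, 4⟩, ⟨19, 6, 5⟩, ⟨18, 12, 0⟩, ⟨18, 11, 1⟩, ⟨18, 10, 2⟩,
  ⟨18, 9, 3⟩, ⟨18, 8, 4⟩, ⟨18, 7, 5⟩, ⟨18, 6, 6⟩, ⟨17, 13, 0⟩, ⟨17, 12, 1⟩, ⟨17, 11, 2⟩,
  ⟨17, 10, 3⟩, ⟨17, 9, 4⟩, ⟨17, 8, 5⟩, ⟨17, 7, 6⟩, ⟨16, 14, 0⟩, ⟨16, 13, 1⟩, ⟨16, 12, 2⟩,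
  ⟨16, 11, 3⟩, ⟨16, 10, 4⟩, ⟨16, 9, 5⟩, ⟨16, 8, 6⟩, ⟨16, 7, 7⟩, ⟨15, 15, 0⟩, ⟨15, 14, 1⟩,
  ⟨15, 13, 2⟩, ⟨15, 12, 3⟩, ⟨15, 11, 4⟩, ⟨15, 10, 5⟩, ⟨15, 9, 6⟩, ⟨15, 8, 7⟩, ⟨14, 14, 2⟩,
  ⟨14, 13, 3⟩, ⟨14, 12, 4⟩, ⟨14, 11, 5⟩, ⟨14, 10, 6⟩, ⟨14, 9, 7⟩, ⟨14, 8, 8⟩, ⟨13, 13, 4⟩,
  ⟨13, 12, 5⟩, ⟨13, 11, 6⟩, ⟨13, 10, 7⟩, ⟨13, 9, 8⟩, ⟨12, 12, 6⟩, ⟨12, 11, 7⟩, ⟨12, 10, 8⟩,
  ⟨12, 9, 9⟩, ⟨11, 11, 8⟩, ⟨11, 10, 9⟩, ⟨10, 10, 10⟩]

/-- all mesh points, the vertex first -/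
def ptsG : List P3 := ⟨30, 0, 0⟩ :: ptsT

/-- image of a mesh point under the edge with parameter `-1/2` (scaled by `20`) -/
def edg (p : P3) : P3 := ⟨Nat.sub 30 p.a, Nat.sub 30 p.b, Nat.sub 30 p.c⟩

/-- all generations of a run: from the weights `W`, the list contains the intermediate weights
(after the product of two children) and the weights of the next generation -/
noncomputable def gens (T1 T2 : List (List Nat)) (l : List (List Nat × List Nat)) :
    List Nat → Bool :=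
  @List.rec (List Nat × List Nat) (fun _ => List Nat → Bool) (fun _ => true)
    (fun d _ ih W => cond (stg 120795955200 ptsT T1 W d.1)
      (cond (stg 30198988800 ptsT T2 d.1 d.2) (ih d.2) false) false) l

/-- the check of one block of generations -/
noncomputable def run (W : List Nat) (data : List (List Nat × List Nat)) : Bool :=
  tabF (ptsG.map edg) fun T1 => tabF ptsG fun T2 => gens T1 T2 data W

/-- final weights of a block -/
def lastW : List Nat → List (List Nat × List Nat) → List Nat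
  | W, [] => W
  | _, (_, W') :: l => lastW W' l

end Vale.Agent.P154.AF.Eng
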