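import Vale.Agent.P154AF.Eng

/-! Run data, generations 0 to 7 (helper file). -/

namespace Vale.Agent.P154.AF.Eng

def W0 : List Nat :=
  [nat_lit 16777216, nat_lit 0, nat_lit 0, nat_lit 0, nat_lit 0, nat_lit 0, nat_lit 0, nat_lit 0,
  nat_lit 0, nat_lit 0, nat_lit 0, nat_lit 0, nat_lit 0, nat_lit 0, nat_lit 0, nat_lit 0,
  nat_lit 0, nat_lit 0, nat_lit 0, nat_lit 0, nat_lit 0, nat_lit 0, nat_lit 0, nat_lit 0,
  nat_lit 0, nat_lit 0, nat_lit 0, nat_lit 0, nat_lit 0, nat_lit 0, nat_lit 0, nat_lit 0,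
  nat_lit 0, nat_lit 0, nat_lit 0, nat_lit 0, nat_lit 0, nat_lit 0, nat_lit 0, nat_lit 0,
  nat_lit 0, nat_lit 0, nat_lit 0, nat_lit 0, nat_lit 0, nat_lit 0, nat_lit 0, nat_lit 0,
  nat_lit 0, nat_lit 0, nat_lit 0, nat_lit 0, nat_lit 0, nat_lit 0, nat_lit 0, nat_lit 0,
  nat_lit 0, nat_lit 0, nat_lit 0, nat_lit 0, nat_lit 0, nat_lit 0, nat_lit 0, nat_lit 0,
  nat_lit 0, nat_lit 0, nat_lit 0, nat_lit 0, nat_lit 0, nat_lit 0, nat_lit 0, nat_lit 0,
  nat_lit 0, nat_lit 0, nat_lit 0, nat_lit 0, nat_lit 0, nat_lit 0, nat_lit 0, nat_lit 0,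
  nat_lit 0, nat_lit 0, nat_lit 0, nat_lit 0, nat_lit 0, nat_lit 0, nat_lit 0, nat_lit 0,
  nat_lit 0, nat_lit 0, nat_lit 0]

def data0 : List (List Nat × List Nat) := [
  ([nat_lit 8388608, nat_lit 0, nat_lit 0, nat_lit 0, nat_lit 0, nat_lit 0, nat_lit 0, nat_lit 0,
  nat_lit 0, nat_lit 0, nat_lit 0, nat_lit 0, nat_lit 0, nat_lit 0, nat_lit 0, nat_lit 0,
  nat_lit 0, nat_lit 0, nat_lit 0, nat_lit 0, nat_lit 0, nat_lit 0, nat_lit 0, nat_lit 0,
  nat_lit 0, nat_lit 0, nat_lit 0, nat_lit 0, nat_lit 0, nat_lit 0, nat_lit 0, nat_lit 0,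
  nat_lit 0, nat_lit 0, nat_lit 0, nat_lit 0, nat_lit 0, nat_lit 0, nat_lit 0, nat_lit 0,
  nat_lit 0, nat_lit 0, nat_lit 0, nat_lit 0, nat_lit 0, nat_lit 0, nat_lit 0, nat_lit 0,
  nat_lit 0, nat_lit 0, nat_lit 0, nat_lit 0, nat_lit 0, nat_lit 0, nat_lit 0, nat_lit 0,
  nat_lit 0, nat_lit 0, nat_lit 0, nat_lit 0, nat_lit 0, nat_lit 0, nat_lit 0, nat_lit 0,
  nat_lit 8388608, nat_lit 0, nat_lit 0, nat_lit 0, nat_lit 0, nat_lit 0, nat_lit 0, nat_lit 0,
  nat_lit 0, nat_lit 0, nat_lit 0, nat_lit 0, nat_lit 0, nat_lit 0, nat_lit 0, nat_lit 0,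
  nat_lit 0, nat_lit 0, nat_lit 0, nat_lit 0, nat_lit 0, nat_lit 0, nat_lit 0, nat_lit 0,
  nat_lit 0, nat_lit 0, nat_lit 0],
   [nat_lit 14680064, nat_lit 0, nat_lit 0, nat_lit 0, nat_lit 0, nat_lit 0, nat_lit 0, nat_lit 0,
  nat_lit 0, nat_lit 0, nat_lit 0, nat_lit 0, nat_lit 0, nat_lit 0, nat_lit 0, nat_lit 0,
  nat_lit 0, nat_lit 0, nat_lit 0, nat_lit 0, nat_lit 0, nat_lit 0, nat_lit 0, nat_lit 0,
  nat_lit 0, nat_lit 0, nat_lit 0, nat_lit 0, nat_lit 0, nat_lit 0, nat_lit 0, nat_lit 0,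
  nat_lit 0, nat_lit 0, nat_lit 0, nat_lit 0, nat_lit 0, nat_lit 0, nat_lit 0, nat_lit 0,
  nat_lit 0, nat_lit 0, nat_lit 0, nat_lit 0, nat_lit 0, nat_lit 0, nat_lit 0, nat_lit 0,
  nat_lit 0, nat_lit 0, nat_lit 0, nat_lit 0, nat_lit 0, nat_lit 0, nat_lit 0, nat_lit 0,
  nat_lit 0, nat_lit 0, nat_lit 0, nat_lit 0, nat_lit 0, nat_lit 0, nat_lit 0, nat_lit 0,
  nat_lit 2097152, nat_lit 0, nat_lit 0, nat_lit 0, nat_lit 0, nat_lit 0, nat_lit 0, nat_lit 0,
  nat_lit 0, nat_lit 0, nat_lit 0, nat_lit 0, nat_lit 0, nat_lit 0, nat_lit 0, nat_lit 0,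
  nat_lit 0, nat_lit 0, nat_lit 0, nat_lit 0, nat_lit 0, nat_lit 0, nat_lit 0, nat_lit 0,
  nat_lit 0, nat_lit 0, nat_lit 0]),
  ([nat_lit 6422528, nat_lit 0, nat_lit 0, nat_lit 0, nat_lit 0, nat_lit 0, nat_lit 0, nat_lit 0,
  nat_lit 0, nat_lit 0, nat_lit 0, nat_lit 0, nat_lit 0, nat_lit 0, nat_lit 0, nat_lit 0,
  nat_lit 0, nat_lit 0, nat_lit 0, nat_lit 0, nat_lit 0, nat_lit 0, nat_lit 0, nat_lit 0,
  nat_lit 0, nat_lit 0, nat_lit 0, nat_lit 0, nat_lit 0, nat_lit 0, nat_lit 2752512, nat_lit 0,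
  nat_lit 0, nat_lit 0, nat_lit 0, nat_lit 98304, nat_lit 0, nat_lit 0, nat_lit 0, nat_lit 0,
  nat_lit 0, nat_lit 0, nat_lit 0, nat_lit 0, nat_lit 0, nat_lit 0, nat_lit 0, nat_lit 0,
  nat_lit 0, nat_lit 0, nat_lit 0, nat_lit 0, nat_lit 0, nat_lit 0, nat_lit 0, nat_lit 0,
  nat_lit 0, nat_lit 0, nat_lit 0, nat_lit 0, nat_lit 0, nat_lit 0, nat_lit 0, nat_lit 0,
  nat_lit 7340032, nat_lit 0, nat_lit 0, nat_lit 0, nat_lit 0, nat_lit 0, nat_lit 0, nat_lit 0,
  nat_lit 0, nat_lit 0, nat_lit 0, nat_lit 0, nat_lit 0, nat_lit 0, nat_lit 0, nat_lit 0,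
  nat_lit 0, nat_lit 0, nat_lit 0, nat_lit 0, nat_lit 163840, nat_lit 0, nat_lit 0, nat_lit 0,
  nat_lit 0, nat_lit 0, nat_lit 0],
   [nat_lit 13422080, nat_lit 0, nat_lit 0, nat_lit 0, nat_lit 10752, nat_lit 192, nat_lit 5376,
  nat_lit 0, nat_lit 96, nat_lit 0, nat_lit 0, nat_lit 0, nat_lit 215040, nat_lit 0, nat_lit 0,
  nat_lit 0, nat_lit 0, nat_lit 0, nat_lit 0, nat_lit 0, nat_lit 0, nat_lit 0, nat_lit 384,
  nat_lit 768, nat_lit 0, nat_lit 0, nat_lit 0, nat_lit 0, nat_lit 256, nat_lit 0,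
  nat_lit 1327872, nat_lit 0, nat_lit 0, nat_lit 0, nat_lit 0, nat_lit 0, nat_lit 0, nat_lit 0,
  nat_lit 0, nat_lit 0, nat_lit 0, nat_lit 0, nat_lit 0, nat_lit 0, nat_lit 0, nat_lit 0,
  nat_lit 0, nat_lit 0, nat_lit 0, nat_lit 0, nat_lit 0, nat_lit 0, nat_lit 0, nat_lit 0,
  nat_lit 0, nat_lit 0, nat_lit 0, nat_lit 0, nat_lit 0, nat_lit 0, nat_lit 0, nat_lit 0,
  nat_lit 0, nat_lit 0, nat_lit 1792000, nat_lit 0, nat_lit 0, nat_lit 0, nat_lit 0, nat_lit 0,
  nat_lit 0, nat_lit 1536, nat_lit 0, nat_lit 576, nat_lit 0, nat_lit 0, nat_lit 0, nat_lit 0,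
  nat_lit 0, nat_lit 288, nat_lit 0, nat_lit 0, nat_lit 0, nat_lit 0, nat_lit 0, nat_lit 0,
  nat_lit 0, nat_lit 0, nat_lit 0, nat_lit 0, nat_lit 0]),
  ([nat_lit 5368997, nat_lit 0, nat_lit 1313, nat_lit 0, nat_lit 9047, nat_lit 0, nat_lit 3502,
  nat_lit 0, nat_lit 0, nat_lit 103221, nat_lit 0, nat_lit 3, nat_lit 86130, nat_lit 4,
  nat_lit 41, nat_lit 2, nat_lit 354926, nat_lit 0, nat_lit 58, nat_lit 343, nat_lit 354434,
  nat_lit 168, nat_lit 1084, nat_lit 1760, nat_lit 130, nat_lit 20, nat_lit 129, nat_lit 166,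
  nat_lit 3437, nat_lit 15164, nat_lit 2681610, nat_lit 1159, nat_lit 23379, nat_lit 70927,
  nat_lit 35641, nat_lit 76269, nat_lit 742, nat_lit 5762, nat_lit 11749, nat_lit 7688,
  nat_lit 618, nat_lit 200, nat_lit 887301, nat_lit 1125, nat_lit 4246, nat_lit 198, nat_lit 390,
  nat_lit 3133, nat_lit 228, nat_lit 103857, nat_lit 361, nat_lit 11504, nat_lit 2511,
  nat_lit 59, nat_lit 12065, nat_lit 1461, nat_lit 62987, nat_lit 4396, nat_lit 39, nat_lit 33,
  nat_lit 72, nat_lit 5885, nat_lit 14709, nat_lit 21, nat_lit 6088959, nat_lit 735,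
  nat_lit 2081, nat_lit 23751, nat_lit 70935, nat_lit 1702, nat_lit 2836, nat_lit 26,
  nat_lit 13138, nat_lit 6338, nat_lit 252, nat_lit 6893, nat_lit 1167, nat_lit 26, nat_lit 12,
  nat_lit 26, nat_lit 14, nat_lit 4634, nat_lit 62, nat_lit 70923, nat_lit 119688, nat_lit 80,
  nat_lit 30, nat_lit 26498, nat_lit 6, nat_lit 0, nat_lit 0],
   [nat_lit 12456955, nat_lit 11903, nat_lit 38962, nat_lit 97, nat_lit 73267, nat_lit 1042,
  nat_lit 112653, nat_lit 534, nat_lit 235, nat_lit 121841, nat_lit 315, nat_lit 530,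
  nat_lit 264925, nat_lit 447, nat_lit 446, nat_lit 136, nat_lit 222598, nat_lit 438,
  nat_lit 494, nat_lit 785, nat_lit 250231, nat_lit 323, nat_lit 709, nat_lit 895, nat_lit 468,
  nat_lit 67179, nat_lit 472, nat_lit 694, nat_lit 344, nat_lit 153, nat_lit 1107021,
  nat_lit 358, nat_lit 225, nat_lit 160, nat_lit 269, nat_lit 87, nat_lit 63069, nat_lit 315,
  nat_lit 233, nat_lit 351, nat_lit 576, nat_lit 534, nat_lit 428051, nat_lit 301, nat_lit 299,
  nat_lit 554, nat_lit 249, nat_lit 587, nat_lit 85, nat_lit 180132, nat_lit 260, nat_lit 300,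
  nat_lit 275, nat_lit 213, nat_lit 100, nat_lit 154, nat_lit 63604, nat_lit 245, nat_lit 602,
  nat_lit 172, nat_lit 187, nat_lit 232, nat_lit 149, nat_lit 167, nat_lit 1289175, nat_lit 341,
  nat_lit 225, nat_lit 343, nat_lit 438, nat_lit 935, nat_lit 422, nat_lit 1069, nat_lit 119,
  nat_lit 640, nat_lit 232, nat_lit 366, nat_lit 288, nat_lit 140, nat_lit 70, nat_lit 260,
  nat_lit 91, nat_lit 164, nat_lit 105, nat_lit 63, nat_lit 80, nat_lit 405, nat_lit 362,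
  nat_lit 74, nat_lit 374, nat_lit 235, nat_lit 13]),
  ([nat_lit 4624793, nat_lit 10771, nat_lit 36312, nat_lit 7, nat_lit 72119, nat_lit 54,
  nat_lit 105345, nat_lit 141, nat_lit 108, nat_lit 212344, nat_lit 266, nat_lit 543,
  nat_lit 251884, nat_lit 634, nat_lit 1209, nat_lit 629, nat_lit 426269, nat_lit 897,
  nat_lit 2410, nat_lit 3279, nat_lit 494631, nat_lit 2985, nat_lit 6778, nat_lit 7896,
  nat_lit 3227, nat_lit 261082, nat_lit 3310, nat_lit 7522, nat_lit 16167, nat_lit 29072,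
  nat_lit 1913042, nat_lit 17019, nat_lit 54026, nat_lit 76772, nat_lit 72709, nat_lit 52972,
  nat_lit 339617, nat_lit 26218, nat_lit 27555, nat_lit 19626, nat_lit 4065, nat_lit 4192,
  nat_lit 1017696, nat_lit 18296, nat_lit 13063, nat_lit 5142, nat_lit 10524, nat_lit 6421,
  nat_lit 2643, nat_lit 499316, nat_lit 8775, nat_lit 21080, nat_lit 8868, nat_lit 4684,
  nat_lit 12668, nat_lit 11561, nat_lit 278122, nat_lit 13476, nat_lit 7092, nat_lit 19566,
  nat_lit 7769, nat_lit 13386, nat_lit 14967, nat_lit 1957, nat_lit 5140604, nat_lit 12083,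
  nat_lit 14792, nat_lit 21799, nat_lit 47655, nat_lit 8207, nat_lit 10046, nat_lit 10095,
  nat_lit 13731, nat_lit 18661, nat_lit 17699, nat_lit 23742, nat_lit 10482, nat_lit 9796,
  nat_lit 2030, nat_lit 2632, nat_lit 13294, nat_lit 11518, nat_lit 25365, nat_lit 50906,
  nat_lit 65139, nat_lit 10563, nat_lit 13684, nat_lit 19118, nat_lit 2895, nat_lit 12318,
  nat_lit 793],
   [nat_lit 11631646, nat_lit 79919, nat_lit 140666, nat_lit 765, nat_lit 182860, nat_lit 2814,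
  nat_lit 216310, nat_lit 1946, nat_lit 827, nat_lit 245695, nat_lit 1538, nat_lit 1525,
  nat_lit 312119, nat_lit 1503, nat_lit 1343, nat_lit 659, nat_lit 311940, nat_lit 1456,
  nat_lit 1412, nat_lit 1468, nat_lit 342758, nat_lit 1368, nat_lit 1389, nat_lit 1316,
  nat_lit 633, nat_lit 245992, nat_lit 1381, nat_lit 1205, nat_lit 923, nat_lit 768,
  nat_lit 761947, nat_lit 1270, nat_lit 935, nat_lit 786, nat_lit 854, nat_lit 356,
  nat_lit 251416, nat_lit 1184, nat_lit 868, nat_lit 886, nat_lit 857, nat_lit 817,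
  nat_lit 486315, nat_lit 1128, nat_lit 915, nat_lit 832, nat_lit 716, nat_lit 723, nat_lit 331,
  nat_lit 342550, nat_lit 1073, nat_lit 851, nat_lit 765, nat_lit 719, nat_lit 529, nat_lit 612,
  nat_lit 232308, nat_lit 1049, nat_lit 907, nat_lit 702, nat_lit 634, nat_lit 610, nat_lit 566,
  nat_lit 331, nat_lit 929152, nat_lit 1088, nat_lit 856, nat_lit 823, nat_lit 807, nat_lit 775,
  nat_lit 747, nat_lit 771, nat_lit 426, nat_lit 827, nat_lit 676, nat_lit 578, nat_lit 510,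
  nat_lit 553, nat_lit 221, nat_lit 369, nat_lit 504, nat_lit 525, nat_lit 509, nat_lit 467,
  nat_lit 254, nat_lit 608, nat_lit 549, nat_lit 256, nat_lit 313, nat_lit 485, nat_lit 81]),
  ([nat_lit 4033081, nat_lit 61963, nat_lit 114149, nat_lit 265, nat_lit 156460, nat_lit 1013,
  nat_lit 193606, nat_lit 1629, nat_lit 1049, nat_lit 290045, nat_lit 2345, nat_lit 3346,
  nat_lit 314464, nat_lit 3700, nat_lit 5076, nat_lit 2673, nat_lit 439835, nat_lit 5204,
  nat_lit 8245, nat_lit 8623, nat_lit 515894, nat_lit 10130, nat_lit 14064, nat_lit 14904,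
  nat_lit 7237, nat_lit 445600, nat_lit 12765, nat_lit 19373, nat_lit 28125, nat_lit 36853,
  nat_lit 1419191, nat_lit 38040, nat_lit 69945, nat_lit 84191, nat_lit 83864, nat_lit 47841,
  nat_lit 572103, nat_lit 51364, nat_lit 43481, nat_lit 26473, nat_lit 9779, nat_lit 8933,
  nat_lit 949502, nat_lit 41009, nat_lit 22042, nat_lit 11017, nat_lit 14453, nat_lit 10242,
  nat_lit 4873, nat_lit 724013, nat_lit 24499, nat_lit 26852, nat_lit 15343, nat_lit 10904,
  nat_lit 13764, nat_lit 14753, nat_lit 564915, nat_lit 24693, nat_lit 16326, nat_lit 27391,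
  nat_lit 13943, nat_lit 16180, nat_lit 15637, nat_lit 4920, nat_lit 4483093, nat_lit 26201,
  nat_lit 23533, nat_lit 23186, nat_lit 35978, nat_lit 13881, nat_lit 14749, nat_lit 14576,
  nat_lit 15112, nat_lit 24647, nat_lit 26402, nat_lit 29162, nat_lit 15940, nat_lit 15232,
  nat_lit 5217, nat_lit 6696, nat_lit 22249, nat_lit 17676, nat_lit 29492, nat_lit 40668,
  nat_lit 40747, nat_lit 19719, nat_lit 19807, nat_lit 13505, nat_lit 6362, nat_lit 17138,
  nat_lit 2056],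
   [nat_lit 10911588, nat_lit 202971, nat_lit 265666, nat_lit 2535, nat_lit 286939, nat_lit 5827,
  nat_lit 299413, nat_lit 4264, nat_lit 1769, nat_lit 322097, nat_lit 3443, nat_lit 2947,
  nat_lit 350366, nat_lit 3185, nat_lit 2516, nat_lit 1291, nat_lit 356859, nat_lit 2961,
  nat_lit 2424, nat_lit 2274, nat_lit 375792, nat_lit 2813, nat_lit 2227, nat_lit 1957,
  nat_lit 933, nat_lit 348657, nat_lit 2697, nat_lit 1936, nat_lit 1610, nat_lit 1383,
  nat_lit 600604, nat_lit 2543, nat_lit 1727, nat_lit 1406, nat_lit 1410, nat_lit 584,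
  nat_lit 363029, nat_lit 2388, nat_lit 1571, nat_lit 1398, nat_lit 1249, nat_lit 1152,
  nat_lit 474027, nat_lit 2274, nat_lit 1564, nat_lit 1272, nat_lit 1181, nat_lit 1033,
  nat_lit 525, nat_lit 413643, nat_lit 2199, nat_lit 1482, nat_lit 1228, nat_lit 1164,
  nat_lit 893, nat_lit 963, nat_lit 357368, nat_lit 2146, nat_lit 1478, nat_lit 1192,
  nat_lit 1066, nat_lit 950, nat_lit 831, nat_lit 491, nat_lit 735876, nat_lit 2162,
  nat_lit 1493, nat_lit 1233, nat_lit 1158, nat_lit 946, nat_lit 959, nat_lit 923, nat_lit 741,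
  nat_lit 1188, nat_lit 1071, nat_lit 852, nat_lit 770, nat_lit 848, nat_lit 362, nat_lit 553,
  nat_lit 833, nat_lit 778, nat_lit 819, nat_lit 730, nat_lit 380, nat_lit 826, nat_lit 757,
  nat_lit 367, nat_lit 386, nat_lit 709, nat_lit 125]),
  ([nat_lit 3550596, nat_lit 143758, nat_lit 197444, nat_lit 1568, nat_lit 224747, nat_lit 4417,
  nat_lit 248755, nat_lit 5655, nat_lit 3316, nat_lit 329764, nat_lit 6998, nat_lit 8418,
  nat_lit 336598, nat_lit 9323, nat_lit 10724, nat_lit 5436, nat_lit 441593, nat_lit 12373,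
  nat_lit 15206, nat_lit 14285, nat_lit 510828, nat_lit 19830, nat_lit 21314, nat_lit 21241,
  nat_lit 10454, nat_lit 516276, nat_lit 25379, nat_lit 29939, nat_lit 36390, nat_lit 42669,
  nat_lit 1180184, nat_lit 58538, nat_lit 81329, nat_lit 90657, nat_lit 89046, nat_lit 47370,
  nat_lit 664110, nat_lit 75945, nat_lit 55807, nat_lit 31544, nat_lit 14410, nat_lit 12476,
  nat_lit 900668, nat_lit 63510, nat_lit 29594, nat_lit 15690, nat_lit 16889, nat_lit 13094,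
  nat_lit 6536, nat_lit 822965, nat_lit 41603, nat_lit 32056, nat_lit 20066, nat_lit 15162,
  nat_lit 15537, nat_lit 16202, nat_lit 795514, nat_lit 37433, nat_lit 23465, nat_lit 31038,
  nat_lit 17999, nat_lit 17811, nat_lit 16869, nat_lit 6906, nat_lit 4036343, nat_lit 40031,
  nat_lit 29873, nat_lit 26369, nat_lit 33263, nat_lit 17647, nat_lit 17546, nat_lit 16651,
  nat_lit 17343, nat_lit 28643, nat_lit 30276, nat_lit 30897, nat_lit 18633, nat_lit 18484,
  nat_lit 7354, nat_lit 9488, nat_lit 26496, nat_lit 21956, nat_lit 29848, nat_lit 36259,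
  nat_lit 31491, nat_lit 23605, nat_lit 23189, nat_lit 12241, nat_lit 8561, nat_lit 18642,
  nat_lit 2770],
   [nat_lit 10289937, nat_lit 348892, nat_lit 384177, nat_lit 5457, nat_lit 372099, nat_lit 9864,
  nat_lit 360920, nat_lit 7210, nat_lit 2945, nat_lit 370343, nat_lit 5767, nat_lit 4647,
  nat_lit 380762, nat_lit 5205, nat_lit 3791, nat_lit 1973, nat_lit 384393, nat_lit 4727,
  nat_lit 3488, nat_lit 3190, nat_lit 395700, nat_lit 4445, nat_lit 3138, nat_lit 2678,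
  nat_lit 1295, nat_lit 393674, nat_lit 4202, nat_lit 2733, nat_lit 2287, nat_lit 1980,
  nat_lit 542163, nat_lit 3974, nat_lit 2517, nat_lit 2006, nat_lit 1956, nat_lit 810,
  nat_lit 410202, nat_lit 3734, nat_lit 2276, nat_lit 1904, nat_lit 1692, nat_lit 1514,
  nat_lit 470685, nat_lit 3561, nat_lit 2223, nat_lit 1744, nat_lit 1635, nat_lit 1369,
  nat_lit 698, nat_lit 445960, nat_lit 3442, nat_lit 2123, nat_lit 1676, nat_lit 1582,
  nat_lit 1214, nat_lit 1270, nat_lit 429339, nat_lit 3364, nat_lit 2097, nat_lit 1634,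
  nat_lit 1469, nat_lit 1259, nat_lit 1079, nat_lit 638, nat_lit 631097, nat_lit 3366,
  nat_lit 2120, nat_lit 1634, nat_lit 1526, nat_lit 1202, nat_lit 1182, nat_lit 1153,
  nat_lit 1049, nat_lit 1577, nat_lit 1451, nat_lit 1132, nat_lit 1014, nat_lit 1090,
  nat_lit 483, nat_lit 737, nat_lit 1122, nat_lit 1006, nat_lit 1069, nat_lit 951, nat_lit 492,
  nat_lit 1047, nat_lit 966, nat_lit 469, nat_lit 484, nat_lit 910, nat_lit 159]),
  ([nat_lit 3159163, nat_lit 230273, nat_lit 266809, nat_lit 4442, nat_lit 272439, nat_lit 10483,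
  nat_lit 281045, nat_lit 11789, nat_lit 6534, nat_lit 349728, nat_lit 13317, nat_lit 14524,
  nat_lit 345406, nat_lit 16300, nat_lit 16774, nat_lit 8251, nat_lit 437651, nat_lit 20618,
  nat_lit 21978, nat_lit 19421, nat_lit 501014, nat_lit 30179, nat_lit 27930, nat_lit 26552,
  nat_lit 12981, nat_lit 537535, nat_lit 38332, nat_lit 38546, nat_lit 42581, nat_lit 47348,
  nat_lit 1054040, nat_lit 77091, nat_lit 90402, nat_lit 95762, nat_lit 92894, nat_lit 47896,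
  nat_lit 693651, nat_lit 97903, nat_lit 65530, nat_lit 35877, nat_lit 17856, nat_lit 15241,
  nat_lit 875880, nat_lit 83947, nat_lit 35817, nat_lit 19376, nat_lit 19049, nat_lit 15249,
  nat_lit 7721, nat_lit 870707, nat_lit 57913, nat_lit 36698, nat_lit 23700, nat_lit 18038,
  nat_lit 17162, nat_lit 17524, nat_lit 962718, nat_lit 50365, nat_lit 29147, nat_lit 33407,
  nat_lit 20890, nat_lit 19259, nat_lit 18137, nat_lit 8100, nat_lit 3716309, nat_lit 52866,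
  nat_lit 34922, nat_lit 29507, nat_lit 33125, nat_lit 20240, nat_lit 19448, nat_lit 18159,
  nat_lit 19546, nat_lit 31799, nat_lit 32405, nat_lit 31973, nat_lit 20384, nat_lit 20645,
  nat_lit 8651, nat_lit 11428, nat_lit 28853, nat_lit 24740, nat_lit 30072, nat_lit 34123,
  nat_lit 27434, nat_lit 25573, nat_lit 25157, nat_lit 12273, nat_lit 9867, nat_lit 19687,
  nat_lit 3140],
   [nat_lit 9758034, nat_lit 491921, nat_lit 486580, nat_lit 9233, nat_lit 439840, nat_lit 14548,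
  nat_lit 407269, nat_lit 10505, nat_lit 4249, nat_lit 404624, nat_lit 8293, nat_lit 6481,
  nat_lit 404510, nat_lit 7363, nat_lit 5105, nat_lit 2679, nat_lit 403813, nat_lit 6587,
  nat_lit 4566, nat_lit 4154, nat_lit 410472, nat_lit 6135, nat_lit 4059, nat_lit 3416,
  nat_lit 1680, nat_lit 416541, nat_lit 5759, nat_lit 3533, nat_lit 2945, nat_lit 2574,
  nat_lit 519873, nat_lit 5443, nat_lit 3288, nat_lit 2595, nat_lit 2495, nat_lit 1042,
  nat_lit 432327, nat_lit 5110, nat_lit 2966, nat_lit 2397, nat_lit 2142, nat_lit 1882,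
  nat_lit 473539, nat_lit 4878, nat_lit 2869, nat_lit 2209, nat_lit 2074, nat_lit 1704,
  nat_lit 865, nat_lit 464094, nat_lit 4707, nat_lit 2746, nat_lit 2109, nat_lit 1985,
  nat_lit 1520, nat_lit 1562, nat_lit 472598, nat_lit 4606, nat_lit 2705, nat_lit 2050,
  nat_lit 1852, nat_lit 1556, nat_lit 1325, nat_lit 777, nat_lit 567197, nat_lit 4595,
  nat_lit 2729, nat_lit 2025, nat_lit 1894, nat_lit 1470, nat_lit 1413, nat_lit 1388,
  nat_lit 1346, nat_lit 1958, nat_lit 1816, nat_lit 1406, nat_lit 1246, nat_lit 1316,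
  nat_lit 596, nat_lit 913, nat_lit 1395, nat_lit 1226, nat_lit 1297, nat_lit 1160, nat_lit 597,
  nat_lit 1262, nat_lit 1172, nat_lit 568, nat_lit 582, nat_lit 1100, nat_lit 191])]

theorem run0 : run W0 data0 = true := by decide +kernel

end Vale.Agent.P154.AF.Eng
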