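import Vale.Agent.P154AF.Eng

/-! Run data, generations 7 to 14 (helper file). -/

namespace Vale.Agent.P154.AF.Eng

def W7 : List Nat :=
  [nat_lit 9758034, nat_lit 491921, nat_lit 486580, nat_lit 9233, nat_lit 439840, nat_lit 14548,
  nat_lit 407269, nat_lit 10505, nat_lit 4249, nat_lit 404624, nat_lit 8293, nat_lit 6481,
  nat_lit 404510, nat_lit 7363, nat_lit 5105, nat_lit 2679, nat_lit 403813, nat_lit 6587,
  nat_lit 4566, nat_lit 4154, nat_lit 410472, nat_lit 6135, nat_lit 4059, nat_lit 3416,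
  nat_lit 1680, nat_lit 416541, nat_lit 5759, nat_lit 3533, nat_lit 2945, nat_lit 2574,
  nat_lit 519873, nat_lit 5443, nat_lit 3288, nat_lit 2595, nat_lit 2495, nat_lit 1042,
  nat_lit 432327, nat_lit 5110, nat_lit 2966, nat_lit 2397, nat_lit 2142, nat_lit 1882,
  nat_lit 473539, nat_lit 4878, nat_lit 2869, nat_lit 2209, nat_lit 2074, nat_lit 1704,
  nat_lit 865, nat_lit 464094, nat_lit 4707, nat_lit 2746, nat_lit 2109, nat_lit 1985,
  nat_lit 1520, nat_lit 1562, nat_lit 472598, nat_lit 4606, nat_lit 2705, nat_lit 2050,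
  nat_lit 1852, nat_lit 1556, nat_lit 1325, nat_lit 777, nat_lit 567197, nat_lit 4595,
  nat_lit 2729, nat_lit 2025, nat_lit 1894, nat_lit 1470, nat_lit 1413, nat_lit 1388,
  nat_lit 1346, nat_lit 1958, nat_lit 1816, nat_lit 1406, nat_lit 1246, nat_lit 1316,
  nat_lit 596, nat_lit 913, nat_lit 1395, nat_lit 1226, nat_lit 1297, nat_lit 1160, nat_lit 597,
  nat_lit 1262, nat_lit 1172, nat_lit 568, nat_lit 582, nat_lit 1100, nat_lit 191]

def data7 : List (List Nat × List Nat) := [
  ([nat_lit 2842567, nat_lit 306047, nat_lit 319593, nat_lit 8626, nat_lit 304831, nat_lit 18269,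
  nat_lit 300649, nat_lit 18962, nat_lit 10158, nat_lit 360152, nat_lit 20230, nat_lit 20781,
  nat_lit 348622, nat_lit 23558, nat_lit 22594, nat_lit 10890, nat_lit 431835, nat_lit 28809,
  nat_lit 28169, nat_lit 23964, nat_lit 490870, nat_lit 40055, nat_lit 33793, nat_lit 31065,
  nat_lit 15073, nat_lit 541784, nat_lit 50388, nat_lit 45698, nat_lit 47606, nat_lit 51293,
  nat_lit 974732, nat_lit 93269, nat_lit 97897, nat_lit 100064, nat_lit 96145, nat_lit 48698,
  nat_lit 701699, nat_lit 116921, nat_lit 73613, nat_lit 39671, nat_lit 20627, nat_lit 17563,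
  nat_lit 861015, nat_lit 101979, nat_lit 41078, nat_lit 22434, nat_lit 21009, nat_lit 17033,
  nat_lit 8657, nat_lit 897979, nat_lit 72808, nat_lit 40773, nat_lit 26683, nat_lit 20247,
  nat_lit 18588, nat_lit 18779, nat_lit 1085058, nat_lit 62670, nat_lit 33901, nat_lit 35302,
  nat_lit 23162, nat_lit 20596, nat_lit 19322, nat_lit 8938, nat_lit 3473377, nat_lit 64526,
  nat_lit 39146, nat_lit 32243, nat_lit 33683, nat_lit 22221, nat_lit 20939, nat_lit 19435,
  nat_lit 21506, nat_lit 34398, nat_lit 33911, nat_lit 32891, nat_lit 21753, nat_lit 22255,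
  nat_lit 9545, nat_lit 12903, nat_lit 30460, nat_lit 26698, nat_lit 30394, nat_lit 33024,
  nat_lit 25315, nat_lit 26868, nat_lit 26510, nat_lit 12587, nat_lit 10777, nat_lit 20628,
  nat_lit 3382],
   [nat_lit 9303369, nat_lit 620150, nat_lit 572414, nat_lit 13516, nat_lit 494263, nat_lit 19556,
  nat_lit 443727, nat_lit 13945, nat_lit 5606, nat_lit 431028, nat_lit 10882, nat_lit 8355,
  nat_lit 423554, nat_lit 9546, nat_lit 6421, nat_lit 3387, nat_lit 418949, nat_lit 8454,
  nat_lit 5633, nat_lit 5129, nat_lit 422311, nat_lit 7816, nat_lit 4964, nat_lit 4149,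
  nat_lit 2068, nat_lit 430960, nat_lit 7300, nat_lit 4316, nat_lit 3584, nat_lit 3160,
  nat_lit 510272, nat_lit 6895, nat_lit 4035, nat_lit 3172, nat_lit 3026, nat_lit 1275,
  nat_lit 445409, nat_lit 6465, nat_lit 3633, nat_lit 2876, nat_lit 2582, nat_lit 2247,
  nat_lit 477950, nat_lit 6173, nat_lit 3490, nat_lit 2660, nat_lit 2499, nat_lit 2035,
  nat_lit 1029, nat_lit 476385, nat_lit 5949, nat_lit 3346, nat_lit 2527, nat_lit 2375,
  nat_lit 1816, nat_lit 1846, nat_lit 500610, nat_lit 5826, nat_lit 3290, nat_lit 2449,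
  nat_lit 2219, nat_lit 1843, nat_lit 1569, nat_lit 912, nat_lit 524277, nat_lit 5802,
  nat_lit 3313, nat_lit 2403, nat_lit 2254, nat_lit 1739, nat_lit 1647, nat_lit 1621,
  nat_lit 1630, nat_lit 2328, nat_lit 2168, nat_lit 1674, nat_lit 1472, nat_lit 1535,
  nat_lit 703, nat_lit 1081, nat_lit 1657, nat_lit 1441, nat_lit 1517, nat_lit 1363, nat_lit 700,
  nat_lit 1473, nat_lit 1375, nat_lit 665, nat_lit 677, nat_lit 1283, nat_lit 221]),
  ([nat_lit 2585244, nat_lit 366675, nat_lit 358589, nat_lit 13522, nat_lit 327107, nat_lit 26738,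
  nat_lit 313179, nat_lit 26346, nat_lit 13824, nat_lit 365731, nat_lit 27068, nat_lit 26790,
  nat_lit 349314, nat_lit 30516, nat_lit 27990, nat_lit 13310, nat_lit 425789, nat_lit 36442,
  nat_lit 33743, nat_lit 28014, nat_lit 481520, nat_lit 49023, nat_lit 38986, nat_lit 35009,
  nat_lit 16886, nat_lit 539930, nat_lit 61173, nat_lit 51812, nat_lit 51902, nat_lit 54751,
  nat_lit 918461, nat_lit 107170, nat_lit 104309, nat_lit 103876, nat_lit 99042, nat_lit 49591,
  nat_lit 702105, nat_lit 133280, nat_lit 80576, nat_lit 43052, nat_lit 23015, nat_lit 19613,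
  nat_lit 850384, nat_lit 117799, nat_lit 45652, nat_lit 25090, nat_lit 22798, nat_lit 18601,
  nat_lit 9462, nat_lit 915941, nat_lit 86200, nat_lit 44382, nat_lit 29239, nat_lit 22105,
  nat_lit 19873, nat_lit 19957, nat_lit 1176549, nat_lit 74049, nat_lit 37997, nat_lit 36974,
  nat_lit 25069, nat_lit 21831, nat_lit 20420, nat_lit 9616, nat_lit 3280928, nat_lit 75036,
  nat_lit 42786, nat_lit 34616, nat_lit 34452, nat_lit 23860, nat_lit 22214, nat_lit 20567,
  nat_lit 23223, nat_lit 36615, nat_lit 35151, nat_lit 33735, nat_lit 22917, nat_lit 23567,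
  nat_lit 10238, nat_lit 14095, nat_lit 31715, nat_lit 28203, nat_lit 30787, nat_lit 32465,
  nat_lit 24080, nat_lit 27873, nat_lit 27582, nat_lit 12947, nat_lit 11493, nat_lit 21497,
  nat_lit 3573],
   [nat_lit 8912577, nat_lit 730677, nat_lit 643988, nat_lit 18036, nat_lit 538824, nat_lit 24669,
  nat_lit 473456, nat_lit 17405, nat_lit 6970, nat_lit 452444, nat_lit 13460, nat_lit 10217,
  nat_lit 439382, nat_lit 11700, nat_lit 7717, nat_lit 4084, nat_lit 431469, nat_lit 10286,
  nat_lit 6676, nat_lit 6094, nat_lit 432268, nat_lit 9457, nat_lit 5844, nat_lit 4869,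
  nat_lit 2452, nat_lit 441467, nat_lit 8799, nat_lit 5074, nat_lit 4203, nat_lit 3735,
  nat_lit 505992, nat_lit 8304, nat_lit 4754, nat_lit 3736, nat_lit 3546, nat_lit 1507,
  nat_lit 454585, nat_lit 7778, nat_lit 4275, nat_lit 3340, nat_lit 3011, nat_lit 2606,
  nat_lit 482512, nat_lit 7428, nat_lit 4087, nat_lit 3097, nat_lit 2910, nat_lit 2361,
  nat_lit 1191, nat_lit 485732, nat_lit 7149, nat_lit 3920, nat_lit 2931, nat_lit 2753,
  nat_lit 2105, nat_lit 2125, nat_lit 519788, nat_lit 7005, nat_lit 3852, nat_lit 2833,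
  nat_lit 2571, nat_lit 2124, nat_lit 1811, nat_lit 1043, nat_lit 493516, nat_lit 6970,
  nat_lit 3874, nat_lit 2771, nat_lit 2605, nat_lit 2006, nat_lit 1881, nat_lit 1850,
  nat_lit 1903, nat_lit 2687, nat_lit 2507, nat_lit 1937, nat_lit 1692, nat_lit 1748,
  nat_lit 807, nat_lit 1242, nat_lit 1912, nat_lit 1651, nat_lit 1732, nat_lit 1562, nat_lit 802,
  nat_lit 1680, nat_lit 1577, nat_lit 760, nat_lit 771, nat_lit 1462, nat_lit 250]),
  ([nat_lit 2373835, nat_lit 413168, nat_lit 387221, nat_lit 18611, nat_lit 342735, nat_lit 35193,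
  nat_lit 321518, nat_lit 33483, nat_lit 17349, nat_lit 368702, nat_lit 33518, nat_lit 32408,
  nat_lit 348832, nat_lit 36945, nat_lit 32938, nat_lit 15523, nat_lit 420066, nat_lit 43368,
  nat_lit 38761, nat_lit 31671, nat_lit 473177, nat_lit 57014, nat_lit 43625, nat_lit 38535,
  nat_lit 18504, nat_lit 535728, nat_lit 70693, nat_lit 57157, nat_lit 55697, nat_lit 57867,
  nat_lit 875622, nat_lit 119105, nat_lit 109941, nat_lit 107350, nat_lit 101700, nat_lit 50511,
  nat_lit 699486, nat_lit 147407, nat_lit 86724, nat_lit 46118, nat_lit 25158, nat_lit 21479,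
  nat_lit 842082, nat_lit 131728, nat_lit 49717, nat_lit 27465, nat_lit 24452, nat_lit 20029,
  nat_lit 10187, nat_lit 928941, nat_lit 98215, nat_lit 47623, nat_lit 31494, nat_lit 23749,
  nat_lit 21060, nat_lit 21068, nat_lit 1246409, nat_lit 84463, nat_lit 41603, nat_lit 38508,
  nat_lit 26737, nat_lit 22981, nat_lit 21448, nat_lit 10208, nat_lit 3123576, nat_lit 84519,
  nat_lit 45991, nat_lit 36706, nat_lit 35290, nat_lit 25282, nat_lit 23354, nat_lit 21601,
  nat_lit 24737, nat_lit 38563, nat_lit 36249, nat_lit 34532, nat_lit 23954, nat_lit 24698,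
  nat_lit 10816, nat_lit 15099, nat_lit 32774, nat_lit 29435, nat_lit 31223, nat_lit 32217,
  nat_lit 23318, nat_lit 28725, nat_lit 28500, nat_lit 13304, nat_lit 12097, nat_lit 22310,
  nat_lit 3736],
   [nat_lit 8573612, nat_lit 824664, nat_lit 704002, nat_lit 22620, nat_lit 576004, nat_lit 29758,
  nat_lit 498363, nat_lit 20817, nat_lit 8317, nat_lit 470422, nat_lit 15987, nat_lit 12041,
  nat_lit 452914, nat_lit 13798, nat_lit 8981, nat_lit 4764, nat_lit 442198, nat_lit 12064,
  nat_lit 7690, nat_lit 7038, nat_lit 440901, nat_lit 11045, nat_lit 6695, nat_lit 5572,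
  nat_lit 2826, nat_lit 449801, nat_lit 10245, nat_lit 5806, nat_lit 4802, nat_lit 4295,
  nat_lit 504327, nat_lit 9664, nat_lit 5448, nat_lit 4285, nat_lit 4053, nat_lit 1736,
  nat_lit 461699, nat_lit 9043, nat_lit 4893, nat_lit 3789, nat_lit 3427, nat_lit 2957,
  nat_lit 486880, nat_lit 8635, nat_lit 4659, nat_lit 3520, nat_lit 3307, nat_lit 2680,
  nat_lit 1349, nat_lit 493301, nat_lit 8304, nat_lit 4471, nat_lit 3322, nat_lit 3118,
  nat_lit 2388, nat_lit 2397, nat_lit 533490, nat_lit 8138, nat_lit 4390, nat_lit 3206,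
  nat_lit 2910, nat_lit 2398, nat_lit 2049, nat_lit 1171, nat_lit 470420, nat_lit 8095,
  nat_lit 4411, nat_lit 3127, nat_lit 2947, nat_lit 2268, nat_lit 2114, nat_lit 2076,
  nat_lit 2165, nat_lit 3035, nat_lit 2833, nat_lit 2195, nat_lit 1908, nat_lit 1958,
  nat_lit 908, nat_lit 1397, nat_lit 2160, nat_lit 1857, nat_lit 1943, nat_lit 1758, nat_lit 901,
  nat_lit 1884, nat_lit 1776, nat_lit 855, nat_lit 863, nat_lit 1637, nat_lit 279]),
  ([nat_lit 2197742, nat_lit 448173, nat_lit 408297, nat_lit 23576, nat_lit 353888, nat_lit 43267,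
  nat_lit 327211, nat_lit 40173, nat_lit 20655, nat_lit 370168, nat_lit 39474, nat_lit 37604,
  nat_lit 347776, nat_lit 42802, nat_lit 37468, nat_lit 17553, nat_lit 414800, nat_lit 49599,
  nat_lit 43305, nat_lit 35008, nat_lit 465766, nat_lit 64109, nat_lit 47810, nat_lit 41737,
  nat_lit 19977, nat_lit 530634, nat_lit 79091, nat_lit 61911, nat_lit 59121, nat_lit 60723,
  nat_lit 841497, nat_lit 129420, nat_lit 114982, nat_lit 110563, nat_lit 104179, nat_lit 51429,
  nat_lit 695591, nat_lit 159719, nat_lit 92248, nat_lit 48939, nat_lit 27123, nat_lit 23209,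
  nat_lit 835289, nat_lit 144086, nat_lit 53390, nat_lit 29632, nat_lit 25998, nat_lit 21355,
  nat_lit 10856, nat_lit 938917, nat_lit 109039, nat_lit 50570, nat_lit 33527, nat_lit 25243,
  nat_lit 22171, nat_lit 22120, nat_lit 1300781, nat_lit 93982, nat_lit 44830, nat_lit 39938,
  nat_lit 28237, nat_lit 24061, nat_lit 22418, nat_lit 10744, nat_lit 2991735, nat_lit 93119,
  nat_lit 48862, nat_lit 38579, nat_lit 36142, nat_lit 26554, nat_lit 24399, nat_lit 22560,
  nat_lit 26092, nat_lit 40312, nat_lit 37258, nat_lit 35294, nat_lit 24901, nat_lit 25706,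
  nat_lit 11319, nat_lit 15971, nat_lit 33710, nat_lit 30489, nat_lit 31684, nat_lit 32159,
  nat_lit 22835, nat_lit 29484, nat_lit 29320, nat_lit 13648, nat_lit 12626, nat_lit 23074,
  nat_lit 3883],
   [nat_lit 8276439, nat_lit 904569, nat_lit 754835, nat_lit 27168, nat_lit 607554, nat_lit 34754,
  nat_lit 519660, nat_lit 24147, nat_lit 9632, nat_lit 485877, nat_lit 18446, nat_lit 13813,
  nat_lit 464715, nat_lit 15832, nat_lit 10207, nat_lit 5423, nat_lit 451598, nat_lit 13784,
  nat_lit 8672, nat_lit 7957, nat_lit 448530, nat_lit 12577, nat_lit 7518, nat_lit 6255,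
  nat_lit 3190, nat_lit 456758, nat_lit 11637, nat_lit 6513, nat_lit 5383, nat_lit 4839,
  nat_lit 504076, nat_lit 10974, nat_lit 6117, nat_lit 4819, nat_lit 4545, nat_lit 1959,
  nat_lit 467550, nat_lit 10260, nat_lit 5488, nat_lit 4225, nat_lit 3830, nat_lit 3301,
  nat_lit 490966, nat_lit 9796, nat_lit 5211, nat_lit 3930, nat_lit 3692, nat_lit 2993,
  nat_lit 1505, nat_lit 499651, nat_lit 9413, nat_lit 5001, nat_lit 3701, nat_lit 3472,
  nat_lit 2664, nat_lit 2664, nat_lit 543626, nat_lit 9227, nat_lit 4907, nat_lit 3566,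
  nat_lit 3237, nat_lit 2664, nat_lit 2283, nat_lit 1295, nat_lit 452449, nat_lit 9176,
  nat_lit 4928, nat_lit 3472, nat_lit 3278, nat_lit 2524, nat_lit 2345, nat_lit 2297,
  nat_lit 2417, nat_lit 3372, nat_lit 3149, nat_lit 2447, nat_lit 2120, nat_lit 2163,
  nat_lit 1007, nat_lit 1547, nat_lit 2401, nat_lit 2060, nat_lit 2149, nat_lit 1951,
  nat_lit 1000, nat_lit 2084, nat_lit 1972, nat_lit 948, nat_lit 954, nat_lit 1809, nat_lit 307]),
  ([nat_lit 2048925, nat_lit 474352, nat_lit 423886, nat_lit 28261, nat_lit 361932, nat_lit 50812,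
  nat_lit 331133, nat_lit 46360, nat_lit 23724, nat_lit 370700, nat_lit 44934, nat_lit 42399,
  nat_lit 346420, nat_lit 48120, nat_lit 41627, nat_lit 19422, nat_lit 409976, nat_lit 55206,
  nat_lit 47445, nat_lit 38079, nat_lit 459140, nat_lit 70433, nat_lit 51620, nat_lit 44678,
  nat_lit 21332, nat_lit 525263, nat_lit 86539, nat_lit 66195, nat_lit 62253, nat_lit 63370,
  nat_lit 813415, nat_lit 138425, nat_lit 119554, nat_lit 113559, nat_lit 106511, nat_lit 52333,
  nat_lit 691165, nat_lit 170564, nat_lit 97275, nat_lit 51560, nat_lit 28951, nat_lit 24830,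
  nat_lit 829541, nat_lit 155153, nat_lit 56752, nat_lit 31634, nat_lit 27453, nat_lit 22599,
  nat_lit 11482, nat_lit 946847, nat_lit 118860, nat_lit 53278, nat_lit 35387, nat_lit 26622,
  nat_lit 23220, nat_lit 23122, nat_lit 1343850, nat_lit 102714, nat_lit 47756, nat_lit 41284,
  nat_lit 29608, nat_lit 25081, nat_lit 23339, nat_lit 11239, nat_lit 2879067, nat_lit 100978,
  nat_lit 51467, nat_lit 40281, nat_lit 36987, nat_lit 27714, nat_lit 25372, nat_lit 23459,
  nat_lit 27319, nat_lit 41906, nat_lit 38200, nat_lit 36025, nat_lit 25778, nat_lit 26623,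
  nat_lit 11769, nat_lit 16744, nat_lit 34558, nat_lit 31419, nat_lit 32157, nat_lit 32224,
  nat_lit 22530, nat_lit 30177, nat_lit 30072, nat_lit 13975, nat_lit 13102, nat_lit 23796,
  nat_lit 4018],
   [nat_lit 8013084, nat_lit 972932, nat_lit 798400, nat_lit 31629, nat_lit 634725, nat_lit 39625,
  nat_lit 538160, nat_lit 27381, nat_lit 10912, nat_lit 499388, nat_lit 20831, nat_lit 15531,
  nat_lit 475155, nat_lit 17800, nat_lit 11395, nat_lit 6060, nat_lit 459953, nat_lit 15445,
  nat_lit 9623, nat_lit 8848, nat_lit 455355, nat_lit 14056, nat_lit 8314, nat_lit 6919,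
  nat_lit 3541, nat_lit 462753, nat_lit 12978, nat_lit 7196, nat_lit 5946, nat_lit 5366,
  nat_lit 504624, nat_lit 12237, nat_lit 6762, nat_lit 5337, nat_lit 5024, nat_lit 2176,
  nat_lit 472542, nat_lit 11431, nat_lit 6062, nat_lit 4647, nat_lit 4221, nat_lit 3635,
  nat_lit 494754, nat_lit 10912, nat_lit 5742, nat_lit 4328, nat_lit 4064, nat_lit 3298,
  nat_lit 1657, nat_lit 505097, nat_lit 10481, nat_lit 5511, nat_lit 4069, nat_lit 3814,
  nat_lit 2934, nat_lit 2924, nat_lit 551346, nat_lit 10274, nat_lit 5405, nat_lit 3916,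
  nat_lit 3553, nat_lit 2924, nat_lit 2513, nat_lit 1416, nat_lit 438060, nat_lit 10218,
  nat_lit 5425, nat_lit 3808, nat_lit 3600, nat_lit 2775, nat_lit 2571, nat_lit 2514,
  nat_lit 2661, nat_lit 3701, nat_lit 3454, nat_lit 2692, nat_lit 2327, nat_lit 2364,
  nat_lit 1104, nat_lit 1692, nat_lit 2635, nat_lit 2258, nat_lit 2351, nat_lit 2140,
  nat_lit 1096, nat_lit 2280, nat_lit 2165, nat_lit 1039, nat_lit 1043, nat_lit 1977,
  nat_lit 335]),
  ([nat_lit 1921383, nat_lit 493892, nat_lit 435464, nat_lit 32611, nat_lit 367757, nat_lit 57795,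
  nat_lit 333816, nat_lit 52058, nat_lit 26563, nat_lit 370613, nat_lit 49934, nat_lit 46828,
  nat_lit 344894, nat_lit 52959, nat_lit 45460, nat_lit 21151, nat_lit 405533, nat_lit 60276,
  nat_lit 51243, nat_lit 40925, nat_lit 453153, nat_lit 76109, nat_lit 55117, nat_lit 47402,
  nat_lit 22591, nat_lit 519881, nat_lit 93197, nat_lit 70097, nat_lit 65144, nat_lit 65840,
  nat_lit 789717, nat_lit 146374, nat_lit 123741, nat_lit 116368, nat_lit 108714, nat_lit 53214,
  nat_lit 686552, nat_lit 180225, nat_lit 101895, nat_lit 54014, nat_lit 30668, nat_lit 26360,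
  nat_lit 824534, nat_lit 165157, nat_lit 59860, nat_lit 33501, nat_lit 28829, nat_lit 23776,
  nat_lit 12072, nat_lit 953284, nat_lit 127837, nat_lit 55787, nat_lit 37107, nat_lit 27909,
  nat_lit 24217, nat_lit 24077, nat_lit 1378507, nat_lit 110763, nat_lit 50437, nat_lit 42557,
  nat_lit 30875, nat_lit 26050, nat_lit 24214, nat_lit 11703, nat_lit 2781224, nat_lit 108212,
  nat_lit 53858, nat_lit 41845, nat_lit 37815, nat_lit 28783, nat_lit 26284, nat_lit 24307,
  nat_lit 28444, nat_lit 43376, nat_lit 39090, nat_lit 36728, nat_lit 26598, nat_lit 27470,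
  nat_lit 12181, nat_lit 17439, nat_lit 35341, nat_lit 32257, nat_lit 32632, nat_lit 32370,
  nat_lit 22341, nat_lit 30822, nat_lit 30770, nat_lit 14288, nat_lit 13536, nat_lit 24481,
  nat_lit 4143],
   [nat_lit 7777296, nat_lit 1031954, nat_lit 836177, nat_lit 35979, nat_lit 658430,
  nat_lit 44360, nat_lit 554439, nat_lit 30517, nat_lit 12155, nat_lit 511350, nat_lit 23143,
  nat_lit 17194, nat_lit 484488, nat_lit 19705, nat_lit 12546, nat_lit 6676, nat_lit 467455,
  nat_lit 17051, nat_lit 10544, nat_lit 9711, nat_lit 461514, nat_lit 15485, nat_lit 9083,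
  nat_lit 7565, nat_lit 3881, nat_lit 468028, nat_lit 14271, nat_lit 7856, nat_lit 6491,
  nat_lit 5877, nat_lit 505632, nat_lit 13455, nat_lit 7386, nat_lit 5841, nat_lit 5488,
  nat_lit 2387, nat_lit 476907, nat_lit 12560, nat_lit 6617, nat_lit 5057, nat_lit 4600,
  nat_lit 3961, nat_lit 498251, nat_lit 11988, nat_lit 6255, nat_lit 4714, nat_lit 4425,
  nat_lit 3595, nat_lit 1805, nat_lit 509836, nat_lit 11509, nat_lit 6004, nat_lit 4426,
  nat_lit 4146, nat_lit 3196, nat_lit 3178, nat_lit 557373, nat_lit 11282, nat_lit 5886,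
  nat_lit 4256, nat_lit 3860, nat_lit 3177, nat_lit 2738, nat_lit 1534, nat_lit 426270,
  nat_lit 11222, nat_lit 5906, nat_lit 4134, nat_lit 3912, nat_lit 3020, nat_lit 2794,
  nat_lit 2726, nat_lit 2896, nat_lit 4020, nat_lit 3749, nat_lit 2932, nat_lit 2529,
  nat_lit 2561, nat_lit 1199, nat_lit 1833, nat_lit 2863, nat_lit 2451, nat_lit 2549,
  nat_lit 2324, nat_lit 1191, nat_lit 2472, nat_lit 2354, nat_lit 1129, nat_lit 1130,
  nat_lit 2142, nat_lit 362]),
  ([nat_lit 1810652, nat_lit 508449, nat_lit 444071, nat_lit 36621, nat_lit 371956, nat_lit 64241,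
  nat_lit 335598, nat_lit 57306, nat_lit 29193, nat_lit 370091, nat_lit 54526, nat_lit 50932,
  nat_lit 343264, nat_lit 57383, nat_lit 49012, nat_lit 22758, nat_lit 401405, nat_lit 64888,
  nat_lit 54750, nat_lit 43578, nat_lit 447683, nat_lit 81245, nat_lit 58348, nat_lit 49940,
  nat_lit 23766, nat_lit 514605, nat_lit 99199, nat_lit 73682, nat_lit 67833, nat_lit 68158,
  nat_lit 769314, nat_lit 153467, nat_lit 127606, nat_lit 119013, nat_lit 110803, nat_lit 54070,
  nat_lit 681911, nat_lit 188918, nat_lit 106173, nat_lit 56324, nat_lit 32290, nat_lit 27813,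
  nat_lit 820066, nat_lit 174278, nat_lit 62758, nat_lit 35255, nat_lit 30136, nat_lit 24895,
  nat_lit 12632, nat_lit 958574, nat_lit 136106, nat_lit 58129, nat_lit 38711, nat_lit 29119,
  nat_lit 25166, nat_lit 24990, nat_lit 1406787, nat_lit 118229, nat_lit 52916, nat_lit 43766,
  nat_lit 32058, nat_lit 26972, nat_lit 25050, nat_lit 12140, nat_lit 2695106, nat_lit 114922,
  nat_lit 56072, nat_lit 43294, nat_lit 38620, nat_lit 29779, nat_lit 27144, nat_lit 25110,
  nat_lit 29484, nat_lit 44743, nat_lit 39934, nat_lit 37405, nat_lit 27370, nat_lit 28260,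
  nat_lit 12561, nat_lit 18074, nat_lit 36072, nat_lit 33025, nat_lit 33105, nat_lit 32569,
  nat_lit 22233, nat_lit 31427, nat_lit 31424, nat_lit 14586, nat_lit 13937, nat_lit 25131,
  nat_lit 4261],
   [nat_lit 7564210, nat_lit 1083414, nat_lit 869304, nat_lit 40209, nat_lit 679343,
  nat_lit 48957, nat_lit 568915, nat_lit 33557, nat_lit 13362, nat_lit 522050, nat_lit 25384,
  nat_lit 18804, nat_lit 492902, nat_lit 21549, nat_lit 13662, nat_lit 7273, nat_lit 474246,
  nat_lit 18605, nat_lit 11437, nat_lit 10549, nat_lit 467112, nat_lit 16866, nat_lit 9828,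
  nat_lit 8192, nat_lit 4210, nat_lit 472738, nat_lit 15520, nat_lit 8496, nat_lit 7021,
  nat_lit 6372, nat_lit 506903, nat_lit 14632, nat_lit 7991, nat_lit 6330, nat_lit 5940,
  nat_lit 2593, nat_lit 480784, nat_lit 13651, nat_lit 7155, nat_lit 5455, nat_lit 4968,
  nat_lit 4279, nat_lit 501476, nat_lit 13028, nat_lit 6752, nat_lit 5089, nat_lit 4774,
  nat_lit 3885, nat_lit 1949, nat_lit 514006, nat_lit 12503, nat_lit 6481, nat_lit 4774,
  nat_lit 4469, nat_lit 3453, nat_lit 3425, nat_lit 562179, nat_lit 12256, nat_lit 6351,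
  nat_lit 4586, nat_lit 4157, nat_lit 3423, nat_lit 2958, nat_lit 1649, nat_lit 416422,
  nat_lit 12192, nat_lit 6371, nat_lit 4452, nat_lit 4216, nat_lit 3259, nat_lit 3011,
  nat_lit 2933, nat_lit 3124, nat_lit 4331, nat_lit 4035, nat_lit 3166, nat_lit 2726,
  nat_lit 2752, nat_lit 1291, nat_lit 1969, nat_lit 3086, nat_lit 2641, nat_lit 2742,
  nat_lit 2504, nat_lit 1283, nat_lit 2659, nat_lit 2538, nat_lit 1216, nat_lit 1215,
  nat_lit 2303, nat_lit 388])]

theorem run7 : run W7 data7 = true := by decide +kernel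

end Vale.Agent.P154.AF.Eng
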