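import Vale.Agent.P154AF.Eng
import Vale.Agent.P154AF.Run7

/-! Run data, generations 56 to 63 (helper file). -/

namespace Vale.Agent.P154.AF.Eng

def W56 : List Nat :=
  [nat_lit 3688395, nat_lit 1641860, nat_lit 1276432, nat_lit 180981, nat_lit 953105,
  nat_lit 207724, nat_lit 771519, nat_lit 139226, nat_lit 56829, nat_lit 678290, nat_lit 104649,
  nat_lit 75852, nat_lit 621320, nat_lit 86775, nat_lit 53782, nat_lit 28291, nat_lit 580072,
  nat_lit 73710, nat_lit 43744, nat_lit 40419, nat_lit 555885, nat_lit 65904, nat_lit 36788,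
  nat_lit 31358, nat_lit 15680, nat_lit 544010, nat_lit 59744, nat_lit 31818, nat_lit 26622,
  nat_lit 24164, nat_lit 548174, nat_lit 56353, nat_lit 29917, nat_lit 24359, nat_lit 22341,
  nat_lit 10011, nat_lit 537226, nat_lit 52327, nat_lit 26760, nat_lit 20358, nat_lit 18496,
  nat_lit 16129, nat_lit 549987, nat_lit 49918, nat_lit 24945, nat_lit 19221, nat_lit 17540,
  nat_lit 14711, nat_lit 7330, nat_lit 561866, nat_lit 47877, nat_lit 23956, nat_lit 17926,
  nat_lit 16265, nat_lit 13159, nat_lit 12727, nat_lit 585546, nat_lit 46834, nat_lit 23338,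
  nat_lit 17084, nat_lit 15063, nat_lit 12664, nat_lit 11418, nat_lit 5959, nat_lit 318332,
  nat_lit 46616, nat_lit 23291, nat_lit 16552, nat_lit 15237, nat_lit 12149, nat_lit 11311,
  nat_lit 10796, nat_lit 11500, nat_lit 16207, nat_lit 14517, nat_lit 11885, nat_lit 10285,
  nat_lit 10052, nat_lit 4808, nat_lit 7029, nat_lit 11460, nat_lit 9935, nat_lit 10085,
  nat_lit 9324, nat_lit 4902, nat_lit 9775, nat_lit 9502, nat_lit 4529, nat_lit 4464,
  nat_lit 8526, nat_lit 1414]

def data56 : List (List Nat × List Nat) := [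
  ([nat_lit 411496, nat_lit 390215, nat_lit 359653, nat_lit 93590, nat_lit 299376, nat_lit 171597,
  nat_lit 267551, nat_lit 150430, nat_lit 80497, nat_lit 280769, nat_lit 138790, nat_lit 137491,
  nat_lit 258254, nat_lit 138673, nat_lit 126992, nat_lit 59404, nat_lit 285089, nat_lit 149241,
  nat_lit 131435, nat_lit 107422, nat_lit 312408, nat_lit 173507, nat_lit 131636, nat_lit 111910,
  nat_lit 53029, nat_lit 359567, nat_lit 205114, nat_lit 152593, nat_lit 132656, nat_lit 126912,
  nat_lit 466372, nat_lit 273582, nat_lit 215139, nat_lit 187130, nat_lit 168699, nat_lit 80437,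
  nat_lit 525108, nat_lit 347960, nat_lit 208403, nat_lit 121583, nat_lit 81619, nat_lit 72562,
  nat_lit 692517, nat_lit 362302, nat_lit 141849, nat_lit 85674, nat_lit 69775, nat_lit 59523,
  nat_lit 29691, nat_lit 938762, nat_lit 324524, nat_lit 122364, nat_lit 82603, nat_lit 63875,
  nat_lit 54630, nat_lit 53253, nat_lit 1499577, nat_lit 298464, nat_lit 115501, nat_lit 80486,
  nat_lit 64299, nat_lit 54735, nat_lit 50515, nat_lit 24930, nat_lit 1405835, nat_lit 282764,
  nat_lit 113448, nat_lit 81236, nat_lit 65440, nat_lit 56434, nat_lit 51732, nat_lit 48526,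
  nat_lit 56833, nat_lit 81333, nat_lit 65993, nat_lit 59355, nat_lit 49475, nat_lit 50045,
  nat_lit 22984, nat_lit 33080, nat_lit 57625, nat_lit 53385, nat_lit 50783, nat_lit 47319,
  nat_lit 28247, nat_lit 49678, nat_lit 50336, nat_lit 23715, nat_lit 24156, nat_lit 44149,
  nat_lit 7570],
   [nat_lit 3619676, nat_lit 1643093, nat_lit 1279138, nat_lit 184828, nat_lit 955360,
  nat_lit 212356, nat_lit 773482, nat_lit 142370, nat_lit 58171, nat_lit 679925, nat_lit 107058,
  nat_lit 77605, nat_lit 622740, nat_lit 88770, nat_lit 55036, nat_lit 28934, nat_lit 581265,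
  nat_lit 75408, nat_lit 44762, nat_lit 41342, nat_lit 556896, nat_lit 67419, nat_lit 37640,
  nat_lit 32095, nat_lit 16029, nat_lit 544793, nat_lit 61115, nat_lit 32562, nat_lit 27250,
  nat_lit 24719, nat_lit 548688, nat_lit 57645, nat_lit 30613, nat_lit 24932, nat_lit 22855,
  nat_lit 10243, nat_lit 537780, nat_lit 53529, nat_lit 27386, nat_lit 20840, nat_lit 18926,
  nat_lit 16508, nat_lit 550363, nat_lit 51067, nat_lit 25529, nat_lit 19680, nat_lit 17944,
  nat_lit 15056, nat_lit 7501, nat_lit 562047, nat_lit 48983, nat_lit 24518, nat_lit 18355,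
  nat_lit 16639, nat_lit 13472, nat_lit 13026, nat_lit 585153, nat_lit 47915, nat_lit 23884,
  nat_lit 17492, nat_lit 15412, nat_lit 12961, nat_lit 11692, nat_lit 6098, nat_lit 317326,
  nat_lit 47686, nat_lit 23831, nat_lit 16949, nat_lit 15584, nat_lit 12432, nat_lit 11577,
  nat_lit 11049, nat_lit 11770, nat_lit 16596, nat_lit 14851, nat_lit 12163, nat_lit 10531,
  nat_lit 10289, nat_lit 4922, nat_lit 7192, nat_lit 11730, nat_lit 10173, nat_lit 10322,
  nat_lit 9543, nat_lit 5021, nat_lit 10004, nat_lit 9724, nat_lit 4635, nat_lit 4569,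
  nat_lit 8730, nat_lit 1448]),
  ([nat_lit 396428, nat_lit 383464, nat_lit 354820, nat_lit 93800, nat_lit 295835, nat_lit 172629,
  nat_lit 264672, nat_lit 151571, nat_lit 81269, nat_lit 277750, nat_lit 139960, nat_lit 139031,
  nat_lit 255642, nat_lit 139857, nat_lit 128495, nat_lit 60146, nat_lit 282079, nat_lit 150516,
  nat_lit 132945, nat_lit 108820, nat_lit 309127, nat_lit 174918, nat_lit 133165, nat_lit 113303,
  nat_lit 53700, nat_lit 355823, nat_lit 206753, nat_lit 154233, nat_lit 134115, nat_lit 128278,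
  nat_lit 461188, nat_lit 275440, nat_lit 216997, nat_lit 188723, nat_lit 170140, nat_lit 81124,
  nat_lit 520979, nat_lit 350683, nat_lit 210734, nat_lit 123302, nat_lit 83006, nat_lit 73824,
  nat_lit 688742, nat_lit 365982, nat_lit 143924, nat_lit 87049, nat_lit 70878, nat_lit 60505,
  nat_lit 30170, nat_lit 935779, nat_lit 328618, nat_lit 124066, nat_lit 83775, nat_lit 64823,
  nat_lit 55463, nat_lit 54045, nat_lit 1494310, nat_lit 302592, nat_lit 117082, nat_lit 81510,
  nat_lit 65159, nat_lit 55504, nat_lit 51223, nat_lit 25283, nat_lit 1387017, nat_lit 286770,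
  nat_lit 114925, nat_lit 82229, nat_lit 66212, nat_lit 57139, nat_lit 52396, nat_lit 49166,
  nat_lit 57547, nat_lit 82299, nat_lit 66732, nat_lit 59987, nat_lit 50082, nat_lit 50635,
  nat_lit 23271, nat_lit 33459, nat_lit 58240, nat_lit 53945, nat_lit 51314, nat_lit 47815,
  nat_lit 28495, nat_lit 50198, nat_lit 50859, nat_lit 23971, nat_lit 24421, nat_lit 44668,
  nat_lit 7658],
   [nat_lit 3550567, nat_lit 1643892, nat_lit 1281622, nat_lit 188753, nat_lit 957487,
  nat_lit 217104, nat_lit 775365, nat_lit 145599, nat_lit 59551, nat_lit 681504, nat_lit 109535,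
  nat_lit 79410, nat_lit 624115, nat_lit 90824, nat_lit 56328, nat_lit 29596, nat_lit 582422,
  nat_lit 77155, nat_lit 45811, nat_lit 42292, nat_lit 557877, nat_lit 68979, nat_lit 38520,
  nat_lit 32855, nat_lit 16389, nat_lit 545549, nat_lit 62528, nat_lit 33329, nat_lit 27897,
  nat_lit 25290, nat_lit 549179, nat_lit 58976, nat_lit 31331, nat_lit 25524, nat_lit 23384,
  nat_lit 10481, nat_lit 538309, nat_lit 54767, nat_lit 28032, nat_lit 21339, nat_lit 19369,
  nat_lit 16900, nat_lit 550710, nat_lit 52252, nat_lit 26132, nat_lit 20154, nat_lit 18360,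
  nat_lit 15412, nat_lit 7678, nat_lit 562195, nat_lit 50123, nat_lit 25099, nat_lit 18799,
  nat_lit 17025, nat_lit 13795, nat_lit 13334, nat_lit 584727, nat_lit 49029, nat_lit 24447,
  nat_lit 17914, nat_lit 15772, nat_lit 13267, nat_lit 11976, nat_lit 6240, nat_lit 316321,
  nat_lit 48788, nat_lit 24389, nat_lit 17359, nat_lit 15942, nat_lit 12725, nat_lit 11852,
  nat_lit 11310, nat_lit 12048, nat_lit 16999, nat_lit 15196, nat_lit 12449, nat_lit 10785,
  nat_lit 10532, nat_lit 5040, nat_lit 7361, nat_lit 12009, nat_lit 10419, nat_lit 10566,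
  nat_lit 9769, nat_lit 5143, nat_lit 10240, nat_lit 9953, nat_lit 4745, nat_lit 4678,
  nat_lit 8940, nat_lit 1482]),
  ([nat_lit 381548, nat_lit 376561, nat_lit 349856, nat_lit 93964, nat_lit 292195, nat_lit 173608,
  nat_lit 261712, nat_lit 152679, nat_lit 82033, nat_lit 274656, nat_lit 141110, nat_lit 140570,
  nat_lit 252965, nat_lit 141027, nat_lit 130009, nat_lit 60896, nat_lit 279005, nat_lit 151781,
  nat_lit 134468, nat_lit 110238, nat_lit 305781, nat_lit 176321, nat_lit 134712, nat_lit 114720,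
  nat_lit 54383, nat_lit 352010, nat_lit 208386, nat_lit 155895, nat_lit 135599, nat_lit 129669,
  nat_lit 455943, nat_lit 277291, nat_lit 218881, nat_lit 190345, nat_lit 171611, nat_lit 81827,
  nat_lit 516757, nat_lit 353415, nat_lit 213109, nat_lit 125064, nat_lit 84432, nat_lit 75122,
  nat_lit 684859, nat_lit 369700, nat_lit 146052, nat_lit 88461, nat_lit 72012, nat_lit 61516,
  nat_lit 30662, nat_lit 932649, nat_lit 332774, nat_lit 125813, nat_lit 84978, nat_lit 65797,
  nat_lit 56320, nat_lit 54859, nat_lit 1488745, nat_lit 306795, nat_lit 118702, nat_lit 82562,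
  nat_lit 66042, nat_lit 56294, nat_lit 51952, nat_lit 25646, nat_lit 1368157, nat_lit 290855,
  nat_lit 116439, nat_lit 83248, nat_lit 67006, nat_lit 57863, nat_lit 53079, nat_lit 49824,
  nat_lit 58280, nat_lit 83290, nat_lit 67492, nat_lit 60638, nat_lit 50706, nat_lit 51242,
  nat_lit 23565, nat_lit 33847, nat_lit 58873, nat_lit 54521, nat_lit 51862, nat_lit 48327,
  nat_lit 28750, nat_lit 50734, nat_lit 51396, nat_lit 24234, nat_lit 24694, nat_lit 45201,
  nat_lit 7749],
   [nat_lit 3481001, nat_lit 1644241, nat_lit 1283877, nat_lit 192760, nat_lit 959483,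
  nat_lit 221976, nat_lit 777165, nat_lit 148917, nat_lit 60974, nat_lit 683024, nat_lit 112085,
  nat_lit 81269, nat_lit 625445, nat_lit 92938, nat_lit 57661, nat_lit 30278, nat_lit 583542,
  nat_lit 78956, nat_lit 46893, nat_lit 43271, nat_lit 558827, nat_lit 70587, nat_lit 39428,
  nat_lit 33640, nat_lit 16759, nat_lit 546278, nat_lit 63985, nat_lit 34122, nat_lit 28566,
  nat_lit 25879, nat_lit 549645, nat_lit 60348, nat_lit 32072, nat_lit 26135, nat_lit 23930,
  nat_lit 10727, nat_lit 538811, nat_lit 56044, nat_lit 28700, nat_lit 21854, nat_lit 19827,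
  nat_lit 17304, nat_lit 551028, nat_lit 53473, nat_lit 26755, nat_lit 20645, nat_lit 18791,
  nat_lit 15780, nat_lit 7861, nat_lit 562309, nat_lit 51299, nat_lit 25699, nat_lit 19259,
  nat_lit 17424, nat_lit 14129, nat_lit 13653, nat_lit 584267, nat_lit 50178, nat_lit 25030,
  nat_lit 18350, nat_lit 16145, nat_lit 13583, nat_lit 12270, nat_lit 6388, nat_lit 315315,
  nat_lit 49925, nat_lit 24966, nat_lit 17783, nat_lit 16312, nat_lit 13027, nat_lit 12135,
  nat_lit 11579, nat_lit 12335, nat_lit 17415, nat_lit 15552, nat_lit 12745, nat_lit 11048,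
  nat_lit 10784, nat_lit 5162, nat_lit 7535, nat_lit 12297, nat_lit 10673, nat_lit 10819,
  nat_lit 10003, nat_lit 5270, nat_lit 10484, nat_lit 10189, nat_lit 4858, nat_lit 4790,
  nat_lit 9157, nat_lit 1518]),
  ([nat_lit 366858, nat_lit 369501, nat_lit 344754, nat_lit 94080, nat_lit 288452, nat_lit 174529,
  nat_lit 258668, nat_lit 153754, nat_lit 82786, nat_lit 271481, nat_lit 142240, nat_lit 142112,
  nat_lit 250220, nat_lit 142182, nat_lit 131532, nat_lit 61652, nat_lit 275863, nat_lit 153034,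
  nat_lit 136004, nat_lit 111678, nat_lit 302364, nat_lit 177713, nat_lit 136278, nat_lit 116160,
  nat_lit 55078, nat_lit 348123, nat_lit 210012, nat_lit 157579, nat_lit 137109, nat_lit 131087,
  nat_lit 450629, nat_lit 279139, nat_lit 220793, nat_lit 191999, nat_lit 173116, nat_lit 82547,
  nat_lit 512438, nat_lit 356158, nat_lit 215529, nat_lit 126871, nat_lit 85899, nat_lit 76459,
  nat_lit 680858, nat_lit 373458, nat_lit 148235, nat_lit 89914, nat_lit 73179, nat_lit 62557,
  nat_lit 31170, nat_lit 929365, nat_lit 336999, nat_lit 127606, nat_lit 86215, nat_lit 66799,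
  nat_lit 57202, nat_lit 55698, nat_lit 1482867, nat_lit 311077, nat_lit 120365, nat_lit 83645,
  nat_lit 66951, nat_lit 57108, nat_lit 52702, nat_lit 26019, nat_lit 1349236, nat_lit 295024,
  nat_lit 117993, nat_lit 84296, nat_lit 67824, nat_lit 58608, nat_lit 53782, nat_lit 50501,
  nat_lit 59032, nat_lit 84310, nat_lit 68275, nat_lit 61308, nat_lit 51349, nat_lit 51866,
  nat_lit 23868, nat_lit 34247, nat_lit 59525, nat_lit 55115, nat_lit 52427, nat_lit 48856,
  nat_lit 29015, nat_lit 51286, nat_lit 51949, nat_lit 24506, nat_lit 24975, nat_lit 45751,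
  nat_lit 7843],
   [nat_lit 3410944, nat_lit 1644114, nat_lit 1285888, nat_lit 196853, nat_lit 961338,
  nat_lit 226980, nat_lit 778877, nat_lit 152332, nat_lit 62441, nat_lit 684482, nat_lit 114712,
  nat_lit 83187, nat_lit 626727, nat_lit 95119, nat_lit 59038, nat_lit 30982, nat_lit 584623,
  nat_lit 80814, nat_lit 48012, nat_lit 44281, nat_lit 559743, nat_lit 72247, nat_lit 40366,
  nat_lit 34451, nat_lit 17141, nat_lit 546976, nat_lit 65489, nat_lit 34942, nat_lit 29257,
  nat_lit 26487, nat_lit 550084, nat_lit 61764, nat_lit 32839, nat_lit 26767, nat_lit 24494,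
  nat_lit 10981, nat_lit 539286, nat_lit 57363, nat_lit 29391, nat_lit 22387, nat_lit 20301,
  nat_lit 17723, nat_lit 551314, nat_lit 54735, nat_lit 27400, nat_lit 21152, nat_lit 19235,
  nat_lit 16160, nat_lit 8050, nat_lit 562386, nat_lit 52513, nat_lit 26320, nat_lit 19734,
  nat_lit 17836, nat_lit 14475, nat_lit 13982, nat_lit 583771, nat_lit 51365, nat_lit 25633,
  nat_lit 18802, nat_lit 16530, nat_lit 13910, nat_lit 12573, nat_lit 6541, nat_lit 314307,
  nat_lit 51099, nat_lit 25562, nat_lit 18223, nat_lit 16694, nat_lit 13339, nat_lit 12429,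
  nat_lit 11858, nat_lit 12632, nat_lit 17847, nat_lit 15920, nat_lit 13051, nat_lit 11320,
  nat_lit 11045, nat_lit 5288, nat_lit 7715, nat_lit 12595, nat_lit 10936, nat_lit 11081,
  nat_lit 10245, nat_lit 5401, nat_lit 10736, nat_lit 10433, nat_lit 4975, nat_lit 4907,
  nat_lit 9383, nat_lit 1555]),
  ([nat_lit 352350, nat_lit 362280, nat_lit 339510, nat_lit 94145, nat_lit 284601, nat_lit 175390,
  nat_lit 255535, nat_lit 154793, nat_lit 83530, nat_lit 268222, nat_lit 143347, nat_lit 143654,
  nat_lit 247403, nat_lit 143322, nat_lit 133066, nat_lit 62417, nat_lit 272647, nat_lit 154275,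
  nat_lit 137555, nat_lit 113141, nat_lit 298873, nat_lit 179095, nat_lit 137866, nat_lit 117627,
  nat_lit 55786, nat_lit 344157, nat_lit 211630, nat_lit 159287, nat_lit 138648, nat_lit 132534,
  nat_lit 445240, nat_lit 280980, nat_lit 222734, nat_lit 193687, nat_lit 174656, nat_lit 83285,
  nat_lit 508014, nat_lit 358910, nat_lit 217997, nat_lit 128728, nat_lit 87411, nat_lit 77836,
  nat_lit 676732, nat_lit 377259, nat_lit 150478, nat_lit 91409, nat_lit 74382, nat_lit 63631,
  nat_lit 31692, nat_lit 925916, nat_lit 341295, nat_lit 129451, nat_lit 87488, nat_lit 67832,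
  nat_lit 58113, nat_lit 56563, nat_lit 1476664, nat_lit 315443, nat_lit 122072, nat_lit 84761,
  nat_lit 67887, nat_lit 57946, nat_lit 53475, nat_lit 26404, nat_lit 1330243, nat_lit 299285,
  nat_lit 119590, nat_lit 85375, nat_lit 68668, nat_lit 59374, nat_lit 54506, nat_lit 51199,
  nat_lit 59806, nat_lit 85359, nat_lit 69082, nat_lit 62000, nat_lit 52013, nat_lit 52510,
  nat_lit 24181, nat_lit 34658, nat_lit 60199, nat_lit 55728, nat_lit 53010, nat_lit 49403,
  nat_lit 29290, nat_lit 51856, nat_lit 52519, nat_lit 24785, nat_lit 25264, nat_lit 46316,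
  nat_lit 7940],
   [nat_lit 3340347, nat_lit 1643488, nat_lit 1287645, nat_lit 201036, nat_lit 963047,
  nat_lit 232122, nat_lit 780497, nat_lit 155847, nat_lit 63955, nat_lit 685875, nat_lit 117422,
  nat_lit 85168, nat_lit 627957, nat_lit 97369, nat_lit 60461, nat_lit 31708, nat_lit 585662,
  nat_lit 82732, nat_lit 49170, nat_lit 45325, nat_lit 560624, nat_lit 73961, nat_lit 41338,
  nat_lit 35291, nat_lit 17536, nat_lit 547644, nat_lit 67044, nat_lit 35791, nat_lit 29973,
  nat_lit 27116, nat_lit 550495, nat_lit 63227, nat_lit 33634, nat_lit 27421, nat_lit 25077,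
  nat_lit 11243, nat_lit 539730, nat_lit 58726, nat_lit 30106, nat_lit 22940, nat_lit 20790,
  nat_lit 18156, nat_lit 551566, nat_lit 56039, nat_lit 28068, nat_lit 21678, nat_lit 19695,
  nat_lit 16554, nat_lit 8246, nat_lit 562425, nat_lit 53769, nat_lit 26963, nat_lit 20228,
  nat_lit 18262, nat_lit 14832, nat_lit 14324, nat_lit 583237, nat_lit 52592, nat_lit 26257,
  nat_lit 19270, nat_lit 16929, nat_lit 14249, nat_lit 12888, nat_lit 6699, nat_lit 313296,
  nat_lit 52313, nat_lit 26180, nat_lit 18679, nat_lit 17090, nat_lit 13662, nat_lit 12732,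
  nat_lit 12147, nat_lit 12940, nat_lit 18294, nat_lit 16301, nat_lit 13367, nat_lit 11602,
  nat_lit 11315, nat_lit 5419, nat_lit 7901, nat_lit 12904, nat_lit 11209, nat_lit 11352,
  nat_lit 10496, nat_lit 5537, nat_lit 10997, nat_lit 10685, nat_lit 5096, nat_lit 5027,
  nat_lit 9616, nat_lit 1593]),
  ([nat_lit 338028, nat_lit 354894, nat_lit 334120, nat_lit 94156, nat_lit 280638, nat_lit 176187,
  nat_lit 252310, nat_lit 155794, nat_lit 84262, nat_lit 264874, nat_lit 144431, nat_lit 145196,
  nat_lit 244511, nat_lit 144443, nat_lit 134611, nat_lit 63190, nat_lit 269356, nat_lit 155503,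
  nat_lit 139121, nat_lit 114627, nat_lit 295305, nat_lit 180466, nat_lit 139475, nat_lit 119120,
  nat_lit 56509, nat_lit 340107, nat_lit 213239, nat_lit 161022, nat_lit 140217, nat_lit 134011,
  nat_lit 439771, nat_lit 282815, nat_lit 224707, nat_lit 195411, nat_lit 176234, nat_lit 84042,
  nat_lit 503480, nat_lit 361674, nat_lit 220518, nat_lit 130636, nat_lit 88970, nat_lit 79257,
  nat_lit 672474, nat_lit 381105, nat_lit 152783, nat_lit 92951, nat_lit 75622, nat_lit 64739,
  nat_lit 32232, nat_lit 922295, nat_lit 345666, nat_lit 131349, nat_lit 88800, nat_lit 68896,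
  nat_lit 59052, nat_lit 57455, nat_lit 1470119, nat_lit 319898, nat_lit 123827, nat_lit 85912,
  nat_lit 68851, nat_lit 58811, nat_lit 54272, nat_lit 26801, nat_lit 1311162, nat_lit 303640,
  nat_lit 121233, nat_lit 86485, nat_lit 69540, nat_lit 60165, nat_lit 55252, nat_lit 51918,
  nat_lit 60602, nat_lit 86439, nat_lit 69916, nat_lit 62714, nat_lit 52697, nat_lit 53174,
  nat_lit 24505, nat_lit 35082, nat_lit 60896, nat_lit 56361, nat_lit 53614, nat_lit 49970,
  nat_lit 29575, nat_lit 52445, nat_lit 53108, nat_lit 25074, nat_lit 25562, nat_lit 46900,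
  nat_lit 8039],
   [nat_lit 3269172, nat_lit 1642336, nat_lit 1289131, nat_lit 205313, nat_lit 964600,
  nat_lit 237411, nat_lit 782019, nat_lit 159470, nat_lit 65519, nat_lit 687197, nat_lit 120218,
  nat_lit 87214, nat_lit 629134, nat_lit 99694, nat_lit 61935, nat_lit 32458, nat_lit 586657,
  nat_lit 84715, nat_lit 50368, nat_lit 46404, nat_lit 561466, nat_lit 75733, nat_lit 42344,
  nat_lit 36161, nat_lit 17943, nat_lit 548278, nat_lit 68651, nat_lit 36671, nat_lit 30715,
  nat_lit 27767, nat_lit 550876, nat_lit 64741, nat_lit 34456, nat_lit 28098, nat_lit 25681,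
  nat_lit 11515, nat_lit 540142, nat_lit 60135, nat_lit 30848, nat_lit 23513, nat_lit 21298,
  nat_lit 18605, nat_lit 551783, nat_lit 57389, nat_lit 28761, nat_lit 22224, nat_lit 20172,
  nat_lit 16961, nat_lit 8448, nat_lit 562424, nat_lit 55069, nat_lit 27631, nat_lit 20740,
  nat_lit 18704, nat_lit 15203, nat_lit 14678, nat_lit 582663, nat_lit 53863, nat_lit 26905,
  nat_lit 19756, nat_lit 17342, nat_lit 14599, nat_lit 13214, nat_lit 6863, nat_lit 312278,
  nat_lit 53568, nat_lit 26821, nat_lit 19153, nat_lit 17500, nat_lit 13997, nat_lit 13047,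
  nat_lit 12447, nat_lit 13259, nat_lit 18758, nat_lit 16696, nat_lit 13695, nat_lit 11895,
  nat_lit 11596, nat_lit 5555, nat_lit 8095, nat_lit 13225, nat_lit 11492, nat_lit 11632,
  nat_lit 10756, nat_lit 5678, nat_lit 11268, nat_lit 10947, nat_lit 5221, nat_lit 5152,
  nat_lit 9858, nat_lit 1633]),
  ([nat_lit 323893, nat_lit 347340, nat_lit 328577, nat_lit 94110, nat_lit 276558, nat_lit 176915,
  nat_lit 248988, nat_lit 156754, nat_lit 84981, nat_lit 261434, nat_lit 145488, nat_lit 146737,
  nat_lit 241539, nat_lit 145545, nat_lit 136166, nat_lit 63971, nat_lit 265984, nat_lit 156716,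
  nat_lit 140702, nat_lit 116139, nat_lit 291653, nat_lit 181824, nat_lit 141107, nat_lit 120643,
  nat_lit 57246, nat_lit 335971, nat_lit 214840, nat_lit 162782, nat_lit 141817, nat_lit 135521,
  nat_lit 434214, nat_lit 284643, nat_lit 226712, nat_lit 197172, nat_lit 177851, nat_lit 84819,
  nat_lit 498828, nat_lit 364448, nat_lit 223092, nat_lit 132600, nat_lit 90580, nat_lit 80724,
  nat_lit 668077, nat_lit 384999, nat_lit 155156, nat_lit 94541, nat_lit 76902, nat_lit 65884,
  nat_lit 32790, nat_lit 918490, nat_lit 350118, nat_lit 133306, nat_lit 90153, nat_lit 69995,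
  nat_lit 60024, nat_lit 58376, nat_lit 1463216, nat_lit 324447, nat_lit 125634, nat_lit 87101,
  nat_lit 69847, nat_lit 59705, nat_lit 55096, nat_lit 27211, nat_lit 1291982, nat_lit 308097,
  nat_lit 122925, nat_lit 87631, nat_lit 70440, nat_lit 60980, nat_lit 56022, nat_lit 52662,
  nat_lit 61422, nat_lit 87554, nat_lit 70778, nat_lit 63454, nat_lit 53404, nat_lit 53859,
  nat_lit 24839, nat_lit 35519, nat_lit 61616, nat_lit 57016, nat_lit 54238, nat_lit 50558,
  nat_lit 29871, nat_lit 53055, nat_lit 53716, nat_lit 25372, nat_lit 25869, nat_lit 47503,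
  nat_lit 8142],
   [nat_lit 3197388, nat_lit 1640626, nat_lit 1290330, nat_lit 209687, nat_lit 965987,
  nat_lit 242853, nat_lit 783436, nat_lit 163207, nat_lit 67136, nat_lit 688445, nat_lit 123108,
  nat_lit 89331, nat_lit 630252, nat_lit 102097, nat_lit 63461, nat_lit 33234, nat_lit 587604,
  nat_lit 86766, nat_lit 51611, nat_lit 47521, nat_lit 562268, nat_lit 77567, nat_lit 43388,
  nat_lit 37062, nat_lit 18365, nat_lit 548876, nat_lit 70316, nat_lit 37584, nat_lit 31485,
  nat_lit 28442, nat_lit 551223, nat_lit 66307, nat_lit 35310, nat_lit 28801, nat_lit 26306,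
  nat_lit 11797, nat_lit 540521, nat_lit 61595, nat_lit 31617, nat_lit 24108, nat_lit 21824,
  nat_lit 19071, nat_lit 551962, nat_lit 58787, nat_lit 29480, nat_lit 22791, nat_lit 20667,
  nat_lit 17384, nat_lit 8659, nat_lit 562378, nat_lit 56416, nat_lit 28324, nat_lit 21271,
  nat_lit 19162, nat_lit 15589, nat_lit 15045, nat_lit 582045, nat_lit 55179, nat_lit 27577,
  nat_lit 20261, nat_lit 17771, nat_lit 14964, nat_lit 13553, nat_lit 7033, nat_lit 311253,
  nat_lit 54868, nat_lit 27486, nat_lit 19645, nat_lit 17925, nat_lit 14345, nat_lit 13373,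
  nat_lit 12757, nat_lit 13591, nat_lit 19241, nat_lit 17106, nat_lit 14035, nat_lit 12199,
  nat_lit 11887, nat_lit 5695, nat_lit 8296, nat_lit 13557, nat_lit 11786, nat_lit 11924,
  nat_lit 11026, nat_lit 5825, nat_lit 11549, nat_lit 11219, nat_lit 5351, nat_lit 5282,
  nat_lit 10110, nat_lit 1674])]

theorem run56 : run W56 data56 = true := by decide +kernel

end Vale.Agent.P154.AF.Eng
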