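import Vale.Agent.P154AF.Eng
import Vale.Agent.P154AF.Run56

/-! Run data, generations 105 to 112 (helper file). -/

namespace Vale.Agent.P154.AF.Eng

def W105 : List Nat :=
  [nat_lit 181152, nat_lit 437839, nat_lit 550092, nat_lit 317165, nat_lit 502038,
  nat_lit 559609, nat_lit 471774, nat_lit 452856, nat_lit 216469, nat_lit 452725, nat_lit 387711,
  nat_lit 313612, nat_lit 439067, nat_lit 341713, nat_lit 249611, nat_lit 118276, nat_lit 425797,
  nat_lit 305078, nat_lit 212460, nat_lit 181794, nat_lit 417558, nat_lit 281366, nat_lit 184953,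
  nat_lit 156902, nat_lit 71553, nat_lit 413237, nat_lit 261706, nat_lit 165596, nat_lit 138319,
  nat_lit 120122, nat_lit 415638, nat_lit 249532, nat_lit 156121, nat_lit 127527, nat_lit 110898,
  nat_lit 52396, nat_lit 411875, nat_lit 236244, nat_lit 142827, nat_lit 113698, nat_lit 97143,
  nat_lit 89884, nat_lit 415140, nat_lit 228458, nat_lit 135838, nat_lit 108039, nat_lit 91685,
  nat_lit 81041, nat_lit 40945, nat_lit 416373, nat_lit 221952, nat_lit 130851, nat_lit 103167,
  nat_lit 85982, nat_lit 75257, nat_lit 72953, nat_lit 419653, nat_lit 217590, nat_lit 127783,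
  nat_lit 98859, nat_lit 82229, nat_lit 71292, nat_lit 67618, nat_lit 33783, nat_lit 211452,
  nat_lit 215127, nat_lit 126664, nat_lit 97145, nat_lit 81177, nat_lit 68938, nat_lit 65128,
  nat_lit 62619, nat_lit 63067, nat_lit 94898, nat_lit 78317, nat_lit 66806, nat_lit 62419,
  nat_lit 59641, nat_lit 28904, nat_lit 39313, nat_lit 66132, nat_lit 60337, nat_lit 58485,
  nat_lit 55258, nat_lit 30293, nat_lit 56837, nat_lit 54734, nat_lit 26861, nat_lit 26761,
  nat_lit 52831, nat_lit 8651]

def data105 : List (List Nat × List Nat) := [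
  ([nat_lit 1098, nat_lit 5913, nat_lit 12619, nat_lit 8279, nat_lit 16765, nat_lit 34377,
  nat_lit 20447, nat_lit 48434, nat_lit 35495, nat_lit 25195, nat_lit 61401, nat_lit 98566,
  nat_lit 27649, nat_lit 73080, nat_lit 120392, nat_lit 66413, nat_lit 32089, nat_lit 90349,
  nat_lit 143994, nat_lit 157386, nat_lit 38506, nat_lit 116358, nat_lit 168965, nat_lit 183958,
  nat_lit 93586, nat_lit 50138, nat_lit 154310, nat_lit 210214, nat_lit 224393, nat_lit 228026,
  nat_lit 72197, nat_lit 221091, nat_lit 293539, nat_lit 304739, nat_lit 302648, nat_lit 149951,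
  nat_lit 111803, nat_lit 342203, nat_lit 375437, nat_lit 322239, nat_lit 279251, nat_lit 260937,
  nat_lit 204766, nat_lit 472018, nat_lit 375913, nat_lit 285233, nat_lit 243797, nat_lit 223615,
  nat_lit 109459, nat_lit 355461, nat_lit 549620, nat_lit 346540, nat_lit 261440, nat_lit 219907,
  nat_lit 199982, nat_lit 191505, nat_lit 537424, nat_lit 582933, nat_lit 327822, nat_lit 245954,
  nat_lit 208899, nat_lit 189004, nat_lit 177268, nat_lit 87823, nat_lit 321274, nat_lit 593291,
  nat_lit 318856, nat_lit 240038, nat_lit 202495, nat_lit 180642, nat_lit 170211, nat_lit 164743,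
  nat_lit 158070, nat_lit 236694, nat_lit 198248, nat_lit 177671, nat_lit 163228, nat_lit 158853,
  nat_lit 77452, nat_lit 98585, nat_lit 174857, nat_lit 161531, nat_lit 154905, nat_lit 148927,
  nat_lit 81094, nat_lit 151693, nat_lit 149580, nat_lit 73028, nat_lit 73638, nat_lit 142881,
  nat_lit 23918],
   [nat_lit 152566, nat_lit 389994, nat_lit 507078, nat_lit 303690, nat_lit 470474,
  nat_lit 553071, nat_lit 447566, nat_lit 454650, nat_lit 219158, nat_lit 432876, nat_lit 392896,
  nat_lit 320928, nat_lit 422091, nat_lit 348173, nat_lit 257590, nat_lit 121615, nat_lit 411060,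
  nat_lit 312139, nat_lit 220072, nat_lit 188092, nat_lit 404211, nat_lit 288709, nat_lit 192152,
  nat_lit 163030, nat_lit 74408, nat_lit 400944, nat_lit 269120, nat_lit 172379, nat_lit 144065,
  nat_lit 125376, nat_lit 403923, nat_lit 256978, nat_lit 162686, nat_lit 133030, nat_lit 115722,
  nat_lit 54923, nat_lit 400744, nat_lit 243629, nat_lit 149043, nat_lit 118966, nat_lit 101619,
  nat_lit 94367, nat_lit 404089, nat_lit 235828, nat_lit 141899, nat_lit 113060, nat_lit 95965,
  nat_lit 85128, nat_lit 43045, nat_lit 405411, nat_lit 229272, nat_lit 136723, nat_lit 108088,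
  nat_lit 90080, nat_lit 79159, nat_lit 76791, nat_lit 408680, nat_lit 224825, nat_lit 133576,
  nat_lit 103656, nat_lit 86217, nat_lit 75007, nat_lit 71243, nat_lit 35560, nat_lit 205810,
  nat_lit 222355, nat_lit 132460, nat_lit 101890, nat_lit 85136, nat_lit 72581, nat_lit 68634,
  nat_lit 66013, nat_lit 65942, nat_lit 99549, nat_lit 82128, nat_lit 70338, nat_lit 65862,
  nat_lit 62936, nat_lit 30513, nat_lit 41273, nat_lit 69635, nat_lit 63672, nat_lit 61645,
  nat_lit 58351, nat_lit 32003, nat_lit 59963, nat_lit 57778, nat_lit 28386, nat_lit 28269,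
  nat_lit 55840, nat_lit 9149]),
  ([nat_lit 800, nat_lit 4483, nat_lit 10062, nat_lit 6684, nat_lit 13812, nat_lit 29160,
  nat_lit 17214, nat_lit 42502, nat_lit 31585, nat_lit 21511, nat_lit 55191, nat_lit 90810,
  nat_lit 23875, nat_lit 66658, nat_lit 113344, nat_lit 63211, nat_lit 27870, nat_lit 83370,
  nat_lit 137539, nat_lit 152940, nat_lit 33676, nat_lit 108483, nat_lit 163380, nat_lit 181002,
  nat_lit 92561, nat_lit 44284, nat_lit 145358, nat_lit 205259, nat_lit 222647, nat_lit 227597,
  nat_lit 64373, nat_lit 210340, nat_lit 288665, nat_lit 304184, nat_lit 304268, nat_lit 151135,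
  nat_lit 101216, nat_lit 329759, nat_lit 374271, nat_lit 327309, nat_lit 286516, nat_lit 268611,
  nat_lit 188741, nat_lit 461675, nat_lit 380982, nat_lit 293261, nat_lit 251995, nat_lit 231901,
  nat_lit 113552, nat_lit 332072, nat_lit 544205, nat_lit 354214, nat_lit 269714, nat_lit 228021,
  nat_lit 208006, nat_lit 199297, nat_lit 502989, nat_lit 581393, nat_lit 336127, nat_lit 254221,
  nat_lit 216810, nat_lit 196679, nat_lit 184755, nat_lit 91537, nat_lit 299601, nat_lit 593835,
  nat_lit 327424, nat_lit 248201, nat_lit 210264, nat_lit 188015, nat_lit 177368, nat_lit 171857,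
  nat_lit 162384, nat_lit 244793, nat_lit 205875, nat_lit 184883, nat_lit 170311, nat_lit 165659,
  nat_lit 80897, nat_lit 102376, nat_lit 182046, nat_lit 168395, nat_lit 161569, nat_lit 155561,
  nat_lit 84535, nat_lit 158300, nat_lit 156007, nat_lit 76251, nat_lit 76846, nat_lit 149328,
  nat_lit 24973],
   [nat_lit 127459, nat_lit 344572, nat_lit 464575, nat_lit 288931, nat_lit 438719,
  nat_lit 544175, nat_lit 422875, nat_lit 454927, nat_lit 221231, nat_lit 412449, nat_lit 397065,
  nat_lit 327777, nat_lit 404519, nat_lit 353940, nat_lit 265432, nat_lit 124901, nat_lit 395745,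
  nat_lit 318728, nat_lit 227677, nat_lit 194455, nat_lit 390303, nat_lit 295719, nat_lit 199430,
  nat_lit 169267, nat_lit 77355, nat_lit 388113, nat_lit 276304, nat_lit 179279, nat_lit 149953,
  nat_lit 130833, nat_lit 391692, nat_lit 264258, nat_lit 169394, nat_lit 138699, nat_lit 120739,
  nat_lit 57571, nat_lit 389119, nat_lit 250901, nat_lit 155423, nat_lit 124419, nat_lit 106290,
  nat_lit 99069, nat_lit 392568, nat_lit 243119, nat_lit 148133, nat_lit 118264, nat_lit 100443,
  nat_lit 89434, nat_lit 45255, nat_lit 394002, nat_lit 236537, nat_lit 142773, nat_lit 113199,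
  nat_lit 94377, nat_lit 83277, nat_lit 80842, nat_lit 397273, nat_lit 232016, nat_lit 139552,
  nat_lit 108647, nat_lit 90398, nat_lit 78935, nat_lit 75076, nat_lit 37439, nat_lit 199964,
  nat_lit 229553, nat_lit 138449, nat_lit 106828, nat_lit 89292, nat_lit 76434, nat_lit 72345,
  nat_lit 69608, nat_lit 68909, nat_lit 104394, nat_lit 86132, nat_lit 74078, nat_lit 69509,
  nat_lit 66432, nat_lit 32222, nat_lit 43330, nat_lit 73340, nat_lit 67206, nat_lit 64995,
  nat_lit 61640, nat_lit 33819, nat_lit 63280, nat_lit 61017, nat_lit 30008, nat_lit 29874,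
  nat_lit 59038, nat_lit 9679]),
  ([nat_lit 575, nat_lit 3347, nat_lit 7917, nat_lit 5317, nat_lit 11251, nat_lit 24426,
  nat_lit 14348, nat_lit 36907, nat_lit 27816, nat_lit 18200, nat_lit 49171, nat_lit 82981,
  nat_lit 20443, nat_lit 60328, nat_lit 105995, nat_lit 59795, nat_lit 24013, nat_lit 76392,
  nat_lit 130646, nat_lit 147914, nat_lit 29228, nat_lit 100512, nat_lit 157235, nat_lit 177435,
  nat_lit 91237, nat_lit 38838, nat_lit 136173, nat_lit 199639, nat_lit 220276, nat_lit 226611,
  nat_lit 57025, nat_lit 199165, nat_lit 282981, nat_lit 302971, nat_lit 305361, nat_lit 152080,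
  nat_lit 91099, nat_lit 316510, nat_lit 372173, nat_lit 331870, nat_lit 293547, nat_lit 276172,
  nat_lit 173120, nat_lit 450112, nat_lit 385357, nat_lit 301161, nat_lit 260273, nat_lit 240350,
  nat_lit 117740, nat_lit 308955, nat_lit 537391, nat_lit 361573, nat_lit 278064, nat_lit 236349,
  nat_lit 216307, nat_lit 207388, nat_lit 469096, nat_lit 578502, nat_lit 344315, nat_lit 262662,
  nat_lit 224995, nat_lit 204671, nat_lit 192583, nat_lit 95423, nat_lit 278531, nat_lit 593069,
  nat_lit 335968, nat_lit 256581, nat_lit 218337, nat_lit 195735, nat_lit 184883, nat_lit 179338,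
  nat_lit 166700, nat_lit 253129, nat_lit 213821, nat_lit 192452, nat_lit 177770, nat_lit 172840,
  nat_lit 84533, nat_lit 106328, nat_lit 189595, nat_lit 175639, nat_lit 168614, nat_lit 162585,
  nat_lit 88168, nat_lit 165294, nat_lit 162819, nat_lit 79668, nat_lit 80250, nat_lit 156169,
  nat_lit 26093],
   [nat_lit 105598, nat_lit 301894, nat_lit 422924, nat_lit 273037, nat_lit 407003,
  nat_lit 532876, nat_lit 397856, nat_lit 453570, nat_lit 222617, nat_lit 391554, nat_lit 400095,
  nat_lit 334061, nat_lit 386431, nat_lit 358906, nat_lit 273059, nat_lit 128109, nat_lit 379914,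
  nat_lit 324751, nat_lit 235220, nat_lit 200853, nat_lit 375884, nat_lit 302314, nat_lit 206745,
  nat_lit 175587, nat_lit 80390, nat_lit 374787, nat_lit 283183, nat_lit 186263, nat_lit 155964,
  nat_lit 136487, nat_lit 378981, nat_lit 271307, nat_lit 176218, nat_lit 144522, nat_lit 125946,
  nat_lit 60340, nat_lit 377034, nat_lit 257998, nat_lit 161944, nat_lit 130047, nat_lit 111157,
  nat_lit 103991, nat_lit 380609, nat_lit 250275, nat_lit 154521, nat_lit 123644, nat_lit 105121,
  nat_lit 93961, nat_lit 47578, nat_lit 382177, nat_lit 243693, nat_lit 148983, nat_lit 118493,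
  nat_lit 98874, nat_lit 87615, nat_lit 85109, nat_lit 385461, nat_lit 239113, nat_lit 145694,
  nat_lit 113827, nat_lit 94777, nat_lit 83082, nat_lit 79123, nat_lit 39423, nat_lit 193928,
  nat_lit 236669, nat_lit 144614, nat_lit 111953, nat_lit 93651, nat_lit 80504, nat_lit 76266,
  nat_lit 73411, nat_lit 71961, nat_lit 109430, nat_lit 90334, nat_lit 78035, nat_lit 73366,
  nat_lit 70135, nat_lit 34035, nat_lit 45488, nat_lit 77256, nat_lit 70944, nat_lit 68545,
  nat_lit 65132, nat_lit 35744, nat_lit 66799, nat_lit 64461, nat_lit 31731, nat_lit 31579,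
  nat_lit 62432, nat_lit 10243]),
  ([nat_lit 410, nat_lit 2459, nat_lit 6144, nat_lit 4165, nat_lit 9057, nat_lit 20194,
  nat_lit 11834, nat_lit 31700, nat_lit 24231, nat_lit 15253, nat_lit 43403, nat_lit 75173,
  nat_lit 17350, nat_lit 54154, nat_lit 98423, nat_lit 56193, nat_lit 20517, nat_lit 69488,
  nat_lit 123371, nat_lit 142329, nat_lit 25165, nat_lit 92522, nat_lit 150565, nat_lit 173246,
  nat_lit 89603, nat_lit 33812, nat_lit 126834, nat_lit 193368, nat_lit 217253, nat_lit 225028,
  nat_lit 50174, nat_lit 187651, nat_lit 276479, nat_lit 301050, nat_lit 305868, nat_lit 152756,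
  nat_lit 81497, nat_lit 302534, nat_lit 369089, nat_lit 335838, nat_lit 300268, nat_lit 283552,
  nat_lit 157984, nat_lit 437357, nat_lit 388940, nat_lit 308863, nat_lit 268583, nat_lit 248924,
  nat_lit 122006, nat_lit 286231, nat_lit 529148, nat_lit 368530, nat_lit 286443, nat_lit 244860,
  nat_lit 224866, nat_lit 215762, nat_lit 435889, nat_lit 574197, nat_lit 352320, nat_lit 271245,
  nat_lit 233438, nat_lit 212972, nat_lit 200750, nat_lit 99480, nat_lit 258116, nat_lit 590916,
  nat_lit 344428, nat_lit 265154, nat_lit 226705, nat_lit 203799, nat_lit 192760, nat_lit 187192,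
  nat_lit 170988, nat_lit 261681, nat_lit 222080, nat_lit 200379, nat_lit 185611, nat_lit 180407,
  nat_lit 88365, nat_lit 110441, nat_lit 197508, nat_lit 183270, nat_lit 176051, nat_lit 170013,
  nat_lit 92000, nat_lit 172688, nat_lit 170032, nat_lit 83290, nat_lit 83856, nat_lit 163419,
  nat_lit 27279],
   [nat_lit 86759, nat_lit 262211, nat_lit 382449, nat_lit 256194, nat_lit 375552, nat_lit 519182,
  nat_lit 372662, nat_lit 450485, nat_lit 223250, nat_lit 370303, nat_lit 401876, nat_lit 339682,
  nat_lit 367915, nat_lit 362965, nat_lit 280392, nat_lit 131216, nat_lit 363634, nat_lit 330115,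
  nat_lit 242641, nat_lit 207254, nat_lit 361011, nat_lit 308409, nat_lit 214050, nat_lit 181964,
  nat_lit 83506, nat_lit 361013, nat_lit 289683, nat_lit 193295, nat_lit 162079, nat_lit 142328,
  nat_lit 365831, nat_lit 278055, nat_lit 183125, nat_lit 150484, nat_lit 131341, nat_lit 63227,
  nat_lit 364525, nat_lit 264860, nat_lit 168581, nat_lit 135840, nat_lit 116219, nat_lit 109132,
  nat_lit 368246, nat_lit 257238, nat_lit 161042, nat_lit 129190, nat_lit 110003, nat_lit 98712,
  nat_lit 50013, nat_lit 369968, nat_lit 250685, nat_lit 155335, nat_lit 123963, nat_lit 103576,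
  nat_lit 92178, nat_lit 89596, nat_lit 373274, nat_lit 246061, nat_lit 151983, nat_lit 119190,
  nat_lit 99357, nat_lit 87454, nat_lit 83389, nat_lit 41514, nat_lit 187717, nat_lit 243651,
  nat_lit 150939, nat_lit 117259, nat_lit 98214, nat_lit 84795, nat_lit 80403, nat_lit 77427,
  nat_lit 75089, nat_lit 114650, nat_lit 94737, nat_lit 82216, nat_lit 77437, nat_lit 74052,
  nat_lit 35954, nat_lit 47747, nat_lit 81390, nat_lit 74894, nat_lit 72302, nat_lit 68835,
  nat_lit 37782, nat_lit 70525, nat_lit 68117, nat_lit 33560, nat_lit 33391, nat_lit 66029,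
  nat_lit 10842]),
  ([nat_lit 291, nat_lit 1777, nat_lit 4701, nat_lit 3211, nat_lit 7203, nat_lit 16470,
  nat_lit 9656, nat_lit 26919, nat_lit 20869, nat_lit 12661, nat_lit 37943, nat_lit 67481,
  nat_lit 14592, nat_lit 48201, nat_lit 90712, nat_lit 52443, nat_lit 17380, nat_lit 62727,
  nat_lit 115781, nat_lit 136216, nat_lit 21489, nat_lit 84591, nat_lit 143416, nat_lit 168438,
  nat_lit 87653, nat_lit 29214, nat_lit 117427, nat_lit 186470, nat_lit 213554, nat_lit 222814,
  nat_lit 43838, nat_lit 175889, nat_lit 269165, nat_lit 298380, nat_lit 305734, nat_lit 153131,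
  nat_lit 72451, nat_lit 287919, nat_lit 364973, nat_lit 339132, nat_lit 306598, nat_lit 290679,
  nat_lit 143414, nat_lit 423457, nat_lit 391639, nat_lit 316288, nat_lit 276870, nat_lit 257579,
  nat_lit 126330, nat_lit 264020, nat_lit 519465, nat_lit 374994, nat_lit 294797, nat_lit 253523,
  nat_lit 233658, nat_lit 224402, nat_lit 403515, nat_lit 568429, nat_lit 360065, nat_lit 279929,
  nat_lit 242117, nat_lit 221571, nat_lit 209248, nat_lit 103705, nat_lit 238412, nat_lit 587309,
  nat_lit 352738, nat_lit 273887, nat_lit 235353, nat_lit 212204, nat_lit 201000, nat_lit 195422,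
  nat_lit 175217, nat_lit 270422, nat_lit 230640, nat_lit 208664, nat_lit 193838, nat_lit 188368,
  nat_lit 92397, nat_lit 114709, nat_lit 205784, nat_lit 191296, nat_lit 183890, nat_lit 177856,
  nat_lit 96032, nat_lit 180492, nat_lit 177659, nat_lit 87121, nat_lit 87672, nat_lit 171094,
  nat_lit 28536],
   [nat_lit 70681, nat_lit 225718, nat_lit 343465, nat_lit 238617, nat_lit 344602, nat_lit 503148,
  nat_lit 347465, nat_lit 445598, nat_lit 223074, nat_lit 348824, nat_lit 402304, nat_lit 344538,
  nat_lit 349070, nat_lit 366018, nat_lit 287346, nat_lit 134196, nat_lit 346984, nat_lit 334726,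
  nat_lit 249873, nat_lit 213622, nat_lit 345748, nat_lit 313918, nat_lit 221294, nat_lit 188368,
  nat_lit 86694, nat_lit 346846, nat_lit 295725, nat_lit 200332, nat_lit 168276, nat_lit 148344,
  nat_lit 352290, nat_lit 284431, nat_lit 190082, nat_lit 156570, nat_lit 136917, nat_lit 66230,
  nat_lit 351635, nat_lit 271419, nat_lit 175305, nat_lit 141782, nat_lit 121474, nat_lit 114488,
  nat_lit 355520, nat_lit 263945, nat_lit 167669, nat_lit 134893, nat_lit 115086, nat_lit 103690,
  nat_lit 52561, nat_lit 357412, nat_lit 257454, nat_lit 161805, nat_lit 129600, nat_lit 108483,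
  nat_lit 96968, nat_lit 94305, nat_lit 360748, nat_lit 252804, nat_lit 158398, nat_lit 124728,
  nat_lit 104140, nat_lit 92056, nat_lit 87877, nat_lit 43716, nat_lit 181347, nat_lit 250443,
  nat_lit 157402, nat_lit 122740, nat_lit 102985, nat_lit 89313, nat_lit 84759, nat_lit 81661,
  nat_lit 78283, nat_lit 120050, nat_lit 99348, nat_lit 86626, nat_lit 81728, nat_lit 78190,
  nat_lit 37984, nat_lit 50109, nat_lit 85747, nat_lit 79060, nat_lit 76273, nat_lit 72756,
  nat_lit 39934, nat_lit 74465, nat_lit 71993, nat_lit 35498, nat_lit 35313, nat_lit 69836,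
  nat_lit 11478]),
  ([nat_lit 209, nat_lit 1263, nat_lit 3545, nat_lit 2436, nat_lit 5658, nat_lit 13245,
  nat_lit 7791, nat_lit 22590, nat_lit 17761, nat_lit 10404, nat_lit 32839, nat_lit 60001,
  nat_lit 12159, nat_lit 42524, nat_lit 82952, nat_lit 48586, nat_lit 14593, nat_lit 56177,
  nat_lit 107951, nat_lit 129619, nat_lit 18195, nat_lit 76796, nat_lit 135847, nat_lit 163024,
  nat_lit 85387, nat_lit 25044, nat_lit 108039, nat_lit 178985, nat_lit 209170, nat_lit 219939,
  nat_lit 38026, nat_lit 163978, nat_lit 261057, nat_lit 294922, nat_lit 304904, nat_lit 153178,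
  nat_lit 63993, nat_lit 272773, nat_lit 359794, nat_lit 341669, nat_lit 312453, nat_lit 297474,
  nat_lit 129481, nat_lit 408483, nat_lit 393365, nat_lit 323356, nat_lit 285074, nat_lit 266265,
  nat_lit 130689, nat_lit 242440, nat_lit 508354, nat_lit 380870, nat_lit 303067, nat_lit 262298,
  nat_lit 242655, nat_lit 233285, nat_lit 372111, nat_lit 561167, nat_lit 367472, nat_lit 288671,
  nat_lit 251007, nat_lit 230450, nat_lit 218066, nat_lit 108094, nat_lit 219469, nat_lit 582200,
  nat_lit 360829, nat_lit 282746, nat_lit 244262, nat_lit 220943, nat_lit 209602, nat_lit 204029,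
  nat_lit 179355, nat_lit 279321, nat_lit 239488, nat_lit 217303, nat_lit 202452, nat_lit 196730,
  nat_lit 96633, nat_lit 119127, nat_lit 214422, nat_lit 199722, nat_lit 192140, nat_lit 186126,
  nat_lit 100268, nat_lit 188718, nat_lit 185712, nat_lit 91170, nat_lit 91706, nat_lit 179208,
  nat_lit 29865],
   [nat_lit 57108, nat_lit 192532, nat_lit 306256, nat_lit 220542, nat_lit 314379, nat_lit 484883,
  nat_lit 322435, nat_lit 438867, nat_lit 222041, nat_lit 327249, nat_lit 401294, nat_lit 348532,
  nat_lit 330001, nat_lit 367972, nat_lit 293833, nat_lit 137022, nat_lit 330048, nat_lit 338494,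
  nat_lit 256849, nat_lit 219917, nat_lit 330169, nat_lit 318758, nat_lit 228424, nat_lit 194767,
  nat_lit 89941, nat_lit 332349, nat_lit 301233, nat_lit 207331, nat_lit 174531, nat_lit 154519,
  nat_lit 338413, nat_lit 290364, nat_lit 197048, nat_lit 162759, nat_lit 142666, nat_lit 69342,
  nat_lit 338416, nat_lit 277608, nat_lit 182083, nat_lit 147860, nat_lit 126917, nat_lit 120052,
  nat_lit 342479, nat_lit 270332, nat_lit 174373, nat_lit 140739, nat_lit 120372, nat_lit 108892,
  nat_lit 55220, nat_lit 344555, nat_lit 263939, nat_lit 168367, nat_lit 135393, nat_lit 113595,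
  nat_lit 101986, nat_lit 99236, nat_lit 347925, nat_lit 259285, nat_lit 164914, nat_lit 130431,
  nat_lit 109128, nat_lit 96892, nat_lit 92591, nat_lit 46031, nat_lit 174841, nat_lit 256987,
  nat_lit 163981, nat_lit 128385, nat_lit 107966, nat_lit 94062, nat_lit 89336, nat_lit 86118,
  nat_lit 81531, nat_lit 125619, nat_lit 104170, nat_lit 91271, nat_lit 86242, nat_lit 82553,
  nat_lit 40127, nat_lit 52576, nat_lit 90331, nat_lit 83447, nat_lit 80464, nat_lit 76901,
  nat_lit 42203, nat_lit 78625, nat_lit 76095, nat_lit 37548, nat_lit 37348, nat_lit 73859,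
  nat_lit 12151]),
  ([nat_lit 157, nat_lit 883, nat_lit 2635, nat_lit 1817, nat_lit 4388, nat_lit 10499,
  nat_lit 6217, nat_lit 18727, nat_lit 14930, nat_lit 8464, nat_lit 28129, nat_lit 52822,
  nat_lit 10036, nat_lit 37176, nat_lit 75237, nat_lit 44667, nat_lit 12143, nat_lit 49901,
  nat_lit 99965, nat_lit 122597, nat_lit 15274, nat_lit 69213, nat_lit 127930, nat_lit 157029,
  nat_lit 82809, nat_lit 21298, nat_lit 98760, nat_lit 170963, nat_lit 204100, nat_lit 216384,
  nat_lit 32743, nat_lit 152023, nat_lit 252187, nat_lit 290652, nat_lit 303332, nat_lit 152870,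
  nat_lit 56149, nat_lit 257213, nat_lit 353535, nat_lit 343373, nat_lit 317751, nat_lit 303858,
  nat_lit 116252, nat_lit 392523, nat_lit 394038, nat_lit 329980, nat_lit 293128, nat_lit 274926,
  nat_lit 135058, nat_lit 221603, nat_lit 495845, nat_lit 386064, nat_lit 311190, nat_lit 271139,
  nat_lit 251824, nat_lit 242385, nat_lit 341808, nat_lit 552399, nat_lit 374459, nat_lit 297422,
  nat_lit 260076, nat_lit 239591, nat_lit 227192, nat_lit 112641, nat_lit 201335, nat_lit 575556,
  nat_lit 368626, nat_lit 291690, nat_lit 253410, nat_lit 230004, nat_lit 218559, nat_lit 213009,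
  nat_lit 183363, nat_lit 288342, nat_lit 248606, nat_lit 226290, nat_lit 211453, nat_lit 205496,
  nat_lit 101074, nat_lit 123684, nat_lit 223417, nat_lit 208550, nat_lit 200809, nat_lit 194830,
  nat_lit 104710, nat_lit 197374, nat_lit 194204, nat_lit 95442, nat_lit 95962, nat_lit 187773,
  nat_lit 31269],
   [nat_lit 45777, nat_lit 162704, nat_lit 271077, nat_lit 202220, nat_lit 285107, nat_lit 464550,
  nat_lit 297749, nat_lit 430281, nat_lit 220115, nat_lit 305720, nat_lit 398779, nat_lit 351568,
  nat_lit 310826, nat_lit 368744, nat_lit 299763, nat_lit 139665, nat_lit 312920, nat_lit 341337,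
  nat_lit 263495, nat_lit 226094, nat_lit 314355, nat_lit 322848, nat_lit 235379, nat_lit 201123,
  nat_lit 93234, nat_lit 317594, nat_lit 306129, nat_lit 214243, nat_lit 180818, nat_lit 160833,
  nat_lit 324265, nat_lit 295781, nat_lit 203983, nat_lit 169030, nat_lit 148578, nat_lit 72555,
  nat_lit 324924, nat_lit 283361, nat_lit 188879, nat_lit 154053, nat_lit 132541, nat_lit 125815,
  nat_lit 329176, nat_lit 276334, nat_lit 181122, nat_lit 146714, nat_lit 125856, nat_lit 114315,
  nat_lit 57988, nat_lit 331446, nat_lit 270077, nat_lit 174991, nat_lit 141328, nat_lit 118911,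
  nat_lit 107232, nat_lit 104388, nat_lit 334854, nat_lit 265443, nat_lit 171502, nat_lit 136287,
  nat_lit 114322, nat_lit 101962, nat_lit 97530, nat_lit 48459, nat_lit 168222, nat_lit 263222,
  nat_lit 170647, nat_lit 134184, nat_lit 113156, nat_lit 99042, nat_lit 94136, nat_lit 90802,
  nat_lit 84819, nat_lit 131349, nat_lit 109204, nat_lit 96152, nat_lit 90981, nat_lit 87147,
  nat_lit 42386, nat_lit 55147, nat_lit 95146, nat_lit 88056, nat_lit 84881, nat_lit 81276,
  nat_lit 44590, nat_lit 83010, nat_lit 80431, nat_lit 39712, nat_lit 39501, nat_lit 78104,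
  nat_lit 12864])]

theorem run105 : run W105 data105 = true := by decide +kernel

end Vale.Agent.P154.AF.Eng
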