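import Vale.Agent.P154AF.Eng

/-! Run data, generations 14 to 21 (helper file). -/

namespace Vale.Agent.P154.AF.Eng

def W14 : List Nat :=
  [nat_lit 7564210, nat_lit 1083414, nat_lit 869304, nat_lit 40209, nat_lit 679343,
  nat_lit 48957, nat_lit 568915, nat_lit 33557, nat_lit 13362, nat_lit 522050, nat_lit 25384,
  nat_lit 18804, nat_lit 492902, nat_lit 21549, nat_lit 13662, nat_lit 7273, nat_lit 474246,
  nat_lit 18605, nat_lit 11437, nat_lit 10549, nat_lit 467112, nat_lit 16866, nat_lit 9828,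
  nat_lit 8192, nat_lit 4210, nat_lit 472738, nat_lit 15520, nat_lit 8496, nat_lit 7021,
  nat_lit 6372, nat_lit 506903, nat_lit 14632, nat_lit 7991, nat_lit 6330, nat_lit 5940,
  nat_lit 2593, nat_lit 480784, nat_lit 13651, nat_lit 7155, nat_lit 5455, nat_lit 4968,
  nat_lit 4279, nat_lit 501476, nat_lit 13028, nat_lit 6752, nat_lit 5089, nat_lit 4774,
  nat_lit 3885, nat_lit 1949, nat_lit 514006, nat_lit 12503, nat_lit 6481, nat_lit 4774,
  nat_lit 4469, nat_lit 3453, nat_lit 3425, nat_lit 562179, nat_lit 12256, nat_lit 6351,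
  nat_lit 4586, nat_lit 4157, nat_lit 3423, nat_lit 2958, nat_lit 1649, nat_lit 416422,
  nat_lit 12192, nat_lit 6371, nat_lit 4452, nat_lit 4216, nat_lit 3259, nat_lit 3011,
  nat_lit 2933, nat_lit 3124, nat_lit 4331, nat_lit 4035, nat_lit 3166, nat_lit 2726,
  nat_lit 2752, nat_lit 1291, nat_lit 1969, nat_lit 3086, nat_lit 2641, nat_lit 2742,
  nat_lit 2504, nat_lit 1283, nat_lit 2659, nat_lit 2538, nat_lit 1216, nat_lit 1215,
  nat_lit 2303, nat_lit 388]

def data14 : List (List Nat × List Nat) := [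
  ([nat_lit 1713392, nat_lit 519247, nat_lit 450447, nat_lit 40313, nat_lit 374937, nat_lit 70194,
  nat_lit 336705, nat_lit 62153, nat_lit 31634, nat_lit 369253, nat_lit 58760, nat_lit 54752,
  nat_lit 341565, nat_lit 61449, nat_lit 52318, nat_lit 24260, nat_lit 397537, nat_lit 69112,
  nat_lit 58007, nat_lit 46063, nat_lit 442631, nat_lit 85926, nat_lit 61354, nat_lit 52319,
  nat_lit 24870, nat_lit 509486, nat_lit 104655, nat_lit 77001, nat_lit 70349, nat_lit 70341,
  nat_lit 751459, nat_lit 159861, nat_lit 131199, nat_lit 121511, nat_lit 112790, nat_lit 54897,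
  nat_lit 677319, nat_lit 196816, nat_lit 110162, nat_lit 58510, nat_lit 33832, nat_lit 29197,
  nat_lit 815995, nat_lit 182661, nat_lit 65478, nat_lit 36912, nat_lit 31382, nat_lit 25962,
  nat_lit 13165, nat_lit 962951, nat_lit 143774, nat_lit 60329, nat_lit 40217, nat_lit 30263,
  nat_lit 26074, nat_lit 25864, nat_lit 1430140, nat_lit 125192, nat_lit 55225, nat_lit 44919,
  nat_lit 33169, nat_lit 27851, nat_lit 25849, nat_lit 12554, nat_lit 2618439, nat_lit 121185,
  nat_lit 58138, nat_lit 44648, nat_lit 39401, nat_lit 30712, nat_lit 27959, nat_lit 25873,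
  nat_lit 30455, nat_lit 46023, nat_lit 40738, nat_lit 38056, nat_lit 28100, nat_lit 29001,
  nat_lit 12917, nat_lit 18658, nat_lit 36760, nat_lit 33736, nat_lit 33572, nat_lit 32804,
  nat_lit 22183, nat_lit 32001, nat_lit 32043, nat_lit 14872, nat_lit 14310, nat_lit 25751,
  nat_lit 4372],
   [nat_lit 7370008, nat_lit 1128713, nat_lit 898648, nat_lit 44321, nat_lit 697977,
  nat_lit 53422, nat_lit 581907, nat_lit 36507, nat_lit 14535, nat_lit 531701, nat_lit 27560,
  nat_lit 20367, nat_lit 500543, nat_lit 23337, nat_lit 14745, nat_lit 7852, nat_lit 480431,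
  nat_lit 20111, nat_lit 12303, nat_lit 11362, nat_lit 472226, nat_lit 18205, nat_lit 10552,
  nat_lit 8802, nat_lit 4528, nat_lit 476989, nat_lit 16729, nat_lit 9116, nat_lit 7537,
  nat_lit 6854, nat_lit 508318, nat_lit 15772, nat_lit 8577, nat_lit 6806, nat_lit 6379,
  nat_lit 2792, nat_lit 484270, nat_lit 14707, nat_lit 7676, nat_lit 5843, nat_lit 5326,
  nat_lit 4588, nat_lit 504450, nat_lit 14034, nat_lit 7235, nat_lit 5455, nat_lit 5114,
  nat_lit 4168, nat_lit 2090, nat_lit 517708, nat_lit 13465, nat_lit 6943, nat_lit 5112,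
  nat_lit 4782, nat_lit 3703, nat_lit 3667, nat_lit 566079, nat_lit 13198, nat_lit 6802,
  nat_lit 4908, nat_lit 4445, nat_lit 3664, nat_lit 3173, nat_lit 1762, nat_lit 408061,
  nat_lit 13131, nat_lit 6822, nat_lit 4762, nat_lit 4511, nat_lit 3492, nat_lit 3224,
  nat_lit 3136, nat_lit 3345, nat_lit 4634, nat_lit 4314, nat_lit 3394, nat_lit 2919,
  nat_lit 2940, nat_lit 1381, nat_lit 2102, nat_lit 3302, nat_lit 2826, nat_lit 2931,
  nat_lit 2680, nat_lit 1374, nat_lit 2842, nat_lit 2719, nat_lit 1302, nat_lit 1298,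
  nat_lit 2461, nat_lit 414]),
  ([nat_lit 1627084, nat_lit 527177, nat_lit 455118, nat_lit 43715, nat_lit 376988, nat_lit 75707,
  nat_lit 337297, nat_lit 66645, nat_lit 33908, nat_lit 368178, nat_lit 62683, nat_lit 58321,
  nat_lit 339819, nat_lit 65208, nat_lit 55412, nat_lit 25668, nat_lit 393882, nat_lit 73006,
  nat_lit 61048, nat_lit 48401, nat_lit 437921, nat_lit 90227, nat_lit 64165, nat_lit 54559,
  nat_lit 25912, nat_lit 504536, nat_lit 109651, nat_lit 80093, nat_lit 72714, nat_lit 72405,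
  nat_lit 735613, nat_lit 165677, nat_lit 134556, nat_lit 123879, nat_lit 114685, nat_lit 55697,
  nat_lit 672813, nat_lit 204050, nat_lit 113901, nat_lit 60587, nat_lit 35304, nat_lit 30521,
  nat_lit 812223, nat_lit 190422, nat_lit 68046, nat_lit 38485, nat_lit 32574, nat_lit 26983,
  nat_lit 13675, nat_lit 966583, nat_lit 150931, nat_lit 62408, nat_lit 41639, nat_lit 31350,
  nat_lit 26944, nat_lit 26703, nat_lit 1449628, nat_lit 131724, nat_lit 57390, nat_lit 46021,
  nat_lit 34218, nat_lit 28692, nat_lit 26614, nat_lit 12948, nat_lit 2549512, nat_lit 127069,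
  nat_lit 60078, nat_lit 45920, nat_lit 40158, nat_lit 31593, nat_lit 28735, nat_lit 26600,
  nat_lit 31367, nat_lit 47229, nat_lit 41508, nat_lit 38684, nat_lit 28794, nat_lit 29702,
  nat_lit 13251, nat_lit 19201, nat_lit 37412, nat_lit 34401, nat_lit 34031, nat_lit 33063,
  nat_lit 22174, nat_lit 32546, nat_lit 32630, nat_lit 15145, nat_lit 14660, nat_lit 26343,
  nat_lit 4478],
   [nat_lit 7191705, nat_lit 1168942, nat_lit 924876, nat_lit 48319, nat_lit 714722,
  nat_lit 57764, nat_lit 593657, nat_lit 39373, nat_lit 15676, nat_lit 540470, nat_lit 29675,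
  nat_lit 21885, nat_lit 507522, nat_lit 25074, nat_lit 15798, nat_lit 8414, nat_lit 486098,
  nat_lit 21574, nat_lit 13146, nat_lit 12152, nat_lit 476924, nat_lit 19506, nat_lit 11254,
  nat_lit 9396, nat_lit 4838, nat_lit 480857, nat_lit 17902, nat_lit 9720, nat_lit 8039,
  nat_lit 7322, nat_lit 509802, nat_lit 16879, nat_lit 9147, nat_lit 7269, nat_lit 6806,
  nat_lit 2987, nat_lit 487433, nat_lit 15732, nat_lit 8183, nat_lit 6221, nat_lit 5675,
  nat_lit 4890, nat_lit 507196, nat_lit 15010, nat_lit 7703, nat_lit 5812, nat_lit 5445,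
  nat_lit 4444, nat_lit 2227, nat_lit 521017, nat_lit 14398, nat_lit 7393, nat_lit 5442,
  nat_lit 5087, nat_lit 3947, nat_lit 3902, nat_lit 569291, nat_lit 14112, nat_lit 7240,
  nat_lit 5222, nat_lit 4726, nat_lit 3898, nat_lit 3383, nat_lit 1871, nat_lit 400863,
  nat_lit 14043, nat_lit 7261, nat_lit 5064, nat_lit 4798, nat_lit 3719, nat_lit 3433,
  nat_lit 3334, nat_lit 3560, nat_lit 4930, nat_lit 4584, nat_lit 3616, nat_lit 3108,
  nat_lit 3123, nat_lit 1469, nat_lit 2231, nat_lit 3514, nat_lit 3007, nat_lit 3115,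
  nat_lit 2853, nat_lit 1463, nat_lit 3022, nat_lit 2896, nat_lit 1386, nat_lit 1379,
  nat_lit 2615, nat_lit 440]),
  ([nat_lit 1549785, nat_lit 532893, nat_lit 458470, nat_lit 46856, nat_lit 378317, nat_lit 80829,
  nat_lit 337487, nat_lit 70825, nat_lit 36036, nat_lit 366922, nat_lit 66334, nat_lit 61671,
  nat_lit 338041, nat_lit 68700, nat_lit 58320, nat_lit 26996, nat_lit 390407, nat_lit 76615,
  nat_lit 63903, nat_lit 50611, nat_lit 433495, nat_lit 94202, nat_lit 66808, nat_lit 56677,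
  nat_lit 26898, nat_lit 499757, nat_lit 114259, nat_lit 82989, nat_lit 74947, nat_lit 74364,
  nat_lit 721387, nat_lit 171010, nat_lit 137710, nat_lit 126129, nat_lit 116495, nat_lit 56470,
  nat_lit 668407, nat_lit 210725, nat_lit 117424, nat_lit 62568, nat_lit 36714, nat_lit 31792,
  nat_lit 808679, nat_lit 197651, nat_lit 70484, nat_lit 39985, nat_lit 33717, nat_lit 27964,
  nat_lit 14163, nat_lit 969602, nat_lit 157648, nat_lit 64382, nat_lit 42989, nat_lit 32387,
  nat_lit 27780, nat_lit 27510, nat_lit 1466028, nat_lit 137882, nat_lit 59430, nat_lit 47078,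
  nat_lit 35213, nat_lit 29499, nat_lit 27349, nat_lit 13325, nat_lit 2487022, nat_lit 132625,
  nat_lit 61911, nat_lit 47122, nat_lit 40891, nat_lit 32427, nat_lit 29475, nat_lit 27296,
  nat_lit 32228, nat_lit 48372, nat_lit 42248, nat_lit 39290, nat_lit 29455, nat_lit 30366,
  nat_lit 13568, nat_lit 19708, nat_lit 38034, nat_lit 35028, nat_lit 34481, nat_lit 33340,
  nat_lit 22196, nat_lit 33068, nat_lit 33190, nat_lit 15407, nat_lit 14990, nat_lit 26909,
  nat_lit 4579],
   [nat_lit 7026885, nat_lit 1204954, nat_lit 948509, nat_lit 52210, nat_lit 729885,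
  nat_lit 61991, nat_lit 604358, nat_lit 42162, nat_lit 16789, nat_lit 548487, nat_lit 31734,
  nat_lit 23362, nat_lit 513934, nat_lit 26765, nat_lit 16823, nat_lit 8960, nat_lit 491316,
  nat_lit 22997, nat_lit 13967, nat_lit 12922, nat_lit 481259, nat_lit 20771, nat_lit 11939,
  nat_lit 9976, nat_lit 5139, nat_lit 484403, nat_lit 19043, nat_lit 10308, nat_lit 8528,
  nat_lit 7778, nat_lit 511312, nat_lit 17956, nat_lit 9702, nat_lit 7722, nat_lit 7223,
  nat_lit 3176, nat_lit 490324, nat_lit 16729, nat_lit 8677, nat_lit 6590, nat_lit 6015,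
  nat_lit 5185, nat_lit 509737, nat_lit 15959, nat_lit 8160, nat_lit 6160, nat_lit 5768,
  nat_lit 4714, nat_lit 2361, nat_lit 523997, nat_lit 15306, nat_lit 7831, nat_lit 5764,
  nat_lit 5384, nat_lit 4186, nat_lit 4133, nat_lit 571971, nat_lit 15000, nat_lit 7667,
  nat_lit 5529, nat_lit 5000, nat_lit 4128, nat_lit 3590, nat_lit 1978, nat_lit 394592,
  nat_lit 14930, nat_lit 7687, nat_lit 5359, nat_lit 5077, nat_lit 3941, nat_lit 3638,
  nat_lit 3528, nat_lit 3769, nat_lit 5219, nat_lit 4848, nat_lit 3834, nat_lit 3293,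
  nat_lit 3303, nat_lit 1555, nat_lit 2357, nat_lit 3721, nat_lit 3185, nat_lit 3296,
  nat_lit 3021, nat_lit 1551, nat_lit 3197, nat_lit 3069, nat_lit 1468, nat_lit 1459,
  nat_lit 2766, nat_lit 465]),
  ([nat_lit 1480007, nat_lit 536874, nat_lit 460784, nat_lit 49765, nat_lit 379076, nat_lit 85602,
  nat_lit 337357, nat_lit 74729, nat_lit 38034, nat_lit 365523, nat_lit 69746, nat_lit 64827,
  nat_lit 336239, nat_lit 71960, nat_lit 61064, nat_lit 28252, nat_lit 387082, nat_lit 79980,
  nat_lit 66594, nat_lit 52708, nat_lit 429307, nat_lit 97899, nat_lit 69304, nat_lit 58687,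
  nat_lit 27835, nat_lit 495142, nat_lit 118535, nat_lit 85716, nat_lit 77064, nat_lit 76229,
  nat_lit 708485, nat_lit 175935, nat_lit 140687, nat_lit 128275, nat_lit 118230, nat_lit 57218,
  nat_lit 664108, nat_lit 216924, nat_lit 120759, nat_lit 64464, nat_lit 38070, nat_lit 33016,
  nat_lit 805317, nat_lit 204424, nat_lit 72809, nat_lit 41421, nat_lit 34816, nat_lit 28909,
  nat_lit 14634, nat_lit 972105, nat_lit 163984, nat_lit 66264, nat_lit 44276, nat_lit 33380,
  nat_lit 28586, nat_lit 28288, nat_lit 1479928, nat_lit 143714, nat_lit 61364, nat_lit 48095,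
  nat_lit 36162, nat_lit 30276, nat_lit 28057, nat_lit 13686, nat_lit 2429931, nat_lit 137897,
  nat_lit 63651, nat_lit 48265, nat_lit 41603, nat_lit 33221, nat_lit 30183, nat_lit 27963,
  nat_lit 33047, nat_lit 49459, nat_lit 42960, nat_lit 39877, nat_lit 30087, nat_lit 31001,
  nat_lit 13870, nat_lit 20185, nat_lit 38630, nat_lit 35623, nat_lit 34923, nat_lit 33628,
  nat_lit 22241, nat_lit 33569, nat_lit 33726, nat_lit 15660, nat_lit 15302, nat_lit 27452,
  nat_lit 4675],
   [nat_lit 6873634, nat_lit 1237415, nat_lit 969953, nat_lit 56000, nat_lit 743706,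
  nat_lit 66112, nat_lit 614162, nat_lit 44880, nat_lit 17876, nat_lit 555859, nat_lit 33743,
  nat_lit 24802, nat_lit 519854, nat_lit 28414, nat_lit 17824, nat_lit 9493, nat_lit 496144,
  nat_lit 24386, nat_lit 14769, nat_lit 13673, nat_lit 485276, nat_lit 22004, nat_lit 12607,
  nat_lit 10544, nat_lit 5432, nat_lit 487673, nat_lit 20155, nat_lit 10882, nat_lit 9007,
  nat_lit 8222, nat_lit 512818, nat_lit 19005, nat_lit 10244, nat_lit 8164, nat_lit 7630,
  nat_lit 3362, nat_lit 492984, nat_lit 17700, nat_lit 9159, nat_lit 6951, nat_lit 6348,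
  nat_lit 5474, nat_lit 512093, nat_lit 16884, nat_lit 8606, nat_lit 6500, nat_lit 6083,
  nat_lit 4978, nat_lit 2493, nat_lit 526695, nat_lit 16191, nat_lit 8258, nat_lit 6080,
  nat_lit 5675, nat_lit 4420, nat_lit 4359, nat_lit 574232, nat_lit 15866, nat_lit 8083,
  nat_lit 5829, nat_lit 5267, nat_lit 4352, nat_lit 3792, nat_lit 2083, nat_lit 389071,
  nat_lit 15794, nat_lit 8104, nat_lit 5649, nat_lit 5351, nat_lit 4158, nat_lit 3838,
  nat_lit 3718, nat_lit 3974, nat_lit 5503, nat_lit 5106, nat_lit 4047, nat_lit 3474,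
  nat_lit 3478, nat_lit 1640, nat_lit 2480, nat_lit 3923, nat_lit 3359, nat_lit 3472,
  nat_lit 3186, nat_lit 1636, nat_lit 3369, nat_lit 3238, nat_lit 1548, nat_lit 1537,
  nat_lit 2915, nat_lit 489]),
  ([nat_lit 1416558, nat_lit 539479, nat_lit 462269, nat_lit 52466, nat_lit 379379, nat_lit 90067,
  nat_lit 336972, nat_lit 78390, nat_lit 39916, nat_lit 364015, nat_lit 72949, nat_lit 67812,
  nat_lit 334425, nat_lit 75018, nat_lit 63664, nat_lit 29444, nat_lit 383888, nat_lit 83132,
  nat_lit 69141, nat_lit 54705, nat_lit 425323, nat_lit 101355, nat_lit 71672, nat_lit 60603,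
  nat_lit 28729, nat_lit 490683, nat_lit 122524, nat_lit 88295, nat_lit 79079, nat_lit 78011,
  nat_lit 696683, nat_lit 180511, nat_lit 143508, nat_lit 130328, nat_lit 119897, nat_lit 57943,
  nat_lit 659916, nat_lit 222715, nat_lit 123929, nat_lit 66285, nat_lit 39378, nat_lit 34198,
  nat_lit 802097, nat_lit 210801, nat_lit 75035, nat_lit 42801, nat_lit 35877, nat_lit 29821,
  nat_lit 15088, nat_lit 974170, nat_lit 169988, nat_lit 68067, nat_lit 45508, nat_lit 34333,
  nat_lit 29364, nat_lit 29039, nat_lit 1491774, nat_lit 149261, nat_lit 63205, nat_lit 49076,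
  nat_lit 37071, nat_lit 31024, nat_lit 28740, nat_lit 14034, nat_lit 2377430, nat_lit 142921,
  nat_lit 65310, nat_lit 49354, nat_lit 42294, nat_lit 33979, nat_lit 30864, nat_lit 28605,
  nat_lit 33828, nat_lit 50498, nat_lit 43647, nat_lit 40446, nat_lit 30695, nat_lit 31608,
  nat_lit 14158, nat_lit 20637, nat_lit 39202, nat_lit 36190, nat_lit 35355, nat_lit 33924,
  nat_lit 22304, nat_lit 34052, nat_lit 34241, nat_lit 15904, nat_lit 15600, nat_lit 27975,
  nat_lit 4767],
   [nat_lit 6730369, nat_lit 1266862, nat_lit 989533, nat_lit 59699, nat_lit 756379,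
  nat_lit 70137, nat_lit 623196, nat_lit 47534, nat_lit 18938, nat_lit 562672, nat_lit 35706,
  nat_lit 26209, nat_lit 525346, nat_lit 30025, nat_lit 18802, nat_lit 10013, nat_lit 500630,
  nat_lit 25742, nat_lit 15553, nat_lit 14407, nat_lit 489015, nat_lit 23209, nat_lit 13260,
  nat_lit 11099, nat_lit 5718, nat_lit 490704, nat_lit 21241, nat_lit 11443, nat_lit 9476,
  nat_lit 8657, nat_lit 514304, nat_lit 20030, nat_lit 10774, nat_lit 8597, nat_lit 8029,
  nat_lit 3543, nat_lit 495444, nat_lit 18649, nat_lit 9630, nat_lit 7304, nat_lit 6673,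
  nat_lit 5757, nat_lit 514285, nat_lit 17788, nat_lit 9042, nat_lit 6834, nat_lit 6391,
  nat_lit 5237, nat_lit 2621, nat_lit 529151, nat_lit 17055, nat_lit 8676, nat_lit 6389,
  nat_lit 5959, nat_lit 4650, nat_lit 4580, nat_lit 576155, nat_lit 16712, nat_lit 8491,
  nat_lit 6123, nat_lit 5529, nat_lit 4572, nat_lit 3991, nat_lit 2186, nat_lit 384165,
  nat_lit 16639, nat_lit 8511, nat_lit 5932, nat_lit 5618, nat_lit 4371, nat_lit 4035,
  nat_lit 3904, nat_lit 4174, nat_lit 5780, nat_lit 5358, nat_lit 4255, nat_lit 3651,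
  nat_lit 3651, nat_lit 1723, nat_lit 2601, nat_lit 4122, nat_lit 3530, nat_lit 3646,
  nat_lit 3348, nat_lit 1720, nat_lit 3538, nat_lit 3405, nat_lit 1627, nat_lit 1614,
  nat_lit 3060, nat_lit 513]),
  ([nat_lit 1358501, nat_lit 540980, nat_lit 463086, nat_lit 54981, nat_lit 379312, nat_lit 94257,
  nat_lit 336379, nat_lit 81835, nat_lit 41697, nat_lit 362419, nat_lit 75966, nat_lit 70645,
  nat_lit 332601, nat_lit 77897, nat_lit 66136, nat_lit 30581, nat_lit 380805, nat_lit 86097,
  nat_lit 71562, nat_lit 56613, nat_lit 421513, nat_lit 104602, nat_lit 73925, nat_lit 62434,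
  nat_lit 29585, nat_lit 486366, nat_lit 126264, nat_lit 90744, nat_lit 81003, nat_lit 79718,
  nat_lit 685803, nat_lit 184787, nat_lit 146192, nat_lit 132296, nat_lit 121502, nat_lit 58645,
  nat_lit 655824, nat_lit 228151, nat_lit 126953, nat_lit 68040, nat_lit 40643, nat_lit 35342,
  nat_lit 798996, nat_lit 216832, nat_lit 77174, nat_lit 44131, nat_lit 36903, nat_lit 30705,
  nat_lit 15527, nat_lit 975864, nat_lit 175701, nat_lit 69800, nat_lit 46691, nat_lit 35253,
  nat_lit 30118, nat_lit 29767, nat_lit 1501914, nat_lit 154557, nat_lit 64965, nat_lit 50025,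
  nat_lit 37943, nat_lit 31748, nat_lit 29402, nat_lit 14370, nat_lit 2328858, nat_lit 147728,
  nat_lit 66899, nat_lit 50397, nat_lit 42967, nat_lit 34707, nat_lit 31520, nat_lit 29225,
  nat_lit 34577, nat_lit 51496, nat_lit 44313, nat_lit 40999, nat_lit 31280, nat_lit 32192,
  nat_lit 14435, nat_lit 21067, nat_lit 39755, nat_lit 36733, nat_lit 35779, nat_lit 34225,
  nat_lit 22380, nat_lit 34518, nat_lit 34738, nat_lit 16140, nat_lit 15884, nat_lit 28480,
  nat_lit 4856],
   [nat_lit 6595805, nat_lit 1293719, nat_lit 1007511, nat_lit 63312, nat_lit 768061,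
  nat_lit 74074, nat_lit 631559, nat_lit 50131, nat_lit 19980, nat_lit 568998, nat_lit 37628,
  nat_lit 27586, nat_lit 530460, nat_lit 31602, nat_lit 19760, nat_lit 10522, nat_lit 504815,
  nat_lit 27069, nat_lit 16320, nat_lit 15125, nat_lit 492507, nat_lit 24389, nat_lit 13899,
  nat_lit 11644, nat_lit 5997, nat_lit 493527, nat_lit 22304, nat_lit 11993, nat_lit 9935,
  nat_lit 9083, nat_lit 515758, nat_lit 21033, nat_lit 11293, nat_lit 9021, nat_lit 8419,
  nat_lit 3720, nat_lit 497730, nat_lit 19577, nat_lit 10092, nat_lit 7651, nat_lit 6992,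
  nat_lit 6034, nat_lit 516330, nat_lit 18672, nat_lit 9469, nat_lit 7162, nat_lit 6693,
  nat_lit 5491, nat_lit 2748, nat_lit 531398, nat_lit 17900, nat_lit 9086, nat_lit 6692,
  nat_lit 6238, nat_lit 4876, nat_lit 4797, nat_lit 577805, nat_lit 17539, nat_lit 8890,
  nat_lit 6412, nat_lit 5785, nat_lit 4788, nat_lit 4186, nat_lit 2286, nat_lit 379770,
  nat_lit 17465, nat_lit 8910, nat_lit 6211, nat_lit 5880, nat_lit 4580, nat_lit 4228,
  nat_lit 4087, nat_lit 4371, nat_lit 6054, nat_lit 5605, nat_lit 4460, nat_lit 3826,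
  nat_lit 3820, nat_lit 1804, nat_lit 2719, nat_lit 4317, nat_lit 3698, nat_lit 3817,
  nat_lit 3507, nat_lit 1803, nat_lit 3704, nat_lit 3568, nat_lit 1705, nat_lit 1689,
  nat_lit 3203, nat_lit 537]),
  ([nat_lit 1305062, nat_lit 541583, nat_lit 463356, nat_lit 57331, nat_lit 378944, nat_lit 98200,
  nat_lit 335616, nat_lit 85087, nat_lit 43386, nat_lit 360754, nat_lit 78819, nat_lit 73344,
  nat_lit 330771, nat_lit 80618, nat_lit 68495, nat_lit 31667, nat_lit 377820, nat_lit 88898,
  nat_lit 73871, nat_lit 58442, nat_lit 417854, nat_lit 107664, nat_lit 76078, nat_lit 64191,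
  nat_lit 30407, nat_lit 482183, nat_lit 129786, nat_lit 93080, nat_lit 82847, nat_lit 81358,
  nat_lit 675705, nat_lit 188801, nat_lit 148755, nat_lit 134189, nat_lit 123053, nat_lit 59328,
  nat_lit 651831, nat_lit 233279, nat_lit 129848, nat_lit 69736, nat_lit 41870, nat_lit 36453,
  nat_lit 795990, nat_lit 222560, nat_lit 79238, nat_lit 45417, nat_lit 37898, nat_lit 31563,
  nat_lit 15953, nat_lit 977238, nat_lit 181157, nat_lit 71471, nat_lit 47832, nat_lit 36141,
  nat_lit 30851, nat_lit 30474, nat_lit 1510619, nat_lit 159631, nat_lit 66654, nat_lit 50946,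
  nat_lit 38783, nat_lit 32450, nat_lit 30043, nat_lit 14694, nat_lit 2283685, nat_lit 152343,
  nat_lit 68426, nat_lit 51401, nat_lit 43623, nat_lit 35408, nat_lit 32154, nat_lit 29824,
  nat_lit 35298, nat_lit 52456, nat_lit 44960, nat_lit 41536, nat_lit 31845, nat_lit 32754,
  nat_lit 14702, nat_lit 21477, nat_lit 40290, nat_lit 37255, nat_lit 36194, nat_lit 34529,
  nat_lit 22468, nat_lit 34971, nat_lit 35218, nat_lit 16369, nat_lit 16157, nat_lit 28968,
  nat_lit 4942],
   [nat_lit 6468833, nat_lit 1318337, nat_lit 1024100, nat_lit 66849, nat_lit 778883,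
  nat_lit 77933, nat_lit 639338, nat_lit 52676, nat_lit 21002, nat_lit 574898, nat_lit 39513,
  nat_lit 28937, nat_lit 535244, nat_lit 33148, nat_lit 20700, nat_lit 11021, nat_lit 508735,
  nat_lit 28371, nat_lit 17074, nat_lit 15830, nat_lit 495781, nat_lit 25545, nat_lit 14527,
  nat_lit 12179, nat_lit 6271, nat_lit 496167, nat_lit 23345, nat_lit 12533, nat_lit 10387,
  nat_lit 9501, nat_lit 517175, nat_lit 22017, nat_lit 11802, nat_lit 9438, nat_lit 8802,
  nat_lit 3894, nat_lit 499865, nat_lit 20487, nat_lit 10546, nat_lit 7992, nat_lit 7305,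
  nat_lit 6307, nat_lit 518242, nat_lit 19539, nat_lit 9888, nat_lit 7484, nat_lit 6990,
  nat_lit 5741, nat_lit 2872, nat_lit 533462, nat_lit 18730, nat_lit 9488, nat_lit 6991,
  nat_lit 6512, nat_lit 5098, nat_lit 5011, nat_lit 579229, nat_lit 18350, nat_lit 9281,
  nat_lit 6696, nat_lit 6037, nat_lit 5000, nat_lit 4378, nat_lit 2385, nat_lit 375803,
  nat_lit 18275, nat_lit 9302, nat_lit 6485, nat_lit 6137, nat_lit 4786, nat_lit 4419,
  nat_lit 4268, nat_lit 4564, nat_lit 6322, nat_lit 5848, nat_lit 4662, nat_lit 3998,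
  nat_lit 3987, nat_lit 1884, nat_lit 2835, nat_lit 4509, nat_lit 3863, nat_lit 3985,
  nat_lit 3663, nat_lit 1885, nat_lit 3867, nat_lit 3729, nat_lit 1781, nat_lit 1763,
  nat_lit 3344, nat_lit 560])]

theorem run14 : run W14 data14 = true := by decide +kernel

end Vale.Agent.P154.AF.Eng
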