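import Vale.Agent.P154AF.Eng
import Vale.Agent.P154AF.Run14

/-! Run data, generations 63 to 70 (helper file). -/

namespace Vale.Agent.P154.AF.Eng

def W63 : List Nat :=
  [nat_lit 3197388, nat_lit 1640626, nat_lit 1290330, nat_lit 209687, nat_lit 965987,
  nat_lit 242853, nat_lit 783436, nat_lit 163207, nat_lit 67136, nat_lit 688445, nat_lit 123108,
  nat_lit 89331, nat_lit 630252, nat_lit 102097, nat_lit 63461, nat_lit 33234, nat_lit 587604,
  nat_lit 86766, nat_lit 51611, nat_lit 47521, nat_lit 562268, nat_lit 77567, nat_lit 43388,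
  nat_lit 37062, nat_lit 18365, nat_lit 548876, nat_lit 70316, nat_lit 37584, nat_lit 31485,
  nat_lit 28442, nat_lit 551223, nat_lit 66307, nat_lit 35310, nat_lit 28801, nat_lit 26306,
  nat_lit 11797, nat_lit 540521, nat_lit 61595, nat_lit 31617, nat_lit 24108, nat_lit 21824,
  nat_lit 19071, nat_lit 551962, nat_lit 58787, nat_lit 29480, nat_lit 22791, nat_lit 20667,
  nat_lit 17384, nat_lit 8659, nat_lit 562378, nat_lit 56416, nat_lit 28324, nat_lit 21271,
  nat_lit 19162, nat_lit 15589, nat_lit 15045, nat_lit 582045, nat_lit 55179, nat_lit 27577,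
  nat_lit 20261, nat_lit 17771, nat_lit 14964, nat_lit 13553, nat_lit 7033, nat_lit 311253,
  nat_lit 54868, nat_lit 27486, nat_lit 19645, nat_lit 17925, nat_lit 14345, nat_lit 13373,
  nat_lit 12757, nat_lit 13591, nat_lit 19241, nat_lit 17106, nat_lit 14035, nat_lit 12199,
  nat_lit 11887, nat_lit 5695, nat_lit 8296, nat_lit 13557, nat_lit 11786, nat_lit 11924,
  nat_lit 11026, nat_lit 5825, nat_lit 11549, nat_lit 11219, nat_lit 5351, nat_lit 5282,
  nat_lit 10110, nat_lit 1674]

def data63 : List (List Nat × List Nat) := [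
  ([nat_lit 309934, nat_lit 339615, nat_lit 322879, nat_lit 94005, nat_lit 272358, nat_lit 177568,
  nat_lit 245567, nat_lit 157668, nat_lit 85686, nat_lit 257898, nat_lit 146517, nat_lit 148277,
  nat_lit 238485, nat_lit 146626, nat_lit 137732, nat_lit 64761, nat_lit 262528, nat_lit 157913,
  nat_lit 142298, nat_lit 117677, nat_lit 287915, nat_lit 183168, nat_lit 142762, nat_lit 122195,
  nat_lit 57999, nat_lit 331741, nat_lit 216429, nat_lit 164571, nat_lit 143451, nat_lit 137064,
  nat_lit 428564, nat_lit 286462, nat_lit 228751, nat_lit 198973, nat_lit 179510, nat_lit 85618,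
  nat_lit 494054, nat_lit 367232, nat_lit 225725, nat_lit 134624, nat_lit 92244, nat_lit 82241,
  nat_lit 663530, nat_lit 388941, nat_lit 157600, nat_lit 96183, nat_lit 78226, nat_lit 67069,
  nat_lit 33366, nat_lit 914492, nat_lit 354653, nat_lit 135323, nat_lit 91550, nat_lit 71131,
  nat_lit 61028, nat_lit 59329, nat_lit 1455941, nat_lit 329095, nat_lit 127495, nat_lit 88330,
  nat_lit 70875, nat_lit 60628, nat_lit 55948, nat_lit 27635, nat_lit 1272691, nat_lit 312660,
  nat_lit 124669, nat_lit 88814, nat_lit 71373, nat_lit 61823, nat_lit 56819, nat_lit 53430,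
  nat_lit 62268, nat_lit 88705, nat_lit 71670, nat_lit 64219, nat_lit 54136, nat_lit 54568,
  nat_lit 25184, nat_lit 35970, nat_lit 62363, nat_lit 57694, nat_lit 54885, nat_lit 51168,
  nat_lit 30179, nat_lit 53686, nat_lit 54346, nat_lit 25681, nat_lit 26187, nat_lit 48127,
  nat_lit 8248],
   [nat_lit 3124948, nat_lit 1638328, nat_lit 1291224, nat_lit 214162, nat_lit 967197,
  nat_lit 248458, nat_lit 784741, nat_lit 167063, nat_lit 68810, nat_lit 689615, nat_lit 126095,
  nat_lit 91523, nat_lit 631308, nat_lit 104584, nat_lit 65043, nat_lit 34037, nat_lit 588501,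
  nat_lit 88890, nat_lit 52900, nat_lit 48679, nat_lit 563027, nat_lit 79467, nat_lit 44472,
  nat_lit 37998, nat_lit 18802, nat_lit 549435, nat_lit 72040, nat_lit 38533, nat_lit 32285,
  nat_lit 29141, nat_lit 551534, nat_lit 67931, nat_lit 36197, nat_lit 29530, nat_lit 26954,
  nat_lit 12089, nat_lit 540862, nat_lit 63109, nat_lit 32417, nat_lit 24727, nat_lit 22371,
  nat_lit 19555, nat_lit 552100, nat_lit 60236, nat_lit 30228, nat_lit 23380, nat_lit 21180,
  nat_lit 17823, nat_lit 8877, nat_lit 562288, nat_lit 57813, nat_lit 29044, nat_lit 21825,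
  nat_lit 19638, nat_lit 15989, nat_lit 15427, nat_lit 581383, nat_lit 56544, nat_lit 28277,
  nat_lit 20786, nat_lit 18217, nat_lit 15342, nat_lit 13905, nat_lit 7209, nat_lit 310219,
  nat_lit 56216, nat_lit 28177, nat_lit 20157, nat_lit 18366, nat_lit 14706, nat_lit 13712,
  nat_lit 13080, nat_lit 13935, nat_lit 19743, nat_lit 17532, nat_lit 14389, nat_lit 12515,
  nat_lit 12189, nat_lit 5842, nat_lit 8505, nat_lit 13903, nat_lit 12092, nat_lit 12227,
  nat_lit 11306, nat_lit 5977, nat_lit 11841, nat_lit 11501, nat_lit 5487, nat_lit 5417,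
  nat_lit 10372, nat_lit 1717]),
  ([nat_lit 296158, nat_lit 331716, nat_lit 317018, nat_lit 93837, nat_lit 268033, nat_lit 178143,
  nat_lit 242040, nat_lit 158533, nat_lit 86376, nat_lit 254261, nat_lit 147515, nat_lit 149813,
  nat_lit 235343, nat_lit 147683, nat_lit 139308, nat_lit 65559, nat_lit 258983, nat_lit 159091,
  nat_lit 143910, nat_lit 119242, nat_lit 284084, nat_lit 184496, nat_lit 144441, nat_lit 123779,
  nat_lit 58769, nat_lit 327413, nat_lit 218006, nat_lit 166389, nat_lit 145120, nat_lit 138644,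
  nat_lit 422815, nat_lit 288272, nat_lit 230827, nat_lit 200817, nat_lit 181215, nat_lit 86440,
  nat_lit 489148, nat_lit 370026, nat_lit 228418, nat_lit 136709, nat_lit 93966, nat_lit 83811,
  nat_lit 658826, nat_lit 392934, nat_lit 160120, nat_lit 97882, nat_lit 79595, nat_lit 68296,
  nat_lit 33963, nat_lit 910289, nat_lit 359277, nat_lit 137406, nat_lit 92994, nat_lit 72305,
  nat_lit 62069, nat_lit 60316, nat_lit 1448271, nat_lit 333848, nat_lit 129415, nat_lit 89601,
  nat_lit 71939, nat_lit 61584, nat_lit 56830, nat_lit 28074, nat_lit 1253274, nat_lit 317336,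
  nat_lit 126469, nat_lit 90036, nat_lit 72339, nat_lit 62695, nat_lit 57642, nat_lit 54226,
  nat_lit 63142, nat_lit 89895, nat_lit 72593, nat_lit 65012, nat_lit 54895, nat_lit 55303,
  nat_lit 25543, nat_lit 36437, nat_lit 63137, nat_lit 58397, nat_lit 55557, nat_lit 51802,
  nat_lit 30499, nat_lit 54341, nat_lit 54997, nat_lit 26001, nat_lit 26516, nat_lit 48773,
  nat_lit 8358],
   [nat_lit 3051820, nat_lit 1635406, nat_lit 1291792, nat_lit 218742, nat_lit 968219,
  nat_lit 254234, nat_lit 785927, nat_lit 171047, nat_lit 70544, nat_lit 690698, nat_lit 129188,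
  nat_lit 93795, nat_lit 632297, nat_lit 107160, nat_lit 66686, nat_lit 34869, nat_lit 589343,
  nat_lit 91092, nat_lit 54239, nat_lit 49878, nat_lit 563738, nat_lit 81437, nat_lit 45598,
  nat_lit 38971, nat_lit 19254, nat_lit 549953, nat_lit 73830, nat_lit 39519, nat_lit 33116,
  nat_lit 29867, nat_lit 551807, nat_lit 69615, nat_lit 37119, nat_lit 30289, nat_lit 27628,
  nat_lit 12392, nat_lit 541163, nat_lit 64680, nat_lit 33248, nat_lit 25371, nat_lit 22939,
  nat_lit 20059, nat_lit 552195, nat_lit 61741, nat_lit 31006, nat_lit 23994, nat_lit 21713,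
  nat_lit 18280, nat_lit 9104, nat_lit 562148, nat_lit 59263, nat_lit 29794, nat_lit 22401,
  nat_lit 20132, nat_lit 16405, nat_lit 15824, nat_lit 580672, nat_lit 57961, nat_lit 29004,
  nat_lit 21334, nat_lit 18681, nat_lit 15736, nat_lit 14271, nat_lit 7393, nat_lit 309174,
  nat_lit 57615, nat_lit 28896, nat_lit 20690, nat_lit 18825, nat_lit 15082, nat_lit 14065,
  nat_lit 13416, nat_lit 14294, nat_lit 20266, nat_lit 17975, nat_lit 14756, nat_lit 12844,
  nat_lit 12504, nat_lit 5994, nat_lit 8722, nat_lit 14263, nat_lit 12411, nat_lit 12542,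
  nat_lit 11598, nat_lit 6136, nat_lit 12144, nat_lit 11794, nat_lit 5627, nat_lit 5557,
  nat_lit 10644, nat_lit 1761]),
  ([nat_lit 282569, nat_lit 323640, nat_lit 310991, nat_lit 93602, nat_lit 263577, nat_lit 178632,
  nat_lit 238405, nat_lit 159346, nat_lit 87048, nat_lit 250518, nat_lit 148478, nat_lit 151346,
  nat_lit 232109, nat_lit 148715, nat_lit 140894, nat_lit 66366, nat_lit 255344, nat_lit 160249,
  nat_lit 145538, nat_lit 120836, nat_lit 280158, nat_lit 185805, nat_lit 146146, nat_lit 125397,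
  nat_lit 59555, nat_lit 322983, nat_lit 219569, nat_lit 168237, nat_lit 146826, nat_lit 140262,
  nat_lit 416959, nat_lit 290071, nat_lit 232940, nat_lit 202705, nat_lit 182966, nat_lit 87285,
  nat_lit 484104, nat_lit 372830, nat_lit 231176, nat_lit 138862, nat_lit 95748, nat_lit 85437,
  nat_lit 653955, nat_lit 396980, nat_lit 162720, nat_lit 99639, nat_lit 81013, nat_lit 69569,
  nat_lit 34582, nat_lit 905868, nat_lit 363994, nat_lit 139558, nat_lit 94489, nat_lit 73522,
  nat_lit 63148, nat_lit 61339, nat_lit 1440188, nat_lit 338710, nat_lit 131397, nat_lit 90918,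
  nat_lit 73040, nat_lit 62575, nat_lit 57744, nat_lit 28529, nat_lit 1233720, nat_lit 322130,
  nat_lit 128328, nat_lit 91301, nat_lit 73341, nat_lit 63598, nat_lit 58496, nat_lit 55050,
  nat_lit 64045, nat_lit 91126, nat_lit 73552, nat_lit 65835, nat_lit 55681, nat_lit 56064,
  nat_lit 25915, nat_lit 36920, nat_lit 63941, nat_lit 59126, nat_lit 56254, nat_lit 52462,
  nat_lit 30833, nat_lit 55021, nat_lit 55673, nat_lit 26333, nat_lit 26856, nat_lit 49442,
  nat_lit 8472],
   [nat_lit 2977984, nat_lit 1631821, nat_lit 1292013, nat_lit 223430, nat_lit 969038,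
  nat_lit 260190, nat_lit 786984, nat_lit 175166, nat_lit 72341, nat_lit 691689, nat_lit 132390,
  nat_lit 96151, nat_lit 633214, nat_lit 109830, nat_lit 68392, nat_lit 35732, nat_lit 590125,
  nat_lit 93376, nat_lit 55631, nat_lit 51124, nat_lit 564398, nat_lit 83482, nat_lit 46769,
  nat_lit 39983, nat_lit 19724, nat_lit 550424, nat_lit 75688, nat_lit 40546, nat_lit 33981,
  nat_lit 30621, nat_lit 552037, nat_lit 71363, nat_lit 38078, nat_lit 31078, nat_lit 28327,
  nat_lit 12707, nat_lit 541422, nat_lit 66311, nat_lit 34114, nat_lit 26042, nat_lit 23529,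
  nat_lit 20583, nat_lit 552242, nat_lit 63303, nat_lit 31817, nat_lit 24633, nat_lit 22268,
  nat_lit 18755, nat_lit 9341, nat_lit 561956, nat_lit 60770, nat_lit 30575, nat_lit 23001,
  nat_lit 20646, nat_lit 16838, nat_lit 16238, nat_lit 579909, nat_lit 59434, nat_lit 29762,
  nat_lit 21904, nat_lit 19164, nat_lit 16145, nat_lit 14653, nat_lit 7585, nat_lit 308115,
  nat_lit 59068, nat_lit 29645, nat_lit 21246, nat_lit 19302, nat_lit 15473, nat_lit 14432,
  nat_lit 13766, nat_lit 14667, nat_lit 20811, nat_lit 18436, nat_lit 15138, nat_lit 13188,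
  nat_lit 12832, nat_lit 6153, nat_lit 8948, nat_lit 14638, nat_lit 12743, nat_lit 12871,
  nat_lit 11902, nat_lit 6301, nat_lit 12461, nat_lit 12099, nat_lit 5774, nat_lit 5703,
  nat_lit 10929, nat_lit 1808]),
  ([nat_lit 269168, nat_lit 315387, nat_lit 304793, nat_lit 93296, nat_lit 258987, nat_lit 179029,
  nat_lit 234656, nat_lit 160100, nat_lit 87700, nat_lit 246665, nat_lit 149404, nat_lit 152871,
  nat_lit 228780, nat_lit 149717, nat_lit 142489, nat_lit 67182, nat_lit 251608, nat_lit 161383,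
  nat_lit 147182, nat_lit 122458, nat_lit 276130, nat_lit 187094, nat_lit 147876, nat_lit 127049,
  nat_lit 60360, nat_lit 318444, nat_lit 221115, nat_lit 170116, nat_lit 148572, nat_lit 141920,
  nat_lit 410991, nat_lit 291854, nat_lit 235092, nat_lit 204639, nat_lit 184767, nat_lit 88156,
  nat_lit 478914, nat_lit 375641, nat_lit 234000, nat_lit 141085, nat_lit 97596, nat_lit 87123,
  nat_lit 648907, nat_lit 401079, nat_lit 165405, nat_lit 101459, nat_lit 82484, nat_lit 70890,
  nat_lit 35224, nat_lit 901218, nat_lit 368806, nat_lit 141784, nat_lit 96037, nat_lit 74784,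
  nat_lit 64268, nat_lit 62401, nat_lit 1431675, nat_lit 343688, nat_lit 133445, nat_lit 92284,
  nat_lit 74182, nat_lit 63603, nat_lit 58693, nat_lit 29001, nat_lit 1214023, nat_lit 327050,
  nat_lit 130251, nat_lit 92612, nat_lit 74381, nat_lit 64534, nat_lit 59381, nat_lit 55906,
  nat_lit 64979, nat_lit 92402, nat_lit 74546, nat_lit 66690, nat_lit 56497, nat_lit 56853,
  nat_lit 26301, nat_lit 37420, nat_lit 64776, nat_lit 59884, nat_lit 56979, nat_lit 53148,
  nat_lit 31181, nat_lit 55727, nat_lit 56375, nat_lit 26677, nat_lit 27210, nat_lit 50137,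
  nat_lit 8590],
   [nat_lit 2903406, nat_lit 1627531, nat_lit 1291862, nat_lit 228228, nat_lit 969640,
  nat_lit 266333, nat_lit 787903, nat_lit 179426, nat_lit 74206, nat_lit 692581, nat_lit 135710,
  nat_lit 98598, nat_lit 634052, nat_lit 112600, nat_lit 70167, nat_lit 36628, nat_lit 590843,
  nat_lit 95748, nat_lit 57080, nat_lit 52418, nat_lit 565003, nat_lit 85606, nat_lit 47989,
  nat_lit 41036, nat_lit 20212, nat_lit 550847, nat_lit 77619, nat_lit 41616, nat_lit 34883,
  nat_lit 31405, nat_lit 552220, nat_lit 73181, nat_lit 39078, nat_lit 31900, nat_lit 29055,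
  nat_lit 13035, nat_lit 541633, nat_lit 68006, nat_lit 35016, nat_lit 26742, nat_lit 24145,
  nat_lit 21129, nat_lit 552238, nat_lit 64928, nat_lit 32662, nat_lit 25300, nat_lit 22845,
  nat_lit 19250, nat_lit 9587, nat_lit 561708, nat_lit 62337, nat_lit 31389, nat_lit 23628,
  nat_lit 21182, nat_lit 17290, nat_lit 16669, nat_lit 579092, nat_lit 60966, nat_lit 30552,
  nat_lit 22499, nat_lit 19667, nat_lit 16572, nat_lit 15051, nat_lit 7784, nat_lit 307042,
  nat_lit 60579, nat_lit 30425, nat_lit 21827, nat_lit 19798, nat_lit 15880, nat_lit 14814,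
  nat_lit 14131, nat_lit 15057, nat_lit 21380, nat_lit 18916, nat_lit 15537, nat_lit 13546,
  nat_lit 13174, nat_lit 6319, nat_lit 9184, nat_lit 15029, nat_lit 13089, nat_lit 13213,
  nat_lit 12219, nat_lit 6474, nat_lit 12790, nat_lit 12416, nat_lit 5927, nat_lit 5856,
  nat_lit 11225, nat_lit 1857]),
  ([nat_lit 255968, nat_lit 306954, nat_lit 298419, nat_lit 92915, nat_lit 254257, nat_lit 179327,
  nat_lit 230789, nat_lit 160792, nat_lit 88331, nat_lit 242698, nat_lit 150287, nat_lit 154388,
  nat_lit 225351, nat_lit 150686, nat_lit 144092, nat_lit 68006, nat_lit 247769, nat_lit 162490,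
  nat_lit 148840, nat_lit 124111, nat_lit 271996, nat_lit 188358, nat_lit 149632, nat_lit 128737,
  nat_lit 61184, nat_lit 313793, nat_lit 222641, nat_lit 172027, nat_lit 150357, nat_lit 143620,
  nat_lit 404904, nat_lit 293622, nat_lit 237284, nat_lit 206623, nat_lit 186621, nat_lit 89055,
  nat_lit 473570, nat_lit 378457, nat_lit 236896, nat_lit 143383, nat_lit 99513, nat_lit 88873,
  nat_lit 643671, nat_lit 405233, nat_lit 168181, nat_lit 103347, nat_lit 84010, nat_lit 72262,
  nat_lit 35890, nat_lit 896323, nat_lit 373718, nat_lit 144089, nat_lit 97642, nat_lit 76093,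
  nat_lit 65432, nat_lit 63503, nat_lit 1422706, nat_lit 348786, nat_lit 135563, nat_lit 93702,
  nat_lit 75367, nat_lit 64670, nat_lit 59679, nat_lit 29491, nat_lit 1194166, nat_lit 332100,
  nat_lit 132241, nat_lit 93971, nat_lit 75462, nat_lit 65506, nat_lit 60300, nat_lit 56794,
  nat_lit 65946, nat_lit 93724, nat_lit 75580, nat_lit 67579, nat_lit 57346, nat_lit 57674,
  nat_lit 26702, nat_lit 37940, nat_lit 65646, nat_lit 60673, nat_lit 57734, nat_lit 53864,
  nat_lit 31545, nat_lit 56462, nat_lit 57104, nat_lit 27035, nat_lit 27576, nat_lit 50859,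
  nat_lit 8713],
   [nat_lit 2828080, nat_lit 1622488, nat_lit 1291309, nat_lit 233140, nat_lit 970007,
  nat_lit 272674, nat_lit 788670, nat_lit 183835, nat_lit 76142, nat_lit 693364, nat_lit 139154,
  nat_lit 101139, nat_lit 634805, nat_lit 115477, nat_lit 72015, nat_lit 37559, nat_lit 591490,
  nat_lit 98212, nat_lit 58590, nat_lit 53763, nat_lit 565547, nat_lit 87814, nat_lit 49261,
  nat_lit 42133, nat_lit 20719, nat_lit 551215, nat_lit 79627, nat_lit 42732, nat_lit 35823,
  nat_lit 32222, nat_lit 552353, nat_lit 75071, nat_lit 40120, nat_lit 32756, nat_lit 29812,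
  nat_lit 13377, nat_lit 541794, nat_lit 69771, nat_lit 35958, nat_lit 27473, nat_lit 24786,
  nat_lit 21699, nat_lit 552179, nat_lit 66620, nat_lit 33544, nat_lit 25996, nat_lit 23447,
  nat_lit 19765, nat_lit 9844, nat_lit 561399, nat_lit 63968, nat_lit 32239, nat_lit 24283,
  nat_lit 21740, nat_lit 17762, nat_lit 17119, nat_lit 578215, nat_lit 62561, nat_lit 31377,
  nat_lit 23121, nat_lit 20193, nat_lit 17017, nat_lit 15467, nat_lit 7993, nat_lit 305952,
  nat_lit 62152, nat_lit 31240, nat_lit 22434, nat_lit 20316, nat_lit 16305, nat_lit 15213,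
  nat_lit 14511, nat_lit 15463, nat_lit 21975, nat_lit 19418, nat_lit 15952, nat_lit 13920,
  nat_lit 13531, nat_lit 6492, nat_lit 9431, nat_lit 15436, nat_lit 13451, nat_lit 13570,
  nat_lit 12549, nat_lit 6654, nat_lit 13134, nat_lit 12748, nat_lit 6086, nat_lit 6015,
  nat_lit 11536, nat_lit 1907]),
  ([nat_lit 242962, nat_lit 298343, nat_lit 291866, nat_lit 92454, nat_lit 249385, nat_lit 179518,
  nat_lit 226800, nat_lit 161414, nat_lit 88936, nat_lit 238613, nat_lit 151124, nat_lit 155893,
  nat_lit 221818, nat_lit 151619, nat_lit 145701, nat_lit 68839, nat_lit 243824, nat_lit 163568,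
  nat_lit 150513, nat_lit 125795, nat_lit 267751, nat_lit 189595, nat_lit 151414, nat_lit 130462,
  nat_lit 62028, nat_lit 309023, nat_lit 224145, nat_lit 173971, nat_lit 152185, nat_lit 145363,
  nat_lit 398692, nat_lit 295368, nat_lit 239518, nat_lit 208658, nat_lit 188530, nat_lit 89981,
  nat_lit 468066, nat_lit 381277, nat_lit 239866, nat_lit 145760, nat_lit 101504, nat_lit 90691,
  nat_lit 638239, nat_lit 409441, nat_lit 171052, nat_lit 105306, nat_lit 85596, nat_lit 73689,
  nat_lit 36584, nat_lit 891170, nat_lit 378733, nat_lit 146477, nat_lit 99308, nat_lit 77453,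
  nat_lit 66643, nat_lit 64650, nat_lit 1413260, nat_lit 354010, nat_lit 137756, nat_lit 95175,
  nat_lit 76598, nat_lit 65780, nat_lit 60703, nat_lit 30001, nat_lit 1174144, nat_lit 337286,
  nat_lit 134302, nat_lit 95382, nat_lit 76588, nat_lit 66515, nat_lit 61254, nat_lit 57718,
  nat_lit 66948, nat_lit 95097, nat_lit 76656, nat_lit 68505, nat_lit 58229, nat_lit 58527,
  nat_lit 27120, nat_lit 38479, nat_lit 66551, nat_lit 61494, nat_lit 58521, nat_lit 54611,
  nat_lit 31926, nat_lit 57228, nat_lit 57863, nat_lit 27408, nat_lit 27957, nat_lit 51610,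
  nat_lit 8840],
   [nat_lit 2751972, nat_lit 1616648, nat_lit 1290328, nat_lit 238167, nat_lit 970121,
  nat_lit 279221, nat_lit 789275, nat_lit 188402, nat_lit 78153, nat_lit 694030, nat_lit 142728,
  nat_lit 103782, nat_lit 635465, nat_lit 118466, nat_lit 73939, nat_lit 38526, nat_lit 592061,
  nat_lit 100776, nat_lit 60164, nat_lit 55163, nat_lit 566026, nat_lit 90111, nat_lit 50588,
  nat_lit 43278, nat_lit 21246, nat_lit 551524, nat_lit 81718, nat_lit 43897, nat_lit 36804,
  nat_lit 33073, nat_lit 552431, nat_lit 77038, nat_lit 41208, nat_lit 33651, nat_lit 30601,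
  nat_lit 13733, nat_lit 541900, nat_lit 71609, nat_lit 36941, nat_lit 28237, nat_lit 25456,
  nat_lit 22294, nat_lit 552061, nat_lit 68382, nat_lit 34465, nat_lit 26724, nat_lit 24076,
  nat_lit 20304, nat_lit 10112, nat_lit 561026, nat_lit 65668, nat_lit 33127, nat_lit 24967,
  nat_lit 22323, nat_lit 18254, nat_lit 17589, nat_lit 577275, nat_lit 64223, nat_lit 32240,
  nat_lit 23772, nat_lit 20742, nat_lit 17483, nat_lit 15901, nat_lit 8210, nat_lit 304842,
  nat_lit 63790, nat_lit 32091, nat_lit 23069, nat_lit 20857, nat_lit 16749, nat_lit 15630,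
  nat_lit 14909, nat_lit 15888, nat_lit 22597, nat_lit 19941, nat_lit 16385, nat_lit 14311,
  nat_lit 13905, nat_lit 6673, nat_lit 9689, nat_lit 15863, nat_lit 13829, nat_lit 13943,
  nat_lit 12895, nat_lit 6843, nat_lit 13493, nat_lit 13094, nat_lit 6253, nat_lit 6182,
  nat_lit 11860, nat_lit 1960]),
  ([nat_lit 230164, nat_lit 289553, nat_lit 285129, nat_lit 91909, nat_lit 244364, nat_lit 179593,
  nat_lit 222685, nat_lit 161961, nat_lit 89514, nat_lit 234404, nat_lit 151908, nat_lit 157383,
  nat_lit 218177, nat_lit 152511, nat_lit 147314, nat_lit 69679, nat_lit 239768, nat_lit 164611,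
  nat_lit 152199, nat_lit 127510, nat_lit 263391, nat_lit 190800, nat_lit 153221, nat_lit 132225,
  nat_lit 62892, nat_lit 304129, nat_lit 225621, nat_lit 175948, nat_lit 154057, nat_lit 147153,
  nat_lit 392347, nat_lit 297091, nat_lit 241793, nat_lit 210747, nat_lit 190497, nat_lit 90938,
  nat_lit 462391, nat_lit 384097, nat_lit 242913, nat_lit 148222, nat_lit 103574, nat_lit 92582,
  nat_lit 632596, nat_lit 413704, nat_lit 174025, nat_lit 107342, nat_lit 87245, nat_lit 75175,
  nat_lit 37305, nat_lit 885743, nat_lit 383856, nat_lit 148954, nat_lit 101040, nat_lit 78868,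
  nat_lit 67904, nat_lit 65843, nat_lit 1403312, nat_lit 359364, nat_lit 140029, nat_lit 96708,
  nat_lit 77878, nat_lit 66935, nat_lit 61771, nat_lit 30532, nat_lit 1153944, nat_lit 342616,
  nat_lit 136439, nat_lit 96848, nat_lit 77760, nat_lit 67566, nat_lit 62248, nat_lit 58680,
  nat_lit 67988, nat_lit 96524, nat_lit 77777, nat_lit 69470, nat_lit 59149, nat_lit 59416,
  nat_lit 27556, nat_lit 39041, nat_lit 67496, nat_lit 62351, nat_lit 59342, nat_lit 55391,
  nat_lit 32324, nat_lit 58026, nat_lit 58654, nat_lit 27797, nat_lit 28354, nat_lit 52392,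
  nat_lit 8973],
   [nat_lit 2675076, nat_lit 1609953, nat_lit 1288884, nat_lit 243310, nat_lit 969961,
  nat_lit 285983, nat_lit 789704, nat_lit 193135, nat_lit 80245, nat_lit 694567, nat_lit 146442,
  nat_lit 106533, nat_lit 636024, nat_lit 121575, nat_lit 75947, nat_lit 39533, nat_lit 592549,
  nat_lit 103444, nat_lit 61807, nat_lit 56622, nat_lit 566432, nat_lit 92504, nat_lit 51974,
  nat_lit 44473, nat_lit 21796, nat_lit 551770, nat_lit 83897, nat_lit 45115, nat_lit 37830,
  nat_lit 33960, nat_lit 552448, nat_lit 79089, nat_lit 42346, nat_lit 34585, nat_lit 31425,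
  nat_lit 14104, nat_lit 541945, nat_lit 73524, nat_lit 37969, nat_lit 29037, nat_lit 26155,
  nat_lit 22916, nat_lit 551879, nat_lit 70219, nat_lit 35430, nat_lit 27485, nat_lit 24732,
  nat_lit 20866, nat_lit 10392, nat_lit 560583, nat_lit 67442, nat_lit 34057, nat_lit 25684,
  nat_lit 22932, nat_lit 18769, nat_lit 18081, nat_lit 576268, nat_lit 65956, nat_lit 33142,
  nat_lit 24453, nat_lit 21315, nat_lit 17969, nat_lit 16356, nat_lit 8438, nat_lit 303711,
  nat_lit 65498, nat_lit 32981, nat_lit 23734, nat_lit 21422, nat_lit 17213, nat_lit 16065,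
  nat_lit 15325, nat_lit 16333, nat_lit 23248, nat_lit 20488, nat_lit 16839, nat_lit 14720,
  nat_lit 14296, nat_lit 6862, nat_lit 9958, nat_lit 16309, nat_lit 14225, nat_lit 14334,
  nat_lit 13256, nat_lit 7040, nat_lit 13869, nat_lit 13455, nat_lit 6427, nat_lit 6356,
  nat_lit 12200, nat_lit 2016])]

theorem run63 : run W63 data63 = true := by decide +kernel

end Vale.Agent.P154.AF.Eng
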