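import Vale.Agent.P154AF.Eng
import Vale.Agent.P154AF.Run63

/-! Run data, generations 112 to 119 (helper file). -/

namespace Vale.Agent.P154.AF.Eng

def W112 : List Nat :=
  [nat_lit 45777, nat_lit 162704, nat_lit 271077, nat_lit 202220, nat_lit 285107, nat_lit 464550,
  nat_lit 297749, nat_lit 430281, nat_lit 220115, nat_lit 305720, nat_lit 398779, nat_lit 351568,
  nat_lit 310826, nat_lit 368744, nat_lit 299763, nat_lit 139665, nat_lit 312920, nat_lit 341337,
  nat_lit 263495, nat_lit 226094, nat_lit 314355, nat_lit 322848, nat_lit 235379, nat_lit 201123,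
  nat_lit 93234, nat_lit 317594, nat_lit 306129, nat_lit 214243, nat_lit 180818, nat_lit 160833,
  nat_lit 324265, nat_lit 295781, nat_lit 203983, nat_lit 169030, nat_lit 148578, nat_lit 72555,
  nat_lit 324924, nat_lit 283361, nat_lit 188879, nat_lit 154053, nat_lit 132541, nat_lit 125815,
  nat_lit 329176, nat_lit 276334, nat_lit 181122, nat_lit 146714, nat_lit 125856, nat_lit 114315,
  nat_lit 57988, nat_lit 331446, nat_lit 270077, nat_lit 174991, nat_lit 141328, nat_lit 118911,
  nat_lit 107232, nat_lit 104388, nat_lit 334854, nat_lit 265443, nat_lit 171502, nat_lit 136287,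
  nat_lit 114322, nat_lit 101962, nat_lit 97530, nat_lit 48459, nat_lit 168222, nat_lit 263222,
  nat_lit 170647, nat_lit 134184, nat_lit 113156, nat_lit 99042, nat_lit 94136, nat_lit 90802,
  nat_lit 84819, nat_lit 131349, nat_lit 109204, nat_lit 96152, nat_lit 90981, nat_lit 87147,
  nat_lit 42386, nat_lit 55147, nat_lit 95146, nat_lit 88056, nat_lit 84881, nat_lit 81276,
  nat_lit 44590, nat_lit 83010, nat_lit 80431, nat_lit 39712, nat_lit 39501, nat_lit 78104,
  nat_lit 12864]

def data112 : List (List Nat × List Nat) := [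
  ([nat_lit 116, nat_lit 607, nat_lit 1930, nat_lit 1333, nat_lit 3360, nat_lit 8200,
  nat_lit 4905, nat_lit 15331, nat_lit 12391, nat_lit 6816, nat_lit 23839, nat_lit 46024,
  nat_lit 8205, nat_lit 32197, nat_lit 67660, nat_lit 40736, nat_lit 10014, nat_lit 43955,
  nat_lit 91916, nat_lit 115220, nat_lit 12712, nat_lit 61914, nat_lit 119743, nat_lit 150494,
  nat_lit 79932, nat_lit 17968, nat_lit 89679, nat_lit 162471, nat_lit 198356, nat_lit 212141,
  nat_lit 27984, nat_lit 140133, nat_lit 242607, nat_lit 285555, nat_lit 300978, nat_lit 152182,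
  nat_lit 48937, nat_lit 241372, nat_lit 346195, nat_lit 344174, nat_lit 322407, nat_lit 309749,
  nat_lit 103785, nat_lit 375689, nat_lit 393586, nat_lit 336074, nat_lit 300962, nat_lit 283500,
  nat_lit 139408, nat_lit 201614, nat_lit 481996, nat_lit 390482, nat_lit 319095, nat_lit 279997,
  nat_lit 261126, nat_lit 251668, nat_lit 312729, nat_lit 542136, nat_lit 380938, nat_lit 306127,
  nat_lit 269289, nat_lit 248969, nat_lit 236605, nat_lit 117339, nat_lit 184052, nat_lit 567367,
  nat_lit 376051, nat_lit 300674, nat_lit 262771, nat_lit 239372, nat_lit 227862, nat_lit 222357,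
  nat_lit 187206, nat_lit 297446, nat_lit 257972, nat_lit 235614, nat_lit 220837, nat_lit 214668,
  nat_lit 105721, nat_lit 128372, nat_lit 232762, nat_lit 217780, nat_lit 209899, nat_lit 203976,
  nat_lit 109356, nat_lit 206466, nat_lit 203143, nat_lit 99942, nat_lit 100447, nat_lit 196801,
  nat_lit 32750],
   [nat_lit 36388, nat_lit 136210, nat_lit 238143, nat_lit 183909, nat_lit 256994, nat_lit 442367,
  nat_lit 273582, nat_lit 419865, nat_lit 217274, nat_lit 284382, nat_lit 394716, nat_lit 353559,
  nat_lit 291666, nat_lit 368270, nat_lit 305046, nat_lit 142097, nat_lit 295701, nat_lit 343178,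
  nat_lit 269738, nat_lit 232105, nat_lit 298395, nat_lit 326112, nat_lit 242099, nat_lit 207399,
  nat_lit 96555, nat_lit 302656, nat_lit 310342, nat_lit 221015, nat_lit 187106, nat_lit 167261,
  nat_lit 309913, nat_lit 300613, nat_lit 210840, nat_lit 175361, nat_lit 154639, nat_lit 75859,
  nat_lit 311223, nat_lit 288610, nat_lit 195655, nat_lit 160343, nat_lit 138338, nat_lit 131765,
  nat_lit 315673, nat_lit 281888, nat_lit 187881, nat_lit 152804, nat_lit 131532, nat_lit 119954,
  nat_lit 60861, nat_lit 318142, nat_lit 275808, nat_lit 181646, nat_lit 147392, nat_lit 124428,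
  nat_lit 112701, nat_lit 109758, nat_lit 321590, nat_lit 271220, nat_lit 178134, nat_lit 142284,
  nat_lit 119720, nat_lit 107266, nat_lit 102695, nat_lit 51002, nat_lit 161516, nat_lit 269089,
  nat_lit 177371, nat_lit 140124, nat_lit 118555, nat_lit 104254, nat_lit 99157, nat_lit 95713,
  nat_lit 88132, nat_lit 137227, nat_lit 114453, nat_lit 101272, nat_lit 95944, nat_lit 91973,
  nat_lit 44762, nat_lit 57824, nat_lit 100194, nat_lit 92890, nat_lit 89530, nat_lit 85884,
  nat_lit 47096, nat_lit 87624, nat_lit 85005, nat_lit 41993, nat_lit 41775, nat_lit 82576,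
  nat_lit 13615]),
  ([nat_lit 88, nat_lit 410, nat_lit 1392, nat_lit 961, nat_lit 2540, nat_lit 6308, nat_lit 3824,
  nat_lit 12392, nat_lit 10151, nat_lit 5431, nat_lit 19985, nat_lit 39677, nat_lit 6643,
  nat_lit 27618, nat_lit 60314, nat_lit 36840, nat_lit 8182, nat_lit 38385, nat_lit 83896,
  nat_lit 107572, nat_lit 10484, nat_lit 54961, nat_lit 111378, nat_lit 143471, nat_lit 76775,
  nat_lit 15033, nat_lit 80880, nat_lit 153587, nat_lit 191964, nat_lit 207213, nat_lit 23733,
  nat_lit 128417, nat_lit 232383, nat_lit 279630, nat_lit 297813, nat_lit 151098, nat_lit 42357,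
  nat_lit 225388, nat_lit 337797, nat_lit 344012, nat_lit 326343, nat_lit 315067, nat_lit 92118,
  nat_lit 358111, nat_lit 391956, nat_lit 341554, nat_lit 308504, nat_lit 291922, nat_lit 143710,
  nat_lit 182555, nat_lit 466890, nat_lit 394038, nat_lit 326713, nat_lit 288819, nat_lit 270517,
  nat_lit 261097, nat_lit 284968, nat_lit 530412, nat_lit 386827, nat_lit 314728, nat_lit 278607,
  nat_lit 258557, nat_lit 246284, nat_lit 122176, nat_lit 167651, nat_lit 557646, nat_lit 383024,
  nat_lit 309649, nat_lit 272314, nat_lit 249028, nat_lit 237501, nat_lit 232065, nat_lit 190843,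
  nat_lit 306589, nat_lit 267562, nat_lit 245262, nat_lit 230597, nat_lit 224246, nat_lit 110574,
  nat_lit 133177, nat_lit 242447, nat_lit 227410, nat_lit 219415, nat_lit 213568, nat_lit 114207,
  nat_lit 215998, nat_lit 212537, nat_lit 104674, nat_lit 105165, nat_lit 206302, nat_lit 34309],
   [nat_lit 28695, nat_lit 112953, nat_lit 207608, nat_lit 165865, nat_lit 230214, nat_lit 418603,
  nat_lit 250092, nat_lit 407690, nat_lit 213515, nat_lit 263370, nat_lit 389093, nat_lit 354430,
  nat_lit 272636, nat_lit 366502, nat_lit 309599, nat_lit 144288, nat_lit 278485, nat_lit 343959,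
  nat_lit 275508, nat_lit 237903, nat_lit 282371, nat_lit 328487, nat_lit 248523, nat_lit 213556,
  nat_lit 99886, nat_lit 287611, nat_lit 313806, nat_lit 227598, nat_lit 193367, nat_lit 173775,
  nat_lit 295425, nat_lit 304798, nat_lit 217575, nat_lit 181727, nat_lit 160834, nat_lit 79243,
  nat_lit 297373, nat_lit 293295, nat_lit 202369, nat_lit 166708, nat_lit 144296, nat_lit 137889,
  nat_lit 302025, nat_lit 286933, nat_lit 194615, nat_lit 158990, nat_lit 137395, nat_lit 125800,
  nat_lit 63835, nat_lit 304697, nat_lit 281073, nat_lit 188297, nat_lit 153569, nat_lit 130141,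
  nat_lit 118389, nat_lit 115341, nat_lit 308183, nat_lit 276559, nat_lit 184776, nat_lit 148406,
  nat_lit 125320, nat_lit 112801, nat_lit 108082, nat_lit 53660, nat_lit 154750, nat_lit 274532,
  nat_lit 184121, nat_lit 146193, nat_lit 124161, nat_lit 109696, nat_lit 104399, nat_lit 100853,
  nat_lit 91457, nat_lit 143242, nat_lit 119917, nat_lit 106630, nat_lit 101132, nat_lit 97037,
  nat_lit 47257, nat_lit 60605, nat_lit 105475, nat_lit 97949, nat_lit 94414, nat_lit 90730,
  nat_lit 49720, nat_lit 92470, nat_lit 89820, nat_lit 44391, nat_lit 44171, nat_lit 87279,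
  nat_lit 14408]),
  ([nat_lit 69, nat_lit 273, nat_lit 989, nat_lit 682, nat_lit 1894, nat_lit 4779, nat_lit 2947,
  nat_lit 9886, nat_lit 8205, nat_lit 4282, nat_lit 16569, nat_lit 33833, nat_lit 5325,
  nat_lit 23461, nat_lit 53281, nat_lit 33031, nat_lit 6622, nat_lit 33229, nat_lit 75997,
  nat_lit 99741, nat_lit 8569, nat_lit 48410, nat_lit 102927, nat_lit 136027, nat_lit 73363,
  nat_lit 12473, nat_lit 72439, nat_lit 144397, nat_lit 184964, nat_lit 201614, nat_lit 19973,
  nat_lit 116977, nat_lit 221593, nat_lit 272888, nat_lit 293817, nat_lit 149602, nat_lit 36407,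
  nat_lit 209401, nat_lit 328377, nat_lit 342841, nat_lit 329484, nat_lit 319734, nat_lit 81284,
  nat_lit 339930, nat_lit 389109, nat_lit 346336, nat_lit 315677, nat_lit 300126, nat_lit 147930,
  nat_lit 164503, nat_lit 450630, nat_lit 396649, nat_lit 333971, nat_lit 297547, nat_lit 279950,
  nat_lit 270631, nat_lit 258616, nat_lit 517287, nat_lit 392043, nat_lit 323165, nat_lit 287987,
  nat_lit 268321, nat_lit 256202, nat_lit 127141, nat_lit 152159, nat_lit 546430, nat_lit 389464,
  nat_lit 318563, nat_lit 282006, nat_lit 258950, nat_lit 247460, nat_lit 242119, nat_lit 194236,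
  nat_lit 315724, nat_lit 277346, nat_lit 255217, nat_lit 240724, nat_lit 234224, nat_lit 115631,
  nat_lit 138087, nat_lit 252457, nat_lit 237434, nat_lit 229356, nat_lit 223609, nat_lit 119258,
  nat_lit 225973, nat_lit 222391, nat_lit 109641, nat_lit 110119, nat_lit 216282, nat_lit 35949],
   [nat_lit 22459, nat_lit 92783, nat_lit 179582, nat_lit 148325, nat_lit 204924, nat_lit 393561,
  nat_lit 227432, nat_lit 393857, nat_lit 208852, nat_lit 242823, nat_lit 381921, nat_lit 354118,
  nat_lit 253857, nat_lit 363412, nat_lit 313340, nat_lit 146210, nat_lit 261377, nat_lit 343631,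
  nat_lit 280732, nat_lit 243433, nat_lit 266377, nat_lit 329916, nat_lit 254589, nat_lit 219552,
  nat_lit 103205, nat_lit 272540, nat_lit 316461, nat_lit 233936, nat_lit 199570, nat_lit 180345,
  nat_lit 280876, nat_lit 308276, nat_lit 224139, nat_lit 188102, nat_lit 167142, nat_lit 82694,
  nat_lit 283444, nat_lit 297356, nat_lit 208981, nat_lit 173125, nat_lit 150403, nat_lit 144170,
  nat_lit 288297, nat_lit 291411, nat_lit 201283, nat_lit 165254, nat_lit 143434, nat_lit 131842,
  nat_lit 66903, nat_lit 291170, nat_lit 285815, nat_lit 194909, nat_lit 159841, nat_lit 136042,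
  nat_lit 124289, nat_lit 121131, nat_lit 294693, nat_lit 281404, nat_lit 191396, nat_lit 154638,
  nat_lit 131118, nat_lit 118563, nat_lit 113687, nat_lit 56433, nat_lit 147951, nat_lit 279495,
  nat_lit 190864, nat_lit 152375, nat_lit 129970, nat_lit 115364, nat_lit 109856, nat_lit 106222,
  nat_lit 94777, nat_lit 149379, nat_lit 125593, nat_lit 112224, nat_lit 106542, nat_lit 102338,
  nat_lit 49871, nat_lit 63489, nat_lit 110987, nat_lit 103232, nat_lit 99537, nat_lit 95814,
  nat_lit 52463, nat_lit 97552, nat_lit 94881, nat_lit 46909, nat_lit 46693, nat_lit 92216,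
  nat_lit 15241]),
  ([nat_lit 63, nat_lit 178, nat_lit 692, nat_lit 475, nat_lit 1395, nat_lit 3566, nat_lit 2245,
  nat_lit 7784, nat_lit 6542, nat_lit 3340, nat_lit 13583, nat_lit 28529, nat_lit 4227,
  nat_lit 19732, nat_lit 46634, nat_lit 29352, nat_lit 5310, nat_lit 28510, nat_lit 68310,
  nat_lit 91825, nat_lit 6942, nat_lit 42303, nat_lit 94486, nat_lit 128236, nat_lit 69728,
  nat_lit 10263, nat_lit 64424, nat_lit 134996, nat_lit 177408, nat_lit 195372, nat_lit 16678,
  nat_lit 105910, nat_lit 210331, nat_lit 265357, nat_lit 288985, nat_lit 147686, nat_lit 31074,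
  nat_lit 193553, nat_lit 317995, nat_lit 340623, nat_lit 331765, nat_lit 323675, nat_lit 71301,
  nat_lit 321304, nat_lit 385023, nat_lit 350343, nat_lit 322406, nat_lit 308038, nat_lit 152035,
  nat_lit 147522, nat_lit 433339, nat_lit 398243, nat_lit 340795, nat_lit 306120, nat_lit 289372,
  nat_lit 280223, nat_lit 233744, nat_lit 502839, nat_lit 396504, nat_lit 331375, nat_lit 297380,
  nat_lit 278226, nat_lit 266329, nat_lit 132221, nat_lit 137598, nat_lit 533776, nat_lit 395293,
  nat_lit 327361, nat_lit 291808, nat_lit 269111, nat_lit 257719, nat_lit 252505, nat_lit 197344,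
  nat_lit 324799, nat_lit 287292, nat_lit 265459, nat_lit 251203, nat_lit 244597, nat_lit 120888,
  nat_lit 143086, nat_lit 262775, nat_lit 247843, nat_lit 239719, nat_lit 234098, nat_lit 124507,
  nat_lit 236389, nat_lit 232708, nat_lit 114845, nat_lit 115311, nat_lit 226748, nat_lit 37670],
   [nat_lit 17459, nat_lit 75500, nat_lit 154122, nat_lit 131504, nat_lit 181252, nat_lit 367576,
  nat_lit 205741, nat_lit 378507, nat_lit 203315, nat_lit 222869, nat_lit 373243, nat_lit 352572,
  nat_lit 235447, nat_lit 358993, nat_lit 316196, nat_lit 147834, nat_lit 244478, nat_lit 342161,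
  nat_lit 285345, nat_lit 248640, nat_lit 250504, nat_lit 330356, nat_lit 260236, nat_lit 225346,
  nat_lit 106486, nat_lit 257526, nat_lit 318258, nat_lit 239977, nat_lit 205680, nat_lit 186933,
  nat_lit 266341, nat_lit 310995, nat_lit 230483, nat_lit 194457, nat_lit 173541, nat_lit 86196,
  nat_lit 269504, nat_lit 300742, nat_lit 215445, nat_lit 179568, nat_lit 156639, nat_lit 150587,
  nat_lit 274557, nat_lit 295270, nat_lit 207847, nat_lit 171576, nat_lit 149637, nat_lit 138068,
  nat_lit 70061, nat_lit 277626, nat_lit 289982, nat_lit 201444, nat_lit 166190, nat_lit 142122,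
  nat_lit 130389, nat_lit 127120, nat_lit 281182, nat_lit 285707, nat_lit 197958, nat_lit 160963,
  nat_lit 137108, nat_lit 124543, nat_lit 119505, nat_lit 59320, nat_lit 141150, nat_lit 283926,
  nat_lit 197564, nat_lit 158654, nat_lit 135975, nat_lit 121252, nat_lit 115525, nat_lit 111818,
  nat_lit 98074, nat_lit 155622, nat_lit 131478, nat_lit 118049, nat_lit 112170, nat_lit 107876,
  nat_lit 52605, nat_lit 66474, nat_lit 116725, nat_lit 108737, nat_lit 104900, nat_lit 101138,
  nat_lit 55322, nat_lit 102870, nat_lit 100188, nat_lit 49547, nat_lit 49341, nat_lit 97390,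
  nat_lit 16117]),
  ([nat_lit 60, nat_lit 115, nat_lit 477, nat_lit 325, nat_lit 1014, nat_lit 2620, nat_lit 1691,
  nat_lit 6047, nat_lit 5145, nat_lit 2580, nat_lit 11009, nat_lit 23785, nat_lit 3324,
  nat_lit 16431, nat_lit 40433, nat_lit 25847, nat_lit 4220, nat_lit 24243, nat_lit 60917,
  nat_lit 83920, nat_lit 5574, nat_lit 36673, nat_lit 86151, nat_lit 120185, nat_lit 65907,
  nat_lit 8375, nat_lit 56889, nat_lit 125486, nat_lit 169361, nat_lit 188529, nat_lit 13820,
  nat_lit 95304, nat_lit 198700, nat_lit 257077, nat_lit 283322, nat_lit 145348, nat_lit 26338,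
  nat_lit 177982, nat_lit 306727, nat_lit 337342, nat_lit 333126, nat_lit 326823, nat_lit 62177,
  nat_lit 302396, nat_lit 379698, nat_lit 353502, nat_lit 328615, nat_lit 315588, nat_lit 155989,
  nat_lit 131655, nat_lit 415160, nat_lit 398760, nat_lit 347112, nat_lit 314474, nat_lit 298729,
  nat_lit 289823, nat_lit 210405, nat_lit 487169, nat_lit 400137, nat_lit 339290, nat_lit 306738,
  nat_lit 288233, nat_lit 276629, nat_lit 137400, nat_lit 123978, nat_lit 519765, nat_lit 400434,
  nat_lit 335984, nat_lit 301680, nat_lit 279483, nat_lit 268257, nat_lit 263202, nat_lit 200131,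
  nat_lit 333762, nat_lit 297365, nat_lit 275963, nat_lit 262018, nat_lit 255354, nat_lit 126340,
  nat_lit 148155, nat_lit 273382, nat_lit 258626, nat_lit 250500, nat_lit 245031, nat_lit 129946,
  nat_lit 247243, nat_lit 243489, nat_lit 120287, nat_lit 120743, nat_lit 237703, nat_lit 39474],
   [nat_lit 13482, nat_lit 60872, nat_lit 131234, nat_lit 115588, nat_lit 159289, nat_lit 341006,
  nat_lit 185138, nat_lit 361815, nat_lit 196952, nat_lit 203630, nat_lit 363131, nat_lit 349764,
  nat_lit 217516, nat_lit 353261, nat_lit 318106, nat_lit 149131, nat_lit 227885, nat_lit 339534,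
  nat_lit 289283, nat_lit 253471, nat_lit 234843, nat_lit 329775, nat_lit 265404, nat_lit 230895,
  nat_lit 109705, nat_lit 242652, nat_lit 319158, nat_lit 245668, nat_lit 211665, nat_lit 193503,
  nat_lit 251897, nat_lit 312913, nat_lit 236559, nat_lit 200763, nat_lit 180006, nat_lit 89732,
  nat_lit 255625, nat_lit 303408, nat_lit 221718, nat_lit 186012, nat_lit 162987, nat_lit 157119,
  nat_lit 260870, nat_lit 298462, nat_lit 214266, nat_lit 177934, nat_lit 155988, nat_lit 144459,
  nat_lit 73300, nat_lit 264126, nat_lit 293528, nat_lit 207864, nat_lit 172597, nat_lit 148370,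
  nat_lit 136676, nat_lit 133299, nat_lit 267710, nat_lit 289420, nat_lit 204425, nat_lit 167361,
  nat_lit 143280, nat_lit 130733, nat_lit 125527, nat_lit 62318, nat_lit 134377, nat_lit 287780,
  nat_lit 204184, nat_lit 165013, nat_lit 142169, nat_lit 127351, nat_lit 121399, nat_lit 117639,
  nat_lit 101331, nat_lit 161954, nat_lit 137567, nat_lit 124099, nat_lit 118012, nat_lit 113652,
  nat_lit 55457, nat_lit 69556, nat_lit 122685, nat_lit 114459, nat_lit 110503, nat_lit 106702,
  nat_lit 58295, nat_lit 108425, nat_lit 105742, nat_lit 52304, nat_lit 52116, nat_lit 102803,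
  nat_lit 17034]),
  ([nat_lit 55, nat_lit 72, nat_lit 325, nat_lit 219, nat_lit 728, nat_lit 1895, nat_lit 1259,
  nat_lit 4637, nat_lit 3991, nat_lit 1972, nat_lit 8823, nat_lit 19605, nat_lit 2589,
  nat_lit 13546, nat_lit 34724, nat_lit 22551, nat_lit 3324, nat_lit 20430, nat_lit 53890,
  nat_lit 76126, nat_lit 4437, nat_lit 31539, nat_lit 78014, nat_lit 111964, nat_lit 61941,
  nat_lit 6779, nat_lit 49879, nat_lit 115969, nat_lit 160900, nat_lit 181139, nat_lit 11365,
  nat_lit 85235, nat_lit 186812, nat_lit 248108, nat_lit 276851, nat_lit 142592, nat_lit 22168,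
  nat_lit 162818, nat_lit 294670, nat_lit 332994, nat_lit 333524, nat_lit 329118, nat_lit 53901,
  nat_lit 283374, nat_lit 373154, nat_lit 355753, nat_lit 334232, nat_lit 322704, nat_lit 159758,
  nat_lit 116930, nat_lit 396253, nat_lit 398156, nat_lit 352851, nat_lit 322546, nat_lit 307963,
  nat_lit 299379, nat_lit 188629, nat_lit 470403, nat_lit 402875, nat_lit 346848, nat_lit 316006,
  nat_lit 298297, nat_lit 287065, nat_lit 142661, nat_lit 111300, nat_lit 504502, nat_lit 404816,
  nat_lit 344374, nat_lit 311577, nat_lit 290030, nat_lit 279045, nat_lit 274188, nat_lit 202560,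
  nat_lit 342558, nat_lit 307525, nat_lit 286704, nat_lit 273149, nat_lit 266482, nat_lit 131982,
  nat_lit 153276, nat_lit 284254, nat_lit 269768, nat_lit 261690, nat_lit 256403, nat_lit 135570,
  nat_lit 258528, nat_lit 254732, nat_lit 125966, nat_lit 126414, nat_lit 249147, nat_lit 41361],
   [nat_lit 10338, nat_lit 48636, nat_lit 110870, nat_lit 100728, nat_lit 139093, nat_lit 314216,
  nat_lit 165719, nat_lit 343988, nat_lit 189833, nat_lit 185208, nat_lit 351689, nat_lit 345685,
  nat_lit 200165, nat_lit 346257, nat_lit 319019, nat_lit 150078, nat_lit 211692, nat_lit 335756,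
  nat_lit 292492, nat_lit 257872, nat_lit 219478, nat_lit 328161, nat_lit 270040, nat_lit 236157,
  nat_lit 112833, nat_lit 227994, nat_lit 319134, nat_lit 250959, nat_lit 217489, nat_lit 200012,
  nat_lit 237617, nat_lit 313998, nat_lit 242322, nat_lit 206989, nat_lit 186509, nat_lit 93285,
  nat_lit 241875, nat_lit 305318, nat_lit 227757, nat_lit 192430, nat_lit 169423, nat_lit 163743,
  nat_lit 247301, nat_lit 300952, nat_lit 220501, nat_lit 184307, nat_lit 162470, nat_lit 150998,
  nat_lit 76612, nat_lit 250733, nat_lit 296414, nat_lit 214130, nat_lit 179041, nat_lit 154771,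
  nat_lit 143137, nat_lit 139655, nat_lit 254338, nat_lit 292506, nat_lit 210762, nat_lit 173813,
  nat_lit 149624, nat_lit 137119, nat_lit 131745, nat_lit 65424, nat_lit 127660, nat_lit 291015,
  nat_lit 210687, nat_lit 171434, nat_lit 148541, nat_lit 133652, nat_lit 127471, nat_lit 123679,
  nat_lit 104531, nat_lit 168357, nat_lit 143852, nat_lit 130365, nat_lit 124059, nat_lit 119663,
  nat_lit 58426, nat_lit 72732, nat_lit 128857, nat_lit 120394, nat_lit 116346, nat_lit 112503,
  nat_lit 61378, nat_lit 114215, nat_lit 111542, nat_lit 55181, nat_lit 55017, nat_lit 108455,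
  nat_lit 17994]),
  ([nat_lit 52, nat_lit 45, nat_lit 218, nat_lit 145, nat_lit 516, nat_lit 1350, nat_lit 927,
  nat_lit 3509, nat_lit 3054, nat_lit 1492, nat_lit 6991, nat_lit 15975, nat_lit 1997,
  nat_lit 11056, nat_lit 29536, nat_lit 19492, nat_lit 2594, nat_lit 17063, nat_lit 47291,
  nat_lit 68534, nat_lit 3501, nat_lit 26908, nat_lit 70157, nat_lit 103671, nat_lit 57878,
  nat_lit 5442, nat_lit 43424, nat_lit 106547, nat_lit 152110, nat_lit 173266, nat_lit 9273,
  nat_lit 75765, nat_lit 174784, nat_lit 238518, nat_lit 269607, nat_lit 139431, nat_lit 18529,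
  nat_lit 148179, nat_lit 281933, nat_lit 327596, nat_lit 332926, nat_lit 330512, nat_lit 46453,
  nat_lit 264408, nat_lit 365435, nat_lit 357045, nat_lit 339190, nat_lit 329317, nat_lit 163306,
  nat_lit 103354, nat_lit 376788, nat_lit 396400, nat_lit 357948, nat_lit 330273, nat_lit 317014,
  nat_lit 308835, nat_lit 168427, nat_lit 452681, nat_lit 404663, nat_lit 353982, nat_lit 325132,
  nat_lit 308374, nat_lit 297596, nat_lit 147984, nat_lit 99557, nat_lit 488111, nat_lit 408375,
  nat_lit 352473, nat_lit 321455, nat_lit 300717, nat_lit 290057, nat_lit 285438, nat_lit 204598,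
  nat_lit 351131, nat_lit 317733, nat_lit 297651, nat_lit 284574, nat_lit 277964, nat_lit 137805,
  nat_lit 158430, nat_lit 295365, nat_lit 281251, nat_lit 273278, nat_lit 268205, nat_lit 141368,
  nat_lit 270236, nat_lit 266432, nat_lit 131881, nat_lit 132321, nat_lit 261080, nat_lit 43331],
   [nat_lit 7889, nat_lit 38520, nat_lit 92935, nat_lit 87032, nat_lit 120682, nat_lit 287563,
  nat_lit 147555, nat_lit 325252, nat_lit 182039, nat_lit 167692, nat_lit 339045, nat_lit 340347,
  nat_lit 183482, nat_lit 338046, nat_lit 318901, nat_lit 150651, nat_lit 195979, nat_lit 330852,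
  nat_lit 294928, nat_lit 261791, nat_lit 204487, nat_lit 325515, nat_lit 274094, nat_lit 241092,
  nat_lit 115844, nat_lit 213625, nat_lit 318175, nat_lit 255805, nat_lit 223119, nat_lit 206420,
  nat_lit 223569, nat_lit 314230, nat_lit 247726, nat_lit 213105, nat_lit 193018, nat_lit 96836,
  nat_lit 228316, nat_lit 306447, nat_lit 233521, nat_lit 198794, nat_lit 175923, nat_lit 170434,
  nat_lit 233910, nat_lit 302709, nat_lit 226512, nat_lit 190670, nat_lit 169062, nat_lit 157664,
  nat_lit 79989, nat_lit 237503, nat_lit 298610, nat_lit 220206, nat_lit 185500, nat_lit 161308,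
  nat_lit 149754, nat_lit 146176, nat_lit 241123, nat_lit 294933, nat_lit 216933, nat_lit 180299,
  nat_lit 156127, nat_lit 143688, nat_lit 138148, nat_lit 68636, nat_lit 121029, nat_lit 293602,
  nat_lit 217037, nat_lit 177897, nat_lit 155079, nat_lit 140141, nat_lit 133730, nat_lit 129933,
  nat_lit 107657, nat_lit 174812, nat_lit 150323, nat_lit 136836, nat_lit 130305, nat_lit 125904,
  nat_lit 61509, nat_lit 75996, nat_lit 135232, nat_lit 126534, nat_lit 122428, nat_lit 118539,
  nat_lit 64569, nat_lit 120239, nat_lit 117587, nat_lit 58177, nat_lit 58043, nat_lit 114346,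
  nat_lit 18996])]

theorem run112 : run W112 data112 = true := by decide +kernel

end Vale.Agent.P154.AF.Eng
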