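import Vale.Agent.P154AF.Eng

/-! Run data, generations 21 to 28 (helper file). -/

namespace Vale.Agent.P154.AF.Eng

def W21 : List Nat :=
  [nat_lit 6468833, nat_lit 1318337, nat_lit 1024100, nat_lit 66849, nat_lit 778883,
  nat_lit 77933, nat_lit 639338, nat_lit 52676, nat_lit 21002, nat_lit 574898, nat_lit 39513,
  nat_lit 28937, nat_lit 535244, nat_lit 33148, nat_lit 20700, nat_lit 11021, nat_lit 508735,
  nat_lit 28371, nat_lit 17074, nat_lit 15830, nat_lit 495781, nat_lit 25545, nat_lit 14527,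
  nat_lit 12179, nat_lit 6271, nat_lit 496167, nat_lit 23345, nat_lit 12533, nat_lit 10387,
  nat_lit 9501, nat_lit 517175, nat_lit 22017, nat_lit 11802, nat_lit 9438, nat_lit 8802,
  nat_lit 3894, nat_lit 499865, nat_lit 20487, nat_lit 10546, nat_lit 7992, nat_lit 7305,
  nat_lit 6307, nat_lit 518242, nat_lit 19539, nat_lit 9888, nat_lit 7484, nat_lit 6990,
  nat_lit 5741, nat_lit 2872, nat_lit 533462, nat_lit 18730, nat_lit 9488, nat_lit 6991,
  nat_lit 6512, nat_lit 5098, nat_lit 5011, nat_lit 579229, nat_lit 18350, nat_lit 9281,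
  nat_lit 6696, nat_lit 6037, nat_lit 5000, nat_lit 4378, nat_lit 2385, nat_lit 375803,
  nat_lit 18275, nat_lit 9302, nat_lit 6485, nat_lit 6137, nat_lit 4786, nat_lit 4419,
  nat_lit 4268, nat_lit 4564, nat_lit 6322, nat_lit 5848, nat_lit 4662, nat_lit 3998,
  nat_lit 3987, nat_lit 1884, nat_lit 2835, nat_lit 4509, nat_lit 3863, nat_lit 3985,
  nat_lit 3663, nat_lit 1885, nat_lit 3867, nat_lit 3729, nat_lit 1781, nat_lit 1763,
  nat_lit 3344, nat_lit 560]

def data21 : List (List Nat × List Nat) := [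
  ([nat_lit 1255615, nat_lit 541450, nat_lit 463174, nat_lit 59531, nat_lit 378326,
  nat_lit 101924, nat_lit 334711, nat_lit 88167, nat_lit 44993, nat_lit 359033, nat_lit 81526,
  nat_lit 75922, nat_lit 328939, nat_lit 83200, nat_lit 70754, nat_lit 32709, nat_lit 374920,
  nat_lit 91553, nat_lit 76080, nat_lit 60201, nat_lit 414327, nat_lit 110564, nat_lit 78142,
  nat_lit 65881, nat_lit 31198, nat_lit 478121, nat_lit 133116, nat_lit 95314, nat_lit 84619,
  nat_lit 82939, nat_lit 666276, nat_lit 192588, nat_lit 151211, nat_lit 136015, nat_lit 124554,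
  nat_lit 59992, nat_lit 647926, nat_lit 238136, nat_lit 132629, nat_lit 71380, nat_lit 43064,
  nat_lit 37534, nat_lit 793065, nat_lit 228022, nat_lit 81234, nat_lit 46664, nat_lit 38866,
  nat_lit 32399, nat_lit 16367, nat_lit 978333, nat_lit 186388, nat_lit 73088, nat_lit 48936,
  nat_lit 37003, nat_lit 31564, nat_lit 31162, nat_lit 1518107, nat_lit 164510, nat_lit 68280,
  nat_lit 51841, nat_lit 39596, nat_lit 33132, nat_lit 30666, nat_lit 15009, nat_lit 2241456,
  nat_lit 156789, nat_lit 69899, nat_lit 52369, nat_lit 44264, nat_lit 36085, nat_lit 32769,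
  nat_lit 30405, nat_lit 35993, nat_lit 53383, nat_lit 45589, nat_lit 42061, nat_lit 32393,
  nat_lit 33299, nat_lit 14960, nat_lit 21871, nat_lit 40810, nat_lit 37760, nat_lit 36603,
  nat_lit 34836, nat_lit 22564, nat_lit 35410, nat_lit 35684, nat_lit 16592, nat_lit 16420,
  nat_lit 29441, nat_lit 5025],
   [nat_lit 6348542, nat_lit 1341003, nat_lit 1039479, nat_lit 70316, nat_lit 788951,
  nat_lit 81720, nat_lit 646604, nat_lit 55174, nat_lit 22007, nat_lit 580422, nat_lit 41365,
  nat_lit 30263, nat_lit 539734, nat_lit 34668, nat_lit 21624, nat_lit 11511, nat_lit 512418,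
  nat_lit 29650, nat_lit 17815, nat_lit 16523, nat_lit 498861, nat_lit 26682, nat_lit 15144,
  nat_lit 12706, nat_lit 6540, nat_lit 498647, nat_lit 24369, nat_lit 13064, nat_lit 10831,
  nat_lit 9912, nat_lit 518552, nat_lit 22983, nat_lit 12303, nat_lit 9849, nat_lit 9180,
  nat_lit 4066, nat_lit 501865, nat_lit 21382, nat_lit 10992, nat_lit 8328, nat_lit 7614,
  nat_lit 6576, nat_lit 520036, nat_lit 20390, nat_lit 10301, nat_lit 7802, nat_lit 7282,
  nat_lit 5987, nat_lit 2994, nat_lit 535367, nat_lit 19545, nat_lit 9884, nat_lit 7285,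
  nat_lit 6781, nat_lit 5316, nat_lit 5221, nat_lit 580465, nat_lit 19147, nat_lit 9666,
  nat_lit 6975, nat_lit 6285, nat_lit 5209, nat_lit 4568, nat_lit 2483, nat_lit 372198,
  nat_lit 19071, nat_lit 9687, nat_lit 6755, nat_lit 6390, nat_lit 4988, nat_lit 4607,
  nat_lit 4445, nat_lit 4753, nat_lit 6587, nat_lit 6087, nat_lit 4860, nat_lit 4167,
  nat_lit 4152, nat_lit 1963, nat_lit 2950, nat_lit 4698, nat_lit 4026, nat_lit 4150,
  nat_lit 3818, nat_lit 1966, nat_lit 4028, nat_lit 3887, nat_lit 1856, nat_lit 1836,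
  nat_lit 3484, nat_lit 583]),
  ([nat_lit 1209653, nat_lit 540705, nat_lit 462614, nat_lit 61596, nat_lit 377498,
  nat_lit 105449, nat_lit 333688, nat_lit 91092, nat_lit 46527, nat_lit 357265, nat_lit 84100,
  nat_lit 78392, nat_lit 327106, nat_lit 85656, nat_lit 72922, nat_lit 33711, nat_lit 372095,
  nat_lit 94079, nat_lit 78200, nat_lit 61897, nat_lit 410915, nat_lit 113320, nat_lit 80126,
  nat_lit 67511, nat_lit 31962, nat_lit 474172, nat_lit 136278, nat_lit 97458, nat_lit 86328,
  nat_lit 84467, nat_lit 657421, nat_lit 196175, nat_lit 153572, nat_lit 137781, nat_lit 126011,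
  nat_lit 60640, nat_lit 644104, nat_lit 242753, nat_lit 135309, nat_lit 72977, nat_lit 44229,
  nat_lit 38590, nat_lit 790207, nat_lit 233247, nat_lit 83171, nat_lit 47877, nat_lit 39810,
  nat_lit 33214, nat_lit 16771, nat_lit 979185, nat_lit 191418, nat_lit 74657, nat_lit 50006,
  nat_lit 37841, nat_lit 32259, nat_lit 31833, nat_lit 1524552, nat_lit 169215, nat_lit 69851,
  nat_lit 52714, nat_lit 40384, nat_lit 33796, nat_lit 31274, nat_lit 15316, nat_lit 2201804,
  nat_lit 161086, nat_lit 71325, nat_lit 53305, nat_lit 44891, nat_lit 36740, nat_lit 33366,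
  nat_lit 30970, nat_lit 36667, nat_lit 54282, nat_lit 46203, nat_lit 42574, nat_lit 32926,
  nat_lit 33827, nat_lit 15211, nat_lit 22249, nat_lit 41316, nat_lit 38249, nat_lit 37004,
  nat_lit 35144, nat_lit 22668, nat_lit 35839, nat_lit 36137, nat_lit 16810, nat_lit 16674,
  nat_lit 29901, nat_lit 5106],
   [nat_lit 6234168, nat_lit 1361951, nat_lit 1053791, nat_lit 73719, nat_lit 798353,
  nat_lit 85444, nat_lit 653414, nat_lit 57631, nat_lit 22997, nat_lit 585612, nat_lit 43187,
  nat_lit 31569, nat_lit 543963, nat_lit 36163, nat_lit 22534, nat_lit 11994, nat_lit 515891,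
  nat_lit 30909, nat_lit 18545, nat_lit 17205, nat_lit 501769, nat_lit 27800, nat_lit 15752,
  nat_lit 13226, nat_lit 6804, nat_lit 500983, nat_lit 25376, nat_lit 13588, nat_lit 11270,
  nat_lit 10317, nat_lit 519887, nat_lit 23934, nat_lit 12796, nat_lit 10254, nat_lit 9551,
  nat_lit 4234, nat_lit 503747, nat_lit 22262, nat_lit 11431, nat_lit 8659, nat_lit 7918,
  nat_lit 6841, nat_lit 521723, nat_lit 21229, nat_lit 10708, nat_lit 8115, nat_lit 7569,
  nat_lit 6229, nat_lit 3115, nat_lit 537131, nat_lit 20347, nat_lit 10274, nat_lit 7576,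
  nat_lit 7046, nat_lit 5532, nat_lit 5429, nat_lit 581543, nat_lit 19932, nat_lit 10046,
  nat_lit 7252, nat_lit 6529, nat_lit 5416, nat_lit 4755, nat_lit 2579, nat_lit 368903,
  nat_lit 19855, nat_lit 10066, nat_lit 7022, nat_lit 6639, nat_lit 5188, nat_lit 4792,
  nat_lit 4621, nat_lit 4940, nat_lit 6849, nat_lit 6322, nat_lit 5056, nat_lit 4335,
  nat_lit 4314, nat_lit 2041, nat_lit 3063, nat_lit 4884, nat_lit 4187, nat_lit 4314,
  nat_lit 3970, nat_lit 2045, nat_lit 4187, nat_lit 4043, nat_lit 1930, nat_lit 1909,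
  nat_lit 3621, nat_lit 606]),
  ([nat_lit 1166743, nat_lit 539448, nat_lit 461736, nat_lit 63540, nat_lit 376492,
  nat_lit 108794, nat_lit 332564, nat_lit 93878, nat_lit 47996, nat_lit 355460, nat_lit 86557,
  nat_lit 80765, nat_lit 325274, nat_lit 87999, nat_lit 75008, nat_lit 34677, nat_lit 369337,
  nat_lit 96489, nat_lit 80240, nat_lit 63536, nat_lit 407606, nat_lit 115947, nat_lit 82039,
  nat_lit 69088, nat_lit 32702, nat_lit 470322, nat_lit 139288, nat_lit 99523, nat_lit 87979,
  nat_lit 85946, nat_lit 649067, nat_lit 199584, nat_lit 155847, nat_lit 139492, nat_lit 127428,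
  nat_lit 61273, nat_lit 640360, nat_lit 247160, nat_lit 137899, nat_lit 74532, nat_lit 45367,
  nat_lit 39621, nat_lit 787406, nat_lit 238261, nat_lit 85056, nat_lit 49060, nat_lit 40731,
  nat_lit 34011, nat_lit 17166, nat_lit 979823, nat_lit 196269, nat_lit 76183, nat_lit 51048,
  nat_lit 38657, nat_lit 32940, nat_lit 32489, nat_lit 1530094, nat_lit 173765, nat_lit 71373,
  nat_lit 53568, nat_lit 41151, nat_lit 34445, nat_lit 31868, nat_lit 15615, nat_lit 2164420,
  nat_lit 165250, nat_lit 72708, nat_lit 54215, nat_lit 45506, nat_lit 37377, nat_lit 33947,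
  nat_lit 31521, nat_lit 37321, nat_lit 55155, nat_lit 46804, nat_lit 43076, nat_lit 33444,
  nat_lit 34341, nat_lit 15455, nat_lit 22615, nat_lit 41811, nat_lit 38724, nat_lit 37400,
  nat_lit 35453, nat_lit 22777, nat_lit 36259, nat_lit 36579, nat_lit 17022, nat_lit 16920,
  nat_lit 30350, nat_lit 5184],
   [nat_lit 6125051, nat_lit 1381381, nat_lit 1067160, nat_lit 77066, nat_lit 807166,
  nat_lit 89112, nat_lit 659820, nat_lit 60051, nat_lit 23974, nat_lit 590504, nat_lit 44984,
  nat_lit 32856, nat_lit 547958, nat_lit 37637, nat_lit 23431, nat_lit 12469, nat_lit 519176,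
  nat_lit 32150, nat_lit 19265, nat_lit 17878, nat_lit 504520, nat_lit 28904, nat_lit 16352,
  nat_lit 13739, nat_lit 7065, nat_lit 503191, nat_lit 26369, nat_lit 14104, nat_lit 11703,
  nat_lit 10716, nat_lit 521181, nat_lit 24872, nat_lit 13283, nat_lit 10653, nat_lit 9918,
  nat_lit 4401, nat_lit 505522, nat_lit 23130, nat_lit 11865, nat_lit 8986, nat_lit 8218,
  nat_lit 7102, nat_lit 523314, nat_lit 22055, nat_lit 11109, nat_lit 8425, nat_lit 7853,
  nat_lit 6469, nat_lit 3234, nat_lit 538771, nat_lit 21138, nat_lit 10660, nat_lit 7863,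
  nat_lit 7308, nat_lit 5746, nat_lit 5634, nat_lit 582486, nat_lit 20706, nat_lit 10421,
  nat_lit 7525, nat_lit 6770, nat_lit 5620, nat_lit 4940, nat_lit 2674, nat_lit 365873,
  nat_lit 20627, nat_lit 10441, nat_lit 7285, nat_lit 6885, nat_lit 5385, nat_lit 4975,
  nat_lit 4794, nat_lit 5125, nat_lit 7108, nat_lit 6555, nat_lit 5249, nat_lit 4500,
  nat_lit 4474, nat_lit 2119, nat_lit 3174, nat_lit 5068, nat_lit 4347, nat_lit 4475,
  nat_lit 4120, nat_lit 2124, nat_lit 4343, nat_lit 4198, nat_lit 2003, nat_lit 1980,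
  nat_lit 3757, nat_lit 628]),
  ([nat_lit 1126520, nat_lit 537757, nat_lit 460587, nat_lit 65372, nat_lit 375335,
  nat_lit 111977, nat_lit 331354, nat_lit 96539, nat_lit 49404, nat_lit 353622, nat_lit 88907,
  nat_lit 83050, nat_lit 323443, nat_lit 90242, nat_lit 77022, nat_lit 35611, nat_lit 366638,
  nat_lit 98795, nat_lit 82209, nat_lit 65125, nat_lit 404386, nat_lit 118460, nat_lit 83889,
  nat_lit 70617, nat_lit 33419, nat_lit 466566, nat_lit 142164, nat_lit 101516, nat_lit 89579,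
  nat_lit 87383, nat_lit 641149, nat_lit 202835, nat_lit 158046, nat_lit 141155, nat_lit 128810,
  nat_lit 61892, nat_lit 636686, nat_lit 251377, nat_lit 140408, nat_lit 76051, nat_lit 46482,
  nat_lit 40633, nat_lit 784651, nat_lit 243089, nat_lit 86895, nat_lit 50216, nat_lit 41634,
  nat_lit 34793, nat_lit 17553, nat_lit 980270, nat_lit 200961, nat_lit 77672, nat_lit 52063,
  nat_lit 39455, nat_lit 33606, nat_lit 33132, nat_lit 1534848, nat_lit 178177, nat_lit 72853,
  nat_lit 54403, nat_lit 41898, nat_lit 35079, nat_lit 32449, nat_lit 15908, nat_lit 2129043,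
  nat_lit 169294, nat_lit 74054, nat_lit 55100, nat_lit 46109, nat_lit 37997, nat_lit 34515,
  nat_lit 32060, nat_lit 37958, nat_lit 56006, nat_lit 47392, nat_lit 43570, nat_lit 33951,
  nat_lit 34843, nat_lit 15693, nat_lit 22970, nat_lit 42295, nat_lit 39188, nat_lit 37789,
  nat_lit 35763, nat_lit 22892, nat_lit 36669, nat_lit 37011, nat_lit 17229, nat_lit 17159,
  nat_lit 30788, nat_lit 5261],
   [nat_lit 6020602, nat_lit 1399460, nat_lit 1079689, nat_lit 80361, nat_lit 815454,
  nat_lit 92730, nat_lit 665864, nat_lit 62440, nat_lit 24940, nat_lit 595130, nat_lit 46758,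
  nat_lit 34127, nat_lit 551744, nat_lit 39093, nat_lit 24318, nat_lit 12938, nat_lit 522291,
  nat_lit 33376, nat_lit 19977, nat_lit 18542, nat_lit 507132, nat_lit 29993, nat_lit 16945,
  nat_lit 14247, nat_lit 7322, nat_lit 505286, nat_lit 27350, nat_lit 14615, nat_lit 12131,
  nat_lit 11110, nat_lit 522435, nat_lit 25798, nat_lit 13765, nat_lit 11049, nat_lit 10280,
  nat_lit 4565, nat_lit 507203, nat_lit 23987, nat_lit 12294, nat_lit 9310, nat_lit 8515,
  nat_lit 7362, nat_lit 524817, nat_lit 22872, nat_lit 11506, nat_lit 8731, nat_lit 8134,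
  nat_lit 6706, nat_lit 3352, nat_lit 540299, nat_lit 21920, nat_lit 11041, nat_lit 8148,
  nat_lit 7568, nat_lit 5957, nat_lit 5837, nat_lit 583313, nat_lit 21470, nat_lit 10792,
  nat_lit 7795, nat_lit 7009, nat_lit 5822, nat_lit 5124, nat_lit 2769, nat_lit 363073,
  nat_lit 21390, nat_lit 10811, nat_lit 7547, nat_lit 7128, nat_lit 5580, nat_lit 5157,
  nat_lit 4966, nat_lit 5308, nat_lit 7364, nat_lit 6784, nat_lit 5440, nat_lit 4664,
  nat_lit 4633, nat_lit 2195, nat_lit 3284, nat_lit 5251, nat_lit 4505, nat_lit 4635,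
  nat_lit 4269, nat_lit 2202, nat_lit 4499, nat_lit 4351, nat_lit 2076, nat_lit 2051,
  nat_lit 3892, nat_lit 651]),
  ([nat_lit 1088681, nat_lit 535696, nat_lit 459202, nat_lit 67104, nat_lit 374046,
  nat_lit 115012, nat_lit 330068, nat_lit 99084, nat_lit 50758, nat_lit 351756, nat_lit 91161,
  nat_lit 85256, nat_lit 321613, nat_lit 92394, nat_lit 78971, nat_lit 36516, nat_lit 363991,
  nat_lit 101008, nat_lit 84114, nat_lit 66668, nat_lit 401245, nat_lit 120870, nat_lit 85681,
  nat_lit 72104, nat_lit 34118, nat_lit 462893, nat_lit 144920, nat_lit 103445, nat_lit 91134,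
  nat_lit 88781, nat_lit 633612, nat_lit 205945, nat_lit 160176, nat_lit 142775, nat_lit 130159,
  nat_lit 62499, nat_lit 633075, nat_lit 255426, nat_lit 142846, nat_lit 77537, nat_lit 47578,
  nat_lit 41626, nat_lit 781937, nat_lit 247749, nat_lit 88693, nat_lit 51349, nat_lit 42519,
  nat_lit 35560, nat_lit 17932, nat_lit 980546, nat_lit 205511, nat_lit 79129, nat_lit 53056,
  nat_lit 40237, nat_lit 34261, nat_lit 33763, nat_lit 1538912, nat_lit 182466, nat_lit 74294,
  nat_lit 55223, nat_lit 42628, nat_lit 35702, nat_lit 33020, nat_lit 16194, nat_lit 2095441,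
  nat_lit 173235, nat_lit 75368, nat_lit 55964, nat_lit 46703, nat_lit 38603, nat_lit 35071,
  nat_lit 32587, nat_lit 38580, nat_lit 56837, nat_lit 47970, nat_lit 44055, nat_lit 34447,
  nat_lit 35333, nat_lit 15926, nat_lit 23315, nat_lit 42770, nat_lit 39641, nat_lit 38175,
  nat_lit 36074, nat_lit 23010, nat_lit 37072, nat_lit 37434, nat_lit 17433, nat_lit 17393,
  nat_lit 31218, nat_lit 5336],
   [nat_lit 5920338, nat_lit 1416329, nat_lit 1091468, nat_lit 83611, nat_lit 823270,
  nat_lit 96304, nat_lit 671585, nat_lit 64800, nat_lit 25896, nat_lit 599518, nat_lit 48514,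
  nat_lit 35384, nat_lit 555341, nat_lit 40533, nat_lit 25197, nat_lit 13402, nat_lit 525254,
  nat_lit 34589, nat_lit 20682, nat_lit 19199, nat_lit 509618, nat_lit 31071, nat_lit 17532,
  nat_lit 14750, nat_lit 7576, nat_lit 507277, nat_lit 28321, nat_lit 15121, nat_lit 12556,
  nat_lit 11500, nat_lit 523649, nat_lit 26715, nat_lit 14242, nat_lit 11440, nat_lit 10639,
  nat_lit 4728, nat_lit 508798, nat_lit 24835, nat_lit 12719, nat_lit 9631, nat_lit 8809,
  nat_lit 7618, nat_lit 526241, nat_lit 23680, nat_lit 11900, nat_lit 9035, nat_lit 8412,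
  nat_lit 6941, nat_lit 3469, nat_lit 541727, nat_lit 22693, nat_lit 11418, nat_lit 8430,
  nat_lit 7824, nat_lit 6167, nat_lit 6038, nat_lit 584041, nat_lit 22226, nat_lit 11159,
  nat_lit 8063, nat_lit 7245, nat_lit 6022, nat_lit 5306, nat_lit 2862, nat_lit 360475,
  nat_lit 22145, nat_lit 11178, nat_lit 7806, nat_lit 7369, nat_lit 5773, nat_lit 5337,
  nat_lit 5136, nat_lit 5489, nat_lit 7618, nat_lit 7012, nat_lit 5630, nat_lit 4827,
  nat_lit 4791, nat_lit 2271, nat_lit 3394, nat_lit 5432, nat_lit 4662, nat_lit 4794,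
  nat_lit 4417, nat_lit 2280, nat_lit 4653, nat_lit 4502, nat_lit 2148, nat_lit 2121,
  nat_lit 4025, nat_lit 673]),
  ([nat_lit 1052961, nat_lit 533316, nat_lit 457615, nat_lit 68743, nat_lit 372643,
  nat_lit 117912, nat_lit 328717, nat_lit 101526, nat_lit 52064, nat_lit 349868, nat_lit 93328,
  nat_lit 87391, nat_lit 319785, nat_lit 94463, nat_lit 80861, nat_lit 37395, nat_lit 361389,
  nat_lit 103137, nat_lit 85961, nat_lit 68171, nat_lit 398175, nat_lit 123186, nat_lit 87423,
  nat_lit 73553, nat_lit 34799, nat_lit 459294, nat_lit 147567, nat_lit 105317, nat_lit 92648,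
  nat_lit 90145, nat_lit 626412, nat_lit 208930, nat_lit 162246, nat_lit 144355, nat_lit 131480,
  nat_lit 63095, nat_lit 629520, nat_lit 259324, nat_lit 145220, nat_lit 78994, nat_lit 48655,
  nat_lit 42604, nat_lit 779256, nat_lit 252259, nat_lit 90455, nat_lit 52460, nat_lit 43390,
  nat_lit 36316, nat_lit 18306, nat_lit 980670, nat_lit 209934, nat_lit 80556, nat_lit 54029,
  nat_lit 41004, nat_lit 34905, nat_lit 34384, nat_lit 1542363, nat_lit 186646, nat_lit 75702,
  nat_lit 56029, nat_lit 43343, nat_lit 36314, nat_lit 33580, nat_lit 16476, nat_lit 2063423,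
  nat_lit 177081, nat_lit 76652, nat_lit 56808, nat_lit 47288, nat_lit 39196, nat_lit 35616,
  nat_lit 33105, nat_lit 39189, nat_lit 57651, nat_lit 48539, nat_lit 44533, nat_lit 34934,
  nat_lit 35814, nat_lit 16155, nat_lit 23651, nat_lit 43237, nat_lit 40085, nat_lit 38556,
  nat_lit 36384, nat_lit 23132, nat_lit 37469, nat_lit 37850, nat_lit 17634, nat_lit 17621,
  nat_lit 31639, nat_lit 5409],
   [nat_lit 5823824, nat_lit 1432111, nat_lit 1102573, nat_lit 86822, nat_lit 830664,
  nat_lit 99841, nat_lit 677014, nat_lit 67137, nat_lit 26843, nat_lit 603689, nat_lit 50252,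
  nat_lit 36630, nat_lit 558767, nat_lit 41960, nat_lit 26067, nat_lit 13862, nat_lit 528078,
  nat_lit 35791, nat_lit 21381, nat_lit 19851, nat_lit 511989, nat_lit 32140, nat_lit 18114,
  nat_lit 15249, nat_lit 7827, nat_lit 509175, nat_lit 29282, nat_lit 15623, nat_lit 12977,
  nat_lit 11887, nat_lit 524824, nat_lit 27623, nat_lit 14715, nat_lit 11829, nat_lit 10995,
  nat_lit 4889, nat_lit 510316, nat_lit 25675, nat_lit 13141, nat_lit 9950, nat_lit 9101,
  nat_lit 7873, nat_lit 527593, nat_lit 24481, nat_lit 12290, nat_lit 9337, nat_lit 8688,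
  nat_lit 7175, nat_lit 3585, nat_lit 543066, nat_lit 23460, nat_lit 11793, nat_lit 8710,
  nat_lit 8079, nat_lit 6375, nat_lit 6238, nat_lit 584680, nat_lit 22976, nat_lit 11523,
  nat_lit 8330, nat_lit 7480, nat_lit 6220, nat_lit 5487, nat_lit 2955, nat_lit 358051,
  nat_lit 22894, nat_lit 11542, nat_lit 8063, nat_lit 7607, nat_lit 5965, nat_lit 5516,
  nat_lit 5305, nat_lit 5669, nat_lit 7871, nat_lit 7238, nat_lit 5818, nat_lit 4989,
  nat_lit 4947, nat_lit 2346, nat_lit 3502, nat_lit 5611, nat_lit 4818, nat_lit 4951,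
  nat_lit 4563, nat_lit 2357, nat_lit 4806, nat_lit 4653, nat_lit 2219, nat_lit 2190,
  nat_lit 4158, nat_lit 695]),
  ([nat_lit 1019133, nat_lit 530659, nat_lit 455850, nat_lit 70297, nat_lit 371139,
  nat_lit 120689, nat_lit 327308, nat_lit 103873, nat_lit 53325, nat_lit 347957, nat_lit 95414,
  nat_lit 89462, nat_lit 317956, nat_lit 96457, nat_lit 82697, nat_lit 38251, nat_lit 358827,
  nat_lit 105189, nat_lit 87756, nat_lit 69637, nat_lit 395166, nat_lit 125419, nat_lit 89119,
  nat_lit 74967, nat_lit 35464, nat_lit 455765, nat_lit 150117, nat_lit 107138, nat_lit 94125,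
  nat_lit 91479, nat_lit 619510, nat_lit 211801, nat_lit 164262, nat_lit 145901, nat_lit 132776,
  nat_lit 63682, nat_lit 626018, nat_lit 263087, nat_lit 147537, nat_lit 80427, nat_lit 49718,
  nat_lit 43568, nat_lit 776600, nat_lit 256634, nat_lit 92185, nat_lit 53554, nat_lit 44248,
  nat_lit 37061, nat_lit 18674, nat_lit 980653, nat_lit 214244, nat_lit 81958, nat_lit 54985,
  nat_lit 41758, nat_lit 35540, nat_lit 34995, nat_lit 1545269, nat_lit 190728, nat_lit 77081,
  nat_lit 56823, nat_lit 44045, nat_lit 36916, nat_lit 34132, nat_lit 16753, nat_lit 2032824,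
  nat_lit 180845, nat_lit 77911, nat_lit 57637, nat_lit 47866, nat_lit 39777, nat_lit 36152,
  nat_lit 33614, nat_lit 39787, nat_lit 58449, nat_lit 49100, nat_lit 45004, nat_lit 35412,
  nat_lit 36286, nat_lit 16379, nat_lit 23979, nat_lit 43698, nat_lit 40522, nat_lit 38933,
  nat_lit 36696, nat_lit 23258, nat_lit 37860, nat_lit 38259, nat_lit 17831, nat_lit 17844,
  nat_lit 32053, nat_lit 5482],
   [nat_lit 5730667, nat_lit 1446909, nat_lit 1113069, nat_lit 89997, nat_lit 837676,
  nat_lit 103346, nat_lit 682178, nat_lit 69453, nat_lit 27784, nat_lit 607666, nat_lit 51978,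
  nat_lit 37866, nat_lit 562039, nat_lit 43376, nat_lit 26931, nat_lit 14318, nat_lit 530777,
  nat_lit 36984, nat_lit 22075, nat_lit 20497, nat_lit 514256, nat_lit 33200, nat_lit 18693,
  nat_lit 15745, nat_lit 8077, nat_lit 510989, nat_lit 30237, nat_lit 16122, nat_lit 13396,
  nat_lit 12271, nat_lit 525964, nat_lit 28524, nat_lit 15184, nat_lit 12215, nat_lit 11349,
  nat_lit 5049, nat_lit 511763, nat_lit 26510, nat_lit 13560, nat_lit 10267, nat_lit 9390,
  nat_lit 8127, nat_lit 528878, nat_lit 25276, nat_lit 12679, nat_lit 9638, nat_lit 8961,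
  nat_lit 7407, nat_lit 3700, nat_lit 544324, nat_lit 24221, nat_lit 12165, nat_lit 8989,
  nat_lit 8332, nat_lit 6582, nat_lit 6437, nat_lit 585244, nat_lit 23720, nat_lit 11885,
  nat_lit 8595, nat_lit 7713, nat_lit 6418, nat_lit 5668, nat_lit 3047, nat_lit 355783,
  nat_lit 23636, nat_lit 11903, nat_lit 8320, nat_lit 7844, nat_lit 6156, nat_lit 5694,
  nat_lit 5473, nat_lit 5848, nat_lit 8123, nat_lit 7462, nat_lit 6005, nat_lit 5150,
  nat_lit 5103, nat_lit 2421, nat_lit 3610, nat_lit 5790, nat_lit 4973, nat_lit 5108,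
  nat_lit 4709, nat_lit 2434, nat_lit 4958, nat_lit 4802, nat_lit 2290, nat_lit 2260,
  nat_lit 4291, nat_lit 717])]

theorem run21 : run W21 data21 = true := by decide +kernel

end Vale.Agent.P154.AF.Eng
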