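import Vale.Agent.P154AF.Eng
import Vale.Agent.P154AF.Run21

/-! Run data, generations 70 to 77 (helper file). -/

namespace Vale.Agent.P154.AF.Eng

def W70 : List Nat :=
  [nat_lit 2675076, nat_lit 1609953, nat_lit 1288884, nat_lit 243310, nat_lit 969961,
  nat_lit 285983, nat_lit 789704, nat_lit 193135, nat_lit 80245, nat_lit 694567, nat_lit 146442,
  nat_lit 106533, nat_lit 636024, nat_lit 121575, nat_lit 75947, nat_lit 39533, nat_lit 592549,
  nat_lit 103444, nat_lit 61807, nat_lit 56622, nat_lit 566432, nat_lit 92504, nat_lit 51974,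
  nat_lit 44473, nat_lit 21796, nat_lit 551770, nat_lit 83897, nat_lit 45115, nat_lit 37830,
  nat_lit 33960, nat_lit 552448, nat_lit 79089, nat_lit 42346, nat_lit 34585, nat_lit 31425,
  nat_lit 14104, nat_lit 541945, nat_lit 73524, nat_lit 37969, nat_lit 29037, nat_lit 26155,
  nat_lit 22916, nat_lit 551879, nat_lit 70219, nat_lit 35430, nat_lit 27485, nat_lit 24732,
  nat_lit 20866, nat_lit 10392, nat_lit 560583, nat_lit 67442, nat_lit 34057, nat_lit 25684,
  nat_lit 22932, nat_lit 18769, nat_lit 18081, nat_lit 576268, nat_lit 65956, nat_lit 33142,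
  nat_lit 24453, nat_lit 21315, nat_lit 17969, nat_lit 16356, nat_lit 8438, nat_lit 303711,
  nat_lit 65498, nat_lit 32981, nat_lit 23734, nat_lit 21422, nat_lit 17213, nat_lit 16065,
  nat_lit 15325, nat_lit 16333, nat_lit 23248, nat_lit 20488, nat_lit 16839, nat_lit 14720,
  nat_lit 14296, nat_lit 6862, nat_lit 9958, nat_lit 16309, nat_lit 14225, nat_lit 14334,
  nat_lit 13256, nat_lit 7040, nat_lit 13869, nat_lit 13455, nat_lit 6427, nat_lit 6356,
  nat_lit 12200, nat_lit 2016]

def data70 : List (List Nat × List Nat) := [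
  ([nat_lit 217590, nat_lit 280584, nat_lit 278206, nat_lit 91274, nat_lit 239191, nat_lit 179543,
  nat_lit 218438, nat_lit 162425, nat_lit 90060, nat_lit 230068, nat_lit 152636, nat_lit 158854,
  nat_lit 214422, nat_lit 153358, nat_lit 148931, nat_lit 70527, nat_lit 235596, nat_lit 165615,
  nat_lit 153897, nat_lit 129256, nat_lit 258910, nat_lit 191970, nat_lit 155055, nat_lit 134028,
  nat_lit 63777, nat_lit 299106, nat_lit 227067, nat_lit 177959, nat_lit 155976, nat_lit 148991,
  nat_lit 385863, nat_lit 298786, nat_lit 244112, nat_lit 212892, nat_lit 192526, nat_lit 91926,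
  nat_lit 456538, nat_lit 386914, nat_lit 246041, nat_lit 150773, nat_lit 105727, nat_lit 94550,
  nat_lit 626731, nat_lit 418022, nat_lit 177105, nat_lit 109459, nat_lit 88962, nat_lit 76724,
  nat_lit 38057, nat_lit 880024, nat_lit 389089, nat_lit 151526, nat_lit 102840, nat_lit 80341,
  nat_lit 69218, nat_lit 67087, nat_lit 1392835, nat_lit 364855, nat_lit 142387, nat_lit 98303,
  nat_lit 79211, nat_lit 68139, nat_lit 62883, nat_lit 31085, nat_lit 1133557, nat_lit 348096,
  nat_lit 138658, nat_lit 98373, nat_lit 78982, nat_lit 68660, nat_lit 63283, nat_lit 59682,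
  nat_lit 69068, nat_lit 98009, nat_lit 78946, nat_lit 70477, nat_lit 60108, nat_lit 60342,
  nat_lit 28010, nat_lit 39625, nat_lit 68482, nat_lit 63245, nat_lit 60199, nat_lit 56207,
  nat_lit 32740, nat_lit 58860, nat_lit 59478, nat_lit 28202, nat_lit 28768, nat_lit 53207,
  nat_lit 9111],
   [nat_lit 2597402, nat_lit 1602348, nat_lit 1286941, nat_lit 248572, nat_lit 969506,
  nat_lit 292970, nat_lit 789941, nat_lit 198042, nat_lit 82420, nat_lit 694966, nat_lit 150302,
  nat_lit 109398, nat_lit 636473, nat_lit 124810, nat_lit 78042, nat_lit 40581, nat_lit 592946,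
  nat_lit 106223, nat_lit 63523, nat_lit 58143, nat_lit 566760, nat_lit 94998, nat_lit 53423,
  nat_lit 45723, nat_lit 22368, nat_lit 551944, nat_lit 86170, nat_lit 46389, nat_lit 38902,
  nat_lit 34887, nat_lit 552398, nat_lit 81227, nat_lit 43536, nat_lit 35562, nat_lit 32285,
  nat_lit 14492, nat_lit 541924, nat_lit 75523, nat_lit 39045, nat_lit 29874, nat_lit 26886,
  nat_lit 23567, nat_lit 551625, nat_lit 72136, nat_lit 36439, nat_lit 28283, nat_lit 25418,
  nat_lit 21455, nat_lit 10685, nat_lit 560064, nat_lit 69293, nat_lit 35030, nat_lit 26436,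
  nat_lit 23569, nat_lit 19308, nat_lit 18595, nat_lit 575187, nat_lit 67766, nat_lit 34086,
  nat_lit 25167, nat_lit 21916, nat_lit 18478, nat_lit 16832, nat_lit 8676, nat_lit 302554,
  nat_lit 67280, nat_lit 33913, nat_lit 24431, nat_lit 22012, nat_lit 17699, nat_lit 16521,
  nat_lit 15760, nat_lit 16798, nat_lit 23931, nat_lit 21060, nat_lit 17313, nat_lit 15149,
  nat_lit 14705, nat_lit 7060, nat_lit 10240, nat_lit 16775, nat_lit 14640, nat_lit 14743,
  nat_lit 13635, nat_lit 7247, nat_lit 14262, nat_lit 13834, nat_lit 6609, nat_lit 6539,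
  nat_lit 12556, nat_lit 2074]),
  ([nat_lit 205243, nat_lit 271443, nat_lit 271094, nat_lit 90545, nat_lit 233864, nat_lit 179357,
  nat_lit 214058, nat_lit 162797, nat_lit 90571, nat_lit 225600, nat_lit 153299, nat_lit 160301,
  nat_lit 210551, nat_lit 154152, nat_lit 150547, nat_lit 71381, nat_lit 231304, nat_lit 166576,
  nat_lit 155606, nat_lit 131035, nat_lit 254304, nat_lit 193099, nat_lit 156914, nat_lit 135872,
  nat_lit 64684, nat_lit 293949, nat_lit 228476, nat_lit 180004, nat_lit 157941, nat_lit 150878,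
  nat_lit 379234, nat_lit 300447, nat_lit 246475, nat_lit 215096, nat_lit 194619, nat_lit 92947,
  nat_lit 450496, nat_lit 389722, nat_lit 249253, nat_lit 153417, nat_lit 107969, nat_lit 96601,
  nat_lit 620631, nat_lit 422392, nat_lit 180298, nat_lit 111662, nat_lit 90751, nat_lit 78339,
  nat_lit 38841, nat_lit 873999, nat_lit 394434, nat_lit 154198, nat_lit 104715, nat_lit 81876,
  nat_lit 70590, nat_lit 68384, nat_lit 1381808, nat_lit 370487, nat_lit 144835, nat_lit 99966,
  nat_lit 80600, nat_lit 69394, nat_lit 64043, nat_lit 31663, nat_lit 1112979, nat_lit 353731,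
  nat_lit 140963, nat_lit 99961, nat_lit 80258, nat_lit 69800, nat_lit 64362, nat_lit 60728,
  nat_lit 70190, nat_lit 99554, nat_lit 80165, nat_lit 71529, nat_lit 61110, nat_lit 61308,
  nat_lit 28485, nat_lit 40234, nat_lit 69513, nat_lit 64179, nat_lit 61095, nat_lit 57061,
  nat_lit 33177, nat_lit 59732, nat_lit 60338, nat_lit 28625, nat_lit 29199, nat_lit 54058,
  nat_lit 9255],
   [nat_lit 2518949, nat_lit 1593774, nat_lit 1284463, nat_lit 253950, nat_lit 968731,
  nat_lit 300189, nat_lit 789969, nat_lit 203132, nat_lit 84685, nat_lit 695212, nat_lit 154317,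
  nat_lit 112383, nat_lit 636800, nat_lit 128178, nat_lit 80230, nat_lit 41674, nat_lit 593243,
  nat_lit 109119, nat_lit 65318, nat_lit 59729, nat_lit 567001, nat_lit 97598, nat_lit 54940,
  nat_lit 47029, nat_lit 22966, nat_lit 552041, nat_lit 88541, nat_lit 47723, nat_lit 40024,
  nat_lit 35856, nat_lit 552276, nat_lit 83459, nat_lit 44781, nat_lit 36584, nat_lit 33183,
  nat_lit 14898, nat_lit 541832, nat_lit 77610, nat_lit 40172, nat_lit 30752, nat_lit 27651,
  nat_lit 24248, nat_lit 551296, nat_lit 74138, nat_lit 37497, nat_lit 29119, nat_lit 26136,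
  nat_lit 22071, nat_lit 10992, nat_lit 559464, nat_lit 71226, nat_lit 36050, nat_lit 27224,
  nat_lit 24235, nat_lit 19873, nat_lit 19134, nat_lit 574028, nat_lit 69656, nat_lit 35076,
  nat_lit 25915, nat_lit 22545, nat_lit 19011, nat_lit 17331, nat_lit 8926, nat_lit 301370,
  nat_lit 69142, nat_lit 34890, nat_lit 25163, nat_lit 22631, nat_lit 18208, nat_lit 16998,
  nat_lit 16216, nat_lit 17285, nat_lit 24647, nat_lit 21660, nat_lit 17809, nat_lit 15600,
  nat_lit 15134, nat_lit 7268, nat_lit 10536, nat_lit 17265, nat_lit 15075, nat_lit 15171,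
  nat_lit 14032, nat_lit 7464, nat_lit 14674, nat_lit 14230, nat_lit 6800, nat_lit 6730,
  nat_lit 12930, nat_lit 2135]),
  ([nat_lit 193135, nat_lit 262133, nat_lit 263792, nat_lit 89716, nat_lit 228379, nat_lit 179025,
  nat_lit 209540, nat_lit 163070, nat_lit 91042, nat_lit 220997, nat_lit 153891, nat_lit 161719,
  nat_lit 206560, nat_lit 154889, nat_lit 152159, nat_lit 72240, nat_lit 226888, nat_lit 167486,
  nat_lit 157323, nat_lit 132845, nat_lit 249569, nat_lit 194180, nat_lit 158797, nat_lit 137757,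
  nat_lit 65614, nat_lit 288652, nat_lit 229844, nat_lit 182082, nat_lit 159955, nat_lit 152818,
  nat_lit 372453, nat_lit 302068, nat_lit 248881, nat_lit 217359, nat_lit 196779, nat_lit 94003,
  nat_lit 444260, nat_lit 392517, nat_lit 252552, nat_lit 156161, nat_lit 110306, nat_lit 98739,
  nat_lit 614287, nat_lit 426812, nat_lit 183610, nat_lit 113957, nat_lit 92617, nat_lit 80026,
  nat_lit 39659, nat_lit 867646, nat_lit 399894, nat_lit 156975, nat_lit 106668, nat_lit 83477,
  nat_lit 72023, nat_lit 69739, nat_lit 1370201, nat_lit 376264, nat_lit 147378, nat_lit 101700,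
  nat_lit 82049, nat_lit 70704, nat_lit 65255, nat_lit 32265, nat_lit 1092203, nat_lit 359527,
  nat_lit 143359, nat_lit 101616, nat_lit 81591, nat_lit 70991, nat_lit 65489, nat_lit 61820,
  nat_lit 71358, nat_lit 101165, nat_lit 81440, nat_lit 72628, nat_lit 62157, nat_lit 62317,
  nat_lit 28981, nat_lit 40870, nat_lit 70592, nat_lit 65156, nat_lit 62032, nat_lit 57956,
  nat_lit 33636, nat_lit 60643, nat_lit 61238, nat_lit 29068, nat_lit 29649, nat_lit 54948,
  nat_lit 9405],
   [nat_lit 2439725, nat_lit 1584166, nat_lit 1281406, nat_lit 259444, nat_lit 967610,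
  nat_lit 307648, nat_lit 789771, nat_lit 208412, nat_lit 87044, nat_lit 695292, nat_lit 158494,
  nat_lit 115496, nat_lit 636996, nat_lit 131688, nat_lit 82518, nat_lit 42813, nat_lit 593430,
  nat_lit 112141, nat_lit 67196, nat_lit 61385, nat_lit 567147, nat_lit 100313, nat_lit 56528,
  nat_lit 48396, nat_lit 23589, nat_lit 552053, nat_lit 91018, nat_lit 49121, nat_lit 41200,
  nat_lit 36868, nat_lit 552074, nat_lit 85789, nat_lit 46087, nat_lit 37655, nat_lit 34123,
  nat_lit 15322, nat_lit 541661, nat_lit 79790, nat_lit 41353, nat_lit 31673, nat_lit 28452,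
  nat_lit 24963, nat_lit 550884, nat_lit 76231, nat_lit 38607, nat_lit 29997, nat_lit 26887,
  nat_lit 22716, nat_lit 11314, nat_lit 558777, nat_lit 73248, nat_lit 37120, nat_lit 28051,
  nat_lit 24933, nat_lit 20465, nat_lit 19700, nat_lit 572785, nat_lit 71633, nat_lit 36115,
  nat_lit 26702, nat_lit 23205, nat_lit 19570, nat_lit 17854, nat_lit 9188, nat_lit 300156,
  nat_lit 71087, nat_lit 35914, nat_lit 25932, nat_lit 23278, nat_lit 18741, nat_lit 17499,
  nat_lit 16695, nat_lit 17797, nat_lit 25400, nat_lit 22288, nat_lit 18329, nat_lit 16072,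
  nat_lit 15585, nat_lit 7487, nat_lit 10847, nat_lit 17778, nat_lit 15533, nat_lit 15621,
  nat_lit 14448, nat_lit 7692, nat_lit 15107, nat_lit 14645, nat_lit 7001, nat_lit 6931,
  nat_lit 13322, nat_lit 2199]),
  ([nat_lit 181274, nat_lit 252660, nat_lit 256298, nat_lit 88781, nat_lit 222732, nat_lit 178535,
  nat_lit 204880, nat_lit 163234, nat_lit 91469, nat_lit 216254, nat_lit 154405, nat_lit 163103,
  nat_lit 202443, nat_lit 155562, nat_lit 153764, nat_lit 73103, nat_lit 222343, nat_lit 168340,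
  nat_lit 159045, nat_lit 134687, nat_lit 244700, nat_lit 195207, nat_lit 160702, nat_lit 139684,
  nat_lit 66567, nat_lit 283212, nat_lit 231163, nat_lit 184192, nat_lit 162019, nat_lit 154811,
  nat_lit 365515, nat_lit 303642, nat_lit 251332, nat_lit 219686, nat_lit 199010, nat_lit 95096,
  nat_lit 437819, nat_lit 395293, nat_lit 255942, nat_lit 159010, nat_lit 112742, nat_lit 100970,
  nat_lit 607681, nat_lit 431281, nat_lit 187048, nat_lit 116350, nat_lit 94564, nat_lit 81789,
  nat_lit 40514, nat_lit 860949, nat_lit 405471, nat_lit 159865, nat_lit 108705, nat_lit 85150,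
  nat_lit 73521, nat_lit 71155, nat_lit 1357985, nat_lit 382190, nat_lit 150023, nat_lit 103512,
  nat_lit 83562, nat_lit 72074, nat_lit 66522, nat_lit 32895, nat_lit 1071221, nat_lit 365490,
  nat_lit 145853, nat_lit 103343, nat_lit 82985, nat_lit 72234, nat_lit 66666, nat_lit 62961,
  nat_lit 72573, nat_lit 102846, nat_lit 82773, nat_lit 73780, nat_lit 63253, nat_lit 63373,
  nat_lit 29501, nat_lit 41533, nat_lit 71722, nat_lit 66180, nat_lit 63015, nat_lit 58895,
  nat_lit 34118, nat_lit 61599, nat_lit 62179, nat_lit 29531, nat_lit 30120, nat_lit 55878,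
  nat_lit 9562],
   [nat_lit 2359736, nat_lit 1573457, nat_lit 1277726, nat_lit 265052, nat_lit 966114,
  nat_lit 315357, nat_lit 789327, nat_lit 213893, nat_lit 89502, nat_lit 695192, nat_lit 162842,
  nat_lit 118745, nat_lit 637047, nat_lit 135347, nat_lit 84911, nat_lit 44001, nat_lit 593498,
  nat_lit 115294, nat_lit 69163, nat_lit 63115, nat_lit 567190, nat_lit 103148, nat_lit 58193,
  nat_lit 49829, nat_lit 24241, nat_lit 551973, nat_lit 93606, nat_lit 50588, nat_lit 42434,
  nat_lit 37928, nat_lit 551784, nat_lit 88225, nat_lit 47456, nat_lit 38777, nat_lit 35106,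
  nat_lit 15767, nat_lit 541404, nat_lit 82070, nat_lit 42593, nat_lit 32641, nat_lit 29293,
  nat_lit 25713, nat_lit 550383, nat_lit 78419, nat_lit 39773, nat_lit 30919, nat_lit 27675,
  nat_lit 23393, nat_lit 11652, nat_lit 557996, nat_lit 75363, nat_lit 38244, nat_lit 28921,
  nat_lit 25665, nat_lit 21087, nat_lit 20294, nat_lit 571452, nat_lit 73702, nat_lit 37206,
  nat_lit 27528, nat_lit 23898, nat_lit 20157, nat_lit 18404, nat_lit 9463, nat_lit 298909,
  nat_lit 73122, nat_lit 36990, nat_lit 26740, nat_lit 23958, nat_lit 19301, nat_lit 18024,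
  nat_lit 17197, nat_lit 18334, nat_lit 26191, nat_lit 22947, nat_lit 18875, nat_lit 16569,
  nat_lit 16058, nat_lit 7716, nat_lit 11173, nat_lit 18317, nat_lit 16013, nat_lit 16093,
  nat_lit 14886, nat_lit 7932, nat_lit 15561, nat_lit 15081, nat_lit 7212, nat_lit 7143,
  nat_lit 13736, nat_lit 2266]),
  ([nat_lit 169682, nat_lit 243030, nat_lit 248612, nat_lit 87735, nat_lit 216922, nat_lit 177874,
  nat_lit 200074, nat_lit 163279, nat_lit 91846, nat_lit 211368, nat_lit 154832, nat_lit 164445,
  nat_lit 198197, nat_lit 156162, nat_lit 155358, nat_lit 73969, nat_lit 217666, nat_lit 169131,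
  nat_lit 160769, nat_lit 136559, nat_lit 239691, nat_lit 196174, nat_lit 162629, nat_lit 141654,
  nat_lit 67543, nat_lit 277622, nat_lit 232426, nat_lit 186336, nat_lit 164135, nat_lit 156860,
  nat_lit 358412, nat_lit 305163, nat_lit 253826, nat_lit 222077, nat_lit 201315, nat_lit 96227,
  nat_lit 431163, nat_lit 398042, nat_lit 259424, nat_lit 161970, nat_lit 115286, nat_lit 103300,
  nat_lit 600800, nat_lit 435795, nat_lit 190619, nat_lit 118847, nat_lit 96599, nat_lit 83634,
  nat_lit 41408, nat_lit 853884, nat_lit 411166, nat_lit 162875, nat_lit 110831, nat_lit 86897,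
  nat_lit 75089, nat_lit 72637, nat_lit 1345130, nat_lit 388271, nat_lit 152776, nat_lit 105405,
  nat_lit 85144, nat_lit 73507, nat_lit 67848, nat_lit 33555, nat_lit 1050023, nat_lit 371627,
  nat_lit 148450, nat_lit 105146, nat_lit 84445, nat_lit 73535, nat_lit 67898, nat_lit 64157,
  nat_lit 73840, nat_lit 104602, nat_lit 84169, nat_lit 74986, nat_lit 64401, nat_lit 64479,
  nat_lit 30045, nat_lit 42228, nat_lit 72906, nat_lit 67253, nat_lit 64045, nat_lit 59881,
  nat_lit 34624, nat_lit 62600, nat_lit 63165, nat_lit 30016, nat_lit 30613, nat_lit 56853,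
  nat_lit 9727],
   [nat_lit 2279020, nat_lit 1561572, nat_lit 1273374, nat_lit 270769, nat_lit 964211,
  nat_lit 323322, nat_lit 788613, nat_lit 219584, nat_lit 92064, nat_lit 694893, nat_lit 167372,
  nat_lit 122137, nat_lit 636940, nat_lit 139163, nat_lit 87417, nat_lit 45242, nat_lit 593435,
  nat_lit 118587, nat_lit 71225, nat_lit 64925, nat_lit 567118, nat_lit 106111, nat_lit 59939,
  nat_lit 51332, nat_lit 24922, nat_lit 551790, nat_lit 96313, nat_lit 52128, nat_lit 43728,
  nat_lit 39039, nat_lit 551399, nat_lit 90773, nat_lit 48894, nat_lit 39956, nat_lit 36137,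
  nat_lit 16233, nat_lit 541053, nat_lit 84456, nat_lit 43896, nat_lit 33658, nat_lit 30174,
  nat_lit 26501, nat_lit 549784, nat_lit 80711, nat_lit 40998, nat_lit 31888, nat_lit 28502,
  nat_lit 24104, nat_lit 12006, nat_lit 557112, nat_lit 77578, nat_lit 39425, nat_lit 29836,
  nat_lit 26433, nat_lit 21740, nat_lit 20918, nat_lit 570021, nat_lit 75868, nat_lit 38353,
  nat_lit 28398, nat_lit 24625, nat_lit 20773, nat_lit 18983, nat_lit 9752, nat_lit 297625,
  nat_lit 75253, nat_lit 38120, nat_lit 27592, nat_lit 24671, nat_lit 19890, nat_lit 18577,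
  nat_lit 17725, nat_lit 18899, nat_lit 27024, nat_lit 23640, nat_lit 19449, nat_lit 17093,
  nat_lit 16556, nat_lit 7958, nat_lit 11516, nat_lit 18884, nat_lit 16519, nat_lit 16589,
  nat_lit 15346, nat_lit 8184, nat_lit 16038, nat_lit 15539, nat_lit 7433, nat_lit 7365,
  nat_lit 14171, nat_lit 2337]),
  ([nat_lit 158370, nat_lit 233254, nat_lit 240737, nat_lit 86572, nat_lit 210946, nat_lit 177030,
  nat_lit 195121, nat_lit 163193, nat_lit 92167, nat_lit 206337, nat_lit 155161, nat_lit 165737,
  nat_lit 193819, nat_lit 156682, nat_lit 156934, nat_lit 74836, nat_lit 212852, nat_lit 169849,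
  nat_lit 162491, nat_lit 138461, nat_lit 234540, nat_lit 197072, nat_lit 164574, nat_lit 143666,
  nat_lit 68544, nat_lit 271877, nat_lit 233625, nat_lit 188509, nat_lit 166303, nat_lit 158967,
  nat_lit 351137, nat_lit 306621, nat_lit 256364, nat_lit 224536, nat_lit 203697, nat_lit 97399,
  nat_lit 424283, nat_lit 400755, nat_lit 263003, nat_lit 165047, nat_lit 117942, nat_lit 105736,
  nat_lit 593632, nat_lit 440348, nat_lit 194329, nat_lit 121454, nat_lit 98727, nat_lit 85566,
  nat_lit 42344, nat_lit 846431, nat_lit 416980, nat_lit 166011, nat_lit 113052, nat_lit 88726,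
  nat_lit 76731, nat_lit 74189, nat_lit 1331606, nat_lit 394510, nat_lit 155644, nat_lit 107385,
  nat_lit 86800, nat_lit 75007, nat_lit 69237, nat_lit 34245, nat_lit 1028608, nat_lit 377942,
  nat_lit 151158, nat_lit 107032, nat_lit 85975, nat_lit 74897, nat_lit 69188, nat_lit 65409,
  nat_lit 75161, nat_lit 106437, nat_lit 85632, nat_lit 76252, nat_lit 65605, nat_lit 65637,
  nat_lit 30617, nat_lit 42954, nat_lit 74150, nat_lit 68379, nat_lit 65127, nat_lit 60917,
  nat_lit 35158, nat_lit 63652, nat_lit 64199, nat_lit 30526, nat_lit 31130, nat_lit 57875,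
  nat_lit 9899],
   [nat_lit 2197617, nat_lit 1548437, nat_lit 1268297, nat_lit 276590, nat_lit 961866,
  nat_lit 331551, nat_lit 787607, nat_lit 225492, nat_lit 94736, nat_lit 694378, nat_lit 172091,
  nat_lit 125681, nat_lit 636659, nat_lit 143146, nat_lit 90043, nat_lit 46537, nat_lit 593227,
  nat_lit 122028, nat_lit 73388, nat_lit 66818, nat_lit 566921, nat_lit 109209, nat_lit 61773,
  nat_lit 52908, nat_lit 25634, nat_lit 551495, nat_lit 99146, nat_lit 53747, nat_lit 45088,
  nat_lit 40204, nat_lit 550907, nat_lit 93440, nat_lit 50405, nat_lit 41193, nat_lit 37217,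
  nat_lit 16723, nat_lit 540599, nat_lit 86954, nat_lit 45265, nat_lit 34729, nat_lit 31100,
  nat_lit 27330, nat_lit 549078, nat_lit 83111, nat_lit 42287, nat_lit 32909, nat_lit 29371,
  nat_lit 24851, nat_lit 12379, nat_lit 556118, nat_lit 79899, nat_lit 40668, nat_lit 30800,
  nat_lit 27240, nat_lit 22427, nat_lit 21575, nat_lit 568485, nat_lit 78138, nat_lit 39560,
  nat_lit 29314, nat_lit 25391, nat_lit 21421, nat_lit 19592, nat_lit 10056, nat_lit 296300,
  nat_lit 77485, nat_lit 39310, nat_lit 28489, nat_lit 25421, nat_lit 20509, nat_lit 19157,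
  nat_lit 18281, nat_lit 19493, nat_lit 27901, nat_lit 24368, nat_lit 20051, nat_lit 17644,
  nat_lit 17081, nat_lit 8212, nat_lit 11876, nat_lit 19481, nat_lit 17052, nat_lit 17112,
  nat_lit 15830, nat_lit 8450, nat_lit 16540, nat_lit 16021, nat_lit 7666, nat_lit 7599,
  nat_lit 14629, nat_lit 2412]),
  ([nat_lit 147357, nat_lit 223344, nat_lit 232674, nat_lit 85287, nat_lit 204805, nat_lit 175988,
  nat_lit 190018, nat_lit 162964, nat_lit 92425, nat_lit 201156, nat_lit 155384, nat_lit 166971,
  nat_lit 189306, nat_lit 157111, nat_lit 158488, nat_lit 75701, nat_lit 207899, nat_lit 170487,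
  nat_lit 164208, nat_lit 140391, nat_lit 229242, nat_lit 197890, nat_lit 166535, nat_lit 145721,
  nat_lit 69568, nat_lit 265975, nat_lit 234750, nat_lit 190712, nat_lit 168524, nat_lit 161132,
  nat_lit 343688, nat_lit 308005, nat_lit 258942, nat_lit 227063, nat_lit 206159, nat_lit 98613,
  nat_lit 417170, nat_lit 403423, nat_lit 266680, nat_lit 168247, nat_lit 120718, nat_lit 108283,
  nat_lit 586158, nat_lit 444934, nat_lit 198186, nat_lit 124179, nat_lit 100955, nat_lit 87590,
  nat_lit 43325, nat_lit 838568, nat_lit 422912, nat_lit 169281, nat_lit 115375, nat_lit 90641,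
  nat_lit 78454, nat_lit 75816, nat_lit 1317384, nat_lit 400908, nat_lit 158632, nat_lit 109458,
  nat_lit 88534, nat_lit 76581, nat_lit 70694, nat_lit 34970, nat_lit 1006973, nat_lit 384440,
  nat_lit 153981, nat_lit 109004, nat_lit 87579, nat_lit 76325, nat_lit 70540, nat_lit 66722,
  nat_lit 76539, nat_lit 108357, nat_lit 87167, nat_lit 77580, nat_lit 66870, nat_lit 66853,
  nat_lit 31217, nat_lit 43716, nat_lit 75457, nat_lit 69563, nat_lit 66265, nat_lit 62008,
  nat_lit 35720, nat_lit 64758, nat_lit 65284, nat_lit 31060, nat_lit 31672, nat_lit 58948,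
  nat_lit 10079],
   [nat_lit 2115572, nat_lit 1533972, nat_lit 1262438, nat_lit 282506, nat_lit 959044,
  nat_lit 340047, nat_lit 786282, nat_lit 231627, nat_lit 97523, nat_lit 693627, nat_lit 177008,
  nat_lit 129384, nat_lit 636188, nat_lit 147304, nat_lit 92795, nat_lit 47892, nat_lit 592862,
  nat_lit 125625, nat_lit 75659, nat_lit 68799, nat_lit 566587, nat_lit 112450, nat_lit 63700,
  nat_lit 54563, nat_lit 26381, nat_lit 551078, nat_lit 102112, nat_lit 55450, nat_lit 46518,
  nat_lit 41426, nat_lit 550301, nat_lit 96232, nat_lit 51994, nat_lit 42494, nat_lit 38351,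
  nat_lit 17237, nat_lit 540033, nat_lit 89572, nat_lit 46707, nat_lit 35857, nat_lit 32073,
  nat_lit 28202, nat_lit 548256, nat_lit 85627, nat_lit 43645, nat_lit 33983, nat_lit 30283,
  nat_lit 25637, nat_lit 12772, nat_lit 555003, nat_lit 82332, nat_lit 41976, nat_lit 31816,
  nat_lit 28089, nat_lit 23151, nat_lit 22267, nat_lit 566836, nat_lit 80518, nat_lit 40831,
  nat_lit 30280, nat_lit 26196, nat_lit 22103, nat_lit 20233, nat_lit 10376, nat_lit 294930,
  nat_lit 79825, nat_lit 40562, nat_lit 29435, nat_lit 26209, nat_lit 21161, nat_lit 19769,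
  nat_lit 18867, nat_lit 20119, nat_lit 28826, nat_lit 25134, nat_lit 20686, nat_lit 18225,
  nat_lit 17634, nat_lit 8480, nat_lit 12257, nat_lit 20109, nat_lit 17614, nat_lit 17662,
  nat_lit 16341, nat_lit 8730, nat_lit 17069, nat_lit 16528, nat_lit 7912, nat_lit 7846,
  nat_lit 15113, nat_lit 2491])]

theorem run70 : run W70 data70 = true := by decide +kernel

end Vale.Agent.P154.AF.Eng
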