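import Vale.Agent.P154AF.Eng
import Vale.Agent.P154AF.Run70

/-! Run data, generations 119 to 126 (helper file). -/

namespace Vale.Agent.P154.AF.Eng

def W119 : List Nat :=
  [nat_lit 7889, nat_lit 38520, nat_lit 92935, nat_lit 87032, nat_lit 120682, nat_lit 287563,
  nat_lit 147555, nat_lit 325252, nat_lit 182039, nat_lit 167692, nat_lit 339045, nat_lit 340347,
  nat_lit 183482, nat_lit 338046, nat_lit 318901, nat_lit 150651, nat_lit 195979, nat_lit 330852,
  nat_lit 294928, nat_lit 261791, nat_lit 204487, nat_lit 325515, nat_lit 274094, nat_lit 241092,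
  nat_lit 115844, nat_lit 213625, nat_lit 318175, nat_lit 255805, nat_lit 223119, nat_lit 206420,
  nat_lit 223569, nat_lit 314230, nat_lit 247726, nat_lit 213105, nat_lit 193018, nat_lit 96836,
  nat_lit 228316, nat_lit 306447, nat_lit 233521, nat_lit 198794, nat_lit 175923, nat_lit 170434,
  nat_lit 233910, nat_lit 302709, nat_lit 226512, nat_lit 190670, nat_lit 169062, nat_lit 157664,
  nat_lit 79989, nat_lit 237503, nat_lit 298610, nat_lit 220206, nat_lit 185500, nat_lit 161308,
  nat_lit 149754, nat_lit 146176, nat_lit 241123, nat_lit 294933, nat_lit 216933, nat_lit 180299,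
  nat_lit 156127, nat_lit 143688, nat_lit 138148, nat_lit 68636, nat_lit 121029, nat_lit 293602,
  nat_lit 217037, nat_lit 177897, nat_lit 155079, nat_lit 140141, nat_lit 133730, nat_lit 129933,
  nat_lit 107657, nat_lit 174812, nat_lit 150323, nat_lit 136836, nat_lit 130305, nat_lit 125904,
  nat_lit 61509, nat_lit 75996, nat_lit 135232, nat_lit 126534, nat_lit 122428, nat_lit 118539,
  nat_lit 64569, nat_lit 120239, nat_lit 117587, nat_lit 58177, nat_lit 58043, nat_lit 114346,
  nat_lit 18996]

def data119 : List (List Nat × List Nat) := [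
  ([nat_lit 45, nat_lit 28, nat_lit 144, nat_lit 95, nat_lit 361, nat_lit 948, nat_lit 675,
  nat_lit 2620, nat_lit 2304, nat_lit 1118, nat_lit 5478, nat_lit 12869, nat_lit 1527,
  nat_lit 8935, nat_lit 24884, nat_lit 16690, nat_lit 2008, nat_lit 14125, nat_lit 41165,
  nat_lit 61229, nat_lit 2740, nat_lit 22777, nat_lit 62655, nat_lit 95400, nat_lit 53763,
  nat_lit 4335, nat_lit 37539, nat_lit 97314, nat_lit 143084, nat_lit 164987, nat_lit 7512,
  nat_lit 66940, nat_lit 162732, nat_lit 228390, nat_lit 261638, nat_lit 135883, nat_lit 15384,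
  nat_lit 134168, nat_lit 268639, nat_lit 321182, nat_lit 331315, nat_lit 330968, nat_lit 39805,
  nat_lit 245657, nat_lit 356601, nat_lit 357340, nat_lit 343428, nat_lit 335361, nat_lit 166601,
  nat_lit 90926, nat_lit 356939, nat_lit 393481, nat_lit 362341, nat_lit 337591, nat_lit 325823,
  nat_lit 318134, nat_lit 149796, nat_lit 434156, nat_lit 405454, nat_lit 360632, nat_lit 334060,
  nat_lit 318416, nat_lit 308179, nat_lit 153349, nat_lit 88737, nat_lit 470732, nat_lit 411056,
  nat_lit 360221, nat_lit 331265, nat_lit 311505, nat_lit 301258, nat_lit 296922, nat_lit 206218,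
  nat_lit 359426, nat_lit 327944, nat_lit 308772, nat_lit 296267, nat_lit 289782, nat_lit 143800,
  nat_lit 163594, nat_lit 306685, nat_lit 293054, nat_lit 285251, nat_lit 280425, nat_lit 147332,
  nat_lit 282355, nat_lit 278582, nat_lit 138027, nat_lit 138463, nat_lit 273496, nat_lit 45384],
   [nat_lit 5974, nat_lit 30254, nat_lit 77306, nat_lit 74567, nat_lit 104050, nat_lit 261384,
  nat_lit 130700, nat_lit 305850, nat_lit 173667, nat_lit 151156, nat_lit 325348, nat_lit 333783,
  nat_lit 167547, nat_lit 328712, nat_lit 317731, nat_lit 150831, nat_lit 180826, nat_lit 324862,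
  nat_lit 296553, nat_lit 265179, nat_lit 189947, nat_lit 321855, nat_lit 277522, nat_lit 245660,
  nat_lit 118708, nat_lit 199619, nat_lit 316279, nat_lit 260161, nat_lit 228520, nat_lit 212683,
  nat_lit 209824, nat_lit 313599, nat_lit 252731, nat_lit 219079, nat_lit 199500, nat_lit 100366,
  nat_lit 215016, nat_lit 306778, nat_lit 238970, nat_lit 205075, nat_lit 182460, nat_lit 177165,
  nat_lit 220760, nat_lit 303714, nat_lit 232261, nat_lit 197000, nat_lit 175741, nat_lit 164435,
  nat_lit 83421, nat_lit 224497, nat_lit 300092, nat_lit 226054, nat_lit 191951, nat_lit 167963,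
  nat_lit 156508, nat_lit 152849, nat_lit 228124, nat_lit 296678, nat_lit 222904, nat_lit 186797,
  nat_lit 162773, nat_lit 150423, nat_lit 144724, nat_lit 71948, nat_lit 114511, nat_lit 295514,
  nat_lit 223198, nat_lit 184384, nat_lit 161769, nat_lit 146804, nat_lit 140169, nat_lit 136395,
  nat_lit 110692, nat_lit 181299, nat_lit 156966, nat_lit 143500, nat_lit 136741, nat_lit 132372,
  nat_lit 64703, nat_lit 79343, nat_lit 141797, nat_lit 132874, nat_lit 128743, nat_lit 124806,
  nat_lit 67862, nat_lit 126492, nat_lit 123871, nat_lit 61289, nat_lit 61194, nat_lit 120474,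
  nat_lit 20040]),
  ([nat_lit 43, nat_lit 17, nat_lit 94, nat_lit 61, nat_lit 250, nat_lit 656, nat_lit 486,
  nat_lit 1932, nat_lit 1716, nat_lit 829, nat_lit 4245, nat_lit 10250, nat_lit 1156,
  nat_lit 7151, nat_lit 20765, nat_lit 14157, nat_lit 1539, nat_lit 11591, nat_lit 35546,
  nat_lit 54285, nat_lit 2125, nat_lit 19130, nat_lit 55571, nat_lit 87245, nat_lit 49645,
  nat_lit 3425, nat_lit 32228, nat_lit 88361, nat_lit 133918, nat_lit 156384, nat_lit 6039,
  nat_lit 58791, nat_lit 150775, nat_lit 217817, nat_lit 253008, nat_lit 131974, nat_lit 12685,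
  nat_lit 120872, nat_lit 254920, nat_lit 313802, nat_lit 328690, nat_lit 330463, nat_lit 33913,
  nat_lit 227275, nat_lit 346737, nat_lit 356615, nat_lit 346892, nat_lit 340775, nat_lit 169610,
  nat_lit 79619, nat_lit 336885, nat_lit 389405, nat_lit 365979, nat_lit 344441, nat_lit 334329,
  nat_lit 327219, nat_lit 132706, nat_lit 414993, nat_lit 405220, nat_lit 366740, nat_lit 342735,
  nat_lit 328375, nat_lit 318768, nat_lit 158735, nat_lit 78813, nat_lit 452517, nat_lit 412814,
  nat_lit 367563, nat_lit 340960, nat_lit 322354, nat_lit 312616, nat_lit 308610, nat_lit 207394,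
  nat_lit 367387, nat_lit 338115, nat_lit 320033, nat_lit 308201, nat_lit 301912, nat_lit 149957,
  nat_lit 168748, nat_lit 318185, nat_lit 305155, nat_lit 297592, nat_lit 293049, nat_lit 153449,
  nat_lit 294870, nat_lit 291173, nat_lit 144401, nat_lit 144835, nat_lit 286390, nat_lit 47520],
   [nat_lit 4512, nat_lit 23570, nat_lit 63819, nat_lit 63364, nat_lit 89152, nat_lit 235990,
  nat_lit 115172, nat_lit 286034, nat_lit 164824, nat_lit 135650, nat_lit 310767, nat_lit 326052,
  nat_lit 152420, nat_lit 318360, nat_lit 315506, nat_lit 150605, nat_lit 166294, nat_lit 317849,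
  nat_lit 297342, nat_lit 267993, nat_lit 175915, nat_lit 317214, nat_lit 280289, nat_lit 249826,
  nat_lit 121400, nat_lit 186030, nat_lit 313463, nat_lit 263993, nat_lit 233659, nat_lit 218759,
  nat_lit 196436, nat_lit 312109, nat_lit 257299, nat_lit 224881, nat_lit 205921, nat_lit 103857,
  nat_lit 202025, nat_lit 306308, nat_lit 244068, nat_lit 211246, nat_lit 189003, nat_lit 183911,
  nat_lit 207900, nat_lit 303957, nat_lit 237714, nat_lit 203271, nat_lit 182482, nat_lit 171285,
  nat_lit 86900, nat_lit 211763, nat_lit 300848, nat_lit 231642, nat_lit 198372, nat_lit 174715,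
  nat_lit 163379, nat_lit 159659, nat_lit 215388, nat_lit 297727, nat_lit 228642, nat_lit 193285,
  nat_lit 169544, nat_lit 157307, nat_lit 151460, nat_lit 75355, nat_lit 108130, nat_lit 296736,
  nat_lit 229137, nat_lit 190873, nat_lit 168595, nat_lit 153627, nat_lit 146775, nat_lit 143056,
  nat_lit 113621, nat_lit 187798, nat_lit 163769, nat_lit 150342, nat_lit 143357, nat_lit 139060,
  nat_lit 68005, nat_lit 82765, nat_lit 148539, nat_lit 139403, nat_lit 135287, nat_lit 131297,
  nat_lit 71253, nat_lit 132973, nat_lit 130392, nat_lit 64517, nat_lit 64465, nat_lit 126836,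
  nat_lit 21126]),
  ([nat_lit 47, nat_lit 10, nat_lit 60, nat_lit 38, nat_lit 171, nat_lit 447, nat_lit 347,
  nat_lit 1407, nat_lit 1261, nat_lit 610, nat_lit 3254, nat_lit 8073, nat_lit 869, nat_lit 5668,
  nat_lit 17166, nat_lit 11897, nat_lit 1172, nat_lit 9430, nat_lit 30450, nat_lit 47761,
  nat_lit 1637, nat_lit 15945, nat_lit 48951, nat_lit 79291, nat_lit 45570, nat_lit 2687,
  nat_lit 27480, nat_lit 79766, nat_lit 124707, nat_lit 147546, nat_lit 4822, nat_lit 51333,
  nat_lit 139020, nat_lit 206896, nat_lit 243788, nat_lit 127735, nat_lit 10393, nat_lit 108358,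
  nat_lit 240910, nat_lit 305523, nat_lit 325064, nat_lit 328987, nat_lit 28737, nat_lit 209399,
  nat_lit 335939, nat_lit 354862, nat_lit 349539, nat_lit 345504, nat_lit 172305, nat_lit 69405,
  nat_lit 316798, nat_lit 384199, nat_lit 368816, nat_lit 350767, nat_lit 342476, nat_lit 336034,
  nat_lit 117125, nat_lit 395362, nat_lit 403941, nat_lit 372251, nat_lit 351105, nat_lit 338201,
  nat_lit 329316, nat_lit 164120, nat_lit 69760, nat_lit 433627, nat_lit 413615, nat_lit 374444,
  nat_lit 350491, nat_lit 333220, nat_lit 324092, nat_lit 320466, nat_lit 208108, nat_lit 374963,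
  nat_lit 348201, nat_lit 331397, nat_lit 320343, nat_lit 314331, nat_lit 156262, nat_lit 173868,
  nat_lit 329831, nat_lit 317528, nat_lit 310282, nat_lit 306059, nat_lit 159708, nat_lit 307765,
  nat_lit 304192, nat_lit 150997, nat_lit 151431, nat_lit 299751, nat_lit 49736],
   [nat_lit 3403, nat_lit 18225, nat_lit 52300, nat_lit 53413, nat_lit 75926, nat_lit 211647,
  nat_lit 100981, nat_lit 266049, nat_lit 155623, nat_lit 121213, nat_lit 295481, nat_lit 317226,
  nat_lit 138154, nat_lit 307108, nat_lit 312239, nat_lit 149962, nat_lit 152442, nat_lit 309885,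
  nat_lit 297280, nat_lit 270196, nat_lit 162455, nat_lit 311638, nat_lit 282367, nat_lit 253554,
  nat_lit 123893, nat_lit 172921, nat_lit 309753, nat_lit 267267, nat_lit 238502, nat_lit 224604,
  nat_lit 183465, nat_lit 309774, nat_lit 261396, nat_lit 230478, nat_lit 212245, nat_lit 107290,
  nat_lit 189401, nat_lit 305041, nat_lit 248780, nat_lit 217275, nat_lit 195524, nat_lit 190642,
  nat_lit 195387, nat_lit 303437, nat_lit 242837, nat_lit 209458, nat_lit 189258, nat_lit 178190,
  nat_lit 90415, nat_lit 199356, nat_lit 300873, nat_lit 236936, nat_lit 204740, nat_lit 181541,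
  nat_lit 170344, nat_lit 166588, nat_lit 202969, nat_lit 298073, nat_lit 234115, nat_lit 199740,
  nat_lit 176422, nat_lit 164319, nat_lit 158342, nat_lit 78851, nat_lit 101911, nat_lit 297262,
  nat_lit 234820, nat_lit 197344, nat_lit 175537, nat_lit 160591, nat_lit 153538, nat_lit 149906,
  nat_lit 116427, nat_lit 194286, nat_lit 170712, nat_lit 157345, nat_lit 150143, nat_lit 145960,
  nat_lit 71409, nat_lit 86253, nat_lit 155443, nat_lit 146113, nat_lit 142054, nat_lit 138008,
  nat_lit 74736, nat_lit 139673, nat_lit 137143, nat_lit 67857, nat_lit 67854, nat_lit 133429,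
  nat_lit 22253]),
  ([nat_lit 47, nat_lit 6, nat_lit 38, nat_lit 24, nat_lit 116, nat_lit 301, nat_lit 245,
  nat_lit 1012, nat_lit 914, nat_lit 445, nat_lit 2468, nat_lit 6290, nat_lit 648, nat_lit 4451,
  nat_lit 14059, nat_lit 9907, nat_lit 887, nat_lit 7607, nat_lit 25881, nat_lit 41705,
  nat_lit 1252, nat_lit 13192, nat_lit 42830, nat_lit 71619, nat_lit 41581, nat_lit 2095,
  nat_lit 23278, nat_lit 71594, nat_lit 115548, nat_lit 138566, nat_lit 3826, nat_lit 44567,
  nat_lit 127570, nat_lit 195735, nat_lit 234062, nat_lit 123204, nat_lit 8465, nat_lit 96676,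
  nat_lit 226750, nat_lit 296427, nat_lit 320466, nat_lit 326545, nat_lit 24223, nat_lit 192153,
  nat_lit 324321, nat_lit 352087, nat_lit 351333, nat_lit 349502, nat_lit 174660, nat_lit 60240,
  nat_lit 296849, nat_lit 377903, nat_lit 370819, nat_lit 356518, nat_lit 350207, nat_lit 344522,
  nat_lit 102999, nat_lit 375433, nat_lit 401616, nat_lit 377119, nat_lit 359117, nat_lit 347846,
  nat_lit 339777, nat_lit 169480, nat_lit 61543, nat_lit 414230, nat_lit 413437, nat_lit 380816,
  nat_lit 359810, nat_lit 344061, nat_lit 335648, nat_lit 332455, nat_lit 208346, nat_lit 382101,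
  nat_lit 358156, nat_lit 342826, nat_lit 332663, nat_lit 327009, nat_lit 162704, nat_lit 178933,
  nat_lit 341587, nat_lit 330144, nat_lit 323299, nat_lit 319436, nat_lit 166094, nat_lit 321019,
  nat_lit 317624, nat_lit 157807, nat_lit 158243, nat_lit 313570, nat_lit 52032],
   [nat_lit 2560, nat_lit 13996, nat_lit 42560, nat_lit 44679, nat_lit 64284, nat_lit 188580,
  nat_lit 88108, nat_lit 246138, nat_lit 146183, nat_lit 107863, nat_lit 279678, nat_lit 307402,
  nat_lit 124782, nat_lit 295090, nat_lit 307961, nat_lit 148897, nat_lit 139314, nat_lit 301063,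
  nat_lit 296366, nat_lit 271757, nat_lit 149610, nat_lit 305190, nat_lit 283735, nat_lit 256816,
  nat_lit 126163, nat_lit 160338, nat_lit 305190, nat_lit 269958, nat_lit 243019, nat_lit 230179,
  nat_lit 170960, nat_lit 306620, nat_lit 264995, nat_lit 235840, nat_lit 218435, nat_lit 110648,
  nat_lit 177192, nat_lit 302993, nat_lit 253077, nat_lit 223137, nat_lit 201989, nat_lit 197333,
  nat_lit 183263, nat_lit 302164, nat_lit 247600, nat_lit 215536, nat_lit 196041, nat_lit 185123,
  nat_lit 93955, nat_lit 187318, nat_lit 300173, nat_lit 241907, nat_lit 211029, nat_lit 188415,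
  nat_lit 177382, nat_lit 173620, nat_lit 190911, nat_lit 297718, nat_lit 239295, nat_lit 206140,
  nat_lit 183383, nat_lit 171438, nat_lit 165355, nat_lit 82428, nat_lit 95874, nat_lit 297092,
  nat_lit 240216, nat_lit 203775, nat_lit 182575, nat_lit 167678, nat_lit 160444, nat_lit 156934,
  nat_lit 119097, nat_lit 200742, nat_lit 177779, nat_lit 164492, nat_lit 157086, nat_lit 153063,
  nat_lit 74912, nat_lit 89799, nat_lit 162492, nat_lit 152992, nat_lit 149035, nat_lit 144929,
  nat_lit 78306, nat_lit 146587, nat_lit 144115, nat_lit 71306, nat_lit 71356, nat_lit 140248,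
  nat_lit 23420]),
  ([nat_lit 51, nat_lit 3, nat_lit 24, nat_lit 14, nat_lit 78, nat_lit 200, nat_lit 172,
  nat_lit 720, nat_lit 655, nat_lit 322, nat_lit 1853, nat_lit 4849, nat_lit 480, nat_lit 3464,
  nat_lit 11412, nat_lit 8176, nat_lit 666, nat_lit 6088, nat_lit 21830, nat_lit 36146,
  nat_lit 952, nat_lit 10837, nat_lit 37229, nat_lit 64295, nat_lit 37720, nat_lit 1623,
  nat_lit 19594, nat_lit 63901, nat_lit 106532, nat_lit 129536, nat_lit 3017, nat_lit 38482,
  nat_lit 116517, nat_lit 184440, nat_lit 223921, nat_lit 118422, nat_lit 6853, nat_lit 85858,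
  nat_lit 212575, nat_lit 286607, nat_lit 314940, nat_lit 323157, nat_lit 20314, nat_lit 175643,
  nat_lit 312008, nat_lit 348314, nat_lit 352254, nat_lit 352732, nat_lit 176654, nat_lit 52065,
  nat_lit 277197, nat_lit 370581, nat_lit 371962, nat_lit 361649, nat_lit 357471, nat_lit 352631,
  nat_lit 90259, nat_lit 355379, nat_lit 398258, nat_lit 381301, nat_lit 366722, nat_lit 357259,
  nat_lit 350102, nat_lit 174793, nat_lit 54119, nat_lit 394497, nat_lit 412274, nat_lit 386632,
  nat_lit 368870, nat_lit 354831, nat_lit 347244, nat_lit 344540, nat_lit 208104, nat_lit 388757,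
  nat_lit 367936, nat_lit 354282, nat_lit 345126, nat_lit 339918, nat_lit 169267, nat_lit 183920,
  nat_lit 353417, nat_lit 342975, nat_lit 336618, nat_lit 333157, nat_lit 172593, nat_lit 334609,
  nat_lit 331451, nat_lit 164823, nat_lit 165263, nat_lit 327829, nat_lit 54405],
   [nat_lit 1939, nat_lit 10679, nat_lit 34400, nat_lit 37098, nat_lit 54120, nat_lit 166966,
  nat_lit 76513, nat_lit 226528, nat_lit 136622, nat_lit 95597, nat_lit 263549, nat_lit 296695,
  nat_lit 112323, nat_lit 282449, nat_lit 302717, nat_lit 147414, nat_lit 126938, nat_lit 291486,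
  nat_lit 294610, nat_lit 272654, nat_lit 137415, nat_lit 297944, nat_lit 284385, nat_lit 259586,
  nat_lit 128190, nat_lit 148316, nat_lit 299826, nat_lit 272049, nat_lit 247180, nat_lit 235446,
  nat_lit 158957, nat_lit 302687, nat_lit 268074, nat_lit 240938, nat_lit 224455, nat_lit 113913,
  nat_lit 165433, nat_lit 300193, nat_lit 256936, nat_lit 228801, nat_lit 208367, nat_lit 203955,
  nat_lit 171566, nat_lit 300160, nat_lit 251978, nat_lit 221478, nat_lit 202801, nat_lit 192058,
  nat_lit 97511, nat_lit 175684, nat_lit 298763, nat_lit 246529, nat_lit 217217, nat_lit 195314,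
  nat_lit 184469, nat_lit 180736, nat_lit 179249, nat_lit 296675, nat_lit 244155, nat_lit 212460,
  nat_lit 190405, nat_lit 178643, nat_lit 172483, nat_lit 86079, nat_lit 90038, nat_lit 296238,
  nat_lit 245300, nat_lit 210145, nat_lit 189687, nat_lit 174868, nat_lit 167480, nat_lit 164129,
  nat_lit 121617, nat_lit 207143, nat_lit 184947, nat_lit 171765, nat_lit 164174, nat_lit 160358,
  nat_lit 78506, nat_lit 93392, nat_lit 169669, nat_lit 160030, nat_lit 156220, nat_lit 152051,
  nat_lit 81956, nat_lit 153706, nat_lit 151301, nat_lit 74862, nat_lit 74966, nat_lit 147286,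
  nat_lit 24626]),
  ([nat_lit 42, nat_lit 2, nat_lit 15, nat_lit 9, nat_lit 52, nat_lit 131, nat_lit 120,
  nat_lit 506, nat_lit 464, nat_lit 233, nat_lit 1378, nat_lit 3700, nat_lit 355, nat_lit 2672,
  nat_lit 9183, nat_lit 6689, nat_lit 499, nat_lit 4834, nat_lit 18278, nat_lit 31102,
  nat_lit 721, nat_lit 8842, nat_lit 32155, nat_lit 57377, nat_lit 34019, nat_lit 1252,
  nat_lit 16392, nat_lit 56725, nat_lit 97742, nat_lit 120547, nat_lit 2367, nat_lit 33055,
  nat_lit 105938, nat_lit 173115, nat_lit 213462, nat_lit 113434, nat_lit 5521, nat_lit 75915,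
  nat_lit 198514, nat_lit 276168, nat_lit 308544, nat_lit 318856, nat_lit 16958, nat_lit 159953,
  nat_lit 299133, nat_lit 343579, nat_lit 352290, nat_lit 355164, nat_lit 178270, nat_lit 44823,
  nat_lit 257985, nat_lit 362306, nat_lit 372235, nat_lit 366121, nat_lit 364219, nat_lit 360310,
  nat_lit 78836, nat_lit 335363, nat_lit 393896, nat_lit 384766, nat_lit 373876, nat_lit 366396,
  nat_lit 360244, nat_lit 180036, nat_lit 47447, nat_lit 374594, nat_lit 410132, nat_lit 391855,
  nat_lit 377625, nat_lit 365487, nat_lit 358839, nat_lit 356680, nat_lit 207380, nat_lit 394888,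
  nat_lit 377496, nat_lit 365723, nat_lit 357695, nat_lit 353023, nat_lit 175937, nat_lit 188808,
  nat_lit 365285, nat_lit 355987, nat_lit 350214, nat_lit 347198, nat_lit 179190, nat_lit 348512,
  nat_lit 345653, nat_lit 172035, nat_lit 172481, nat_lit 342514, nat_lit 56854],
   [nat_lit 1445, nat_lit 8106, nat_lit 27629, nat_lit 30589, nat_lit 45321, nat_lit 146927,
  nat_lit 66149, nat_lit 207420, nat_lit 127054, nat_lit 84405, nat_lit 247280, nat_lit 285228,
  nat_lit 100784, nat_lit 269331, nat_lit 296569, nat_lit 145521, nat_lit 115337, nat_lit 281262,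
  nat_lit 292032, nat_lit 272874, nat_lit 125899, nat_lit 289983, nat_lit 284316, nat_lit 261842,
  nat_lit 129957, nat_lit 136889, nat_lit 293725, nat_lit 273529, nat_lit 250960, nat_lit 240371,
  nat_lit 147494, nat_lit 298019, nat_lit 270617, nat_lit 245744, nat_lit 230271, nat_lit 117071,
  nat_lit 154161, nat_lit 296676, nat_lit 260334, nat_lit 234243, nat_lit 214626, nat_lit 210484,
  nat_lit 160332, nat_lit 297453, nat_lit 255949, nat_lit 227260, nat_lit 209508, nat_lit 198969,
  nat_lit 101072, nat_lit 164493, nat_lit 296667, nat_lit 250782, nat_lit 223279, nat_lit 202208,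
  nat_lit 191580, nat_lit 187917, nat_lit 168020, nat_lit 294963, nat_lit 248674, nat_lit 218678,
  nat_lit 197464, nat_lit 185911, nat_lit 179710, nat_lit 89794, nat_lit 84420, nat_lit 294719,
  nat_lit 250046, nat_lit 216431, nat_lit 196851, nat_lit 182141, nat_lit 174633, nat_lit 171476,
  nat_lit 123977, nat_lit 213467, nat_lit 192194, nat_lit 179144, nat_lit 171394, nat_lit 167833,
  nat_lit 82186, nat_lit 97022, nat_lit 176954, nat_lit 167213, nat_lit 163598, nat_lit 159365,
  nat_lit 85680, nat_lit 161020, nat_lit 158691, nat_lit 78519, nat_lit 78679, nat_lit 154536,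
  nat_lit 25870]),
  ([nat_lit 41, nat_lit 1, nat_lit 9, nat_lit 5, nat_lit 34, nat_lit 85, nat_lit 83, nat_lit 352,
  nat_lit 324, nat_lit 166, nat_lit 1016, nat_lit 2796, nat_lit 259, nat_lit 2045, nat_lit 7328,
  nat_lit 5426, nat_lit 370, nat_lit 3811, nat_lit 15195, nat_lit 26574, nat_lit 541,
  nat_lit 7168, nat_lit 27604, nat_lit 50906, nat_lit 30510, nat_lit 957, nat_lit 13636,
  nat_lit 50092, nat_lit 89252, nat_lit 111683, nat_lit 1844, nat_lit 28253, nat_lit 95898,
  nat_lit 161866, nat_lit 202783, nat_lit 108289, nat_lit 4420, nat_lit 66846, nat_lit 184691,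
  nat_lit 265221, nat_lit 301351, nat_lit 313690, nat_lit 14086, nat_lit 145150, nat_lit 285833,
  nat_lit 337937, nat_lit 351446, nat_lit 356782, nat_lit 179495, nat_lit 38434, nat_lit 239342,
  nat_lit 353171, nat_lit 371638, nat_lit 369905, nat_lit 370413, nat_lit 367516, nat_lit 68633,
  nat_lit 315542, nat_lit 388573, nat_lit 387491, nat_lit 380538, nat_lit 375211, nat_lit 370160,
  nat_lit 185187, nat_lit 41471, nat_lit 354684, nat_lit 407032, nat_lit 396451, nat_lit 386035,
  nat_lit 375988, nat_lit 370394, nat_lit 368838, nat_lit 206182, nat_lit 400458, nat_lit 386795,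
  nat_lit 377113, nat_lit 370337, nat_lit 366294, nat_lit 182697, nat_lit 193576, nat_lit 377152,
  nat_lit 369148, nat_lit 364059, nat_lit 361531, nat_lit 185868, nat_lit 362700, nat_lit 360209,
  nat_lit 179434, nat_lit 179886, nat_lit 357605, nat_lit 59375],
   [nat_lit 1087, nat_lit 6117, nat_lit 22053, nat_lit 25056, nat_lit 37753, nat_lit 128539,
  nat_lit 56937, nat_lit 188995, nat_lit 117587, nat_lit 74244, nat_lit 231049, nat_lit 273140,
  nat_lit 90149, nat_lit 255886, nat_lit 289593, nat_lit 143234, nat_lit 104510, nat_lit 270511,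
  nat_lit 288669, nat_lit 272415, nat_lit 115067, nat_lit 281399, nat_lit 283538, nat_lit 263572,
  nat_lit 131450, nat_lit 126067, nat_lit 286959, nat_lit 274397, nat_lit 254337, nat_lit 244926,
  nat_lit 136582, nat_lit 292677, nat_lit 272616, nat_lit 250235, nat_lit 235850, nat_lit 120108,
  nat_lit 143391, nat_lit 292489, nat_lit 263261, nat_lit 239438, nat_lit 220736, nat_lit 216895,
  nat_lit 149574, nat_lit 294083, nat_lit 259496, nat_lit 232859, nat_lit 216135, nat_lit 205830,
  nat_lit 104627, nat_lit 153757, nat_lit 293918, nat_lit 254648, nat_lit 229193, nat_lit 209074,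
  nat_lit 198696, nat_lit 195145, nat_lit 157239, nat_lit 292613, nat_lit 252835, nat_lit 224772,
  nat_lit 204536, nat_lit 193222, nat_lit 187019, nat_lit 93566, nat_lit 79027, nat_lit 292565,
  nat_lit 254438, nat_lit 222614, nat_lit 204042, nat_lit 189478, nat_lit 181890, nat_lit 178963,
  nat_lit 126167, nat_lit 219694, nat_lit 199500, nat_lit 186610, nat_lit 178734, nat_lit 175475,
  nat_lit 85945, nat_lit 100678, nat_lit 184331, nat_lit 174530, nat_lit 171157, nat_lit 166859,
  nat_lit 89471, nat_lit 168519, nat_lit 166275, nat_lit 82273, nat_lit 82489, nat_lit 161991,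
  nat_lit 27150])]

theorem run119 : run W119 data119 = true := by decide +kernel

end Vale.Agent.P154.AF.Eng
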