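import Vale.Agent.P154AF.Eng

/-! Run data, generations 28 to 35 (helper file). -/

namespace Vale.Agent.P154.AF.Eng

def W28 : List Nat :=
  [nat_lit 5730667, nat_lit 1446909, nat_lit 1113069, nat_lit 89997, nat_lit 837676,
  nat_lit 103346, nat_lit 682178, nat_lit 69453, nat_lit 27784, nat_lit 607666, nat_lit 51978,
  nat_lit 37866, nat_lit 562039, nat_lit 43376, nat_lit 26931, nat_lit 14318, nat_lit 530777,
  nat_lit 36984, nat_lit 22075, nat_lit 20497, nat_lit 514256, nat_lit 33200, nat_lit 18693,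
  nat_lit 15745, nat_lit 8077, nat_lit 510989, nat_lit 30237, nat_lit 16122, nat_lit 13396,
  nat_lit 12271, nat_lit 525964, nat_lit 28524, nat_lit 15184, nat_lit 12215, nat_lit 11349,
  nat_lit 5049, nat_lit 511763, nat_lit 26510, nat_lit 13560, nat_lit 10267, nat_lit 9390,
  nat_lit 8127, nat_lit 528878, nat_lit 25276, nat_lit 12679, nat_lit 9638, nat_lit 8961,
  nat_lit 7407, nat_lit 3700, nat_lit 544324, nat_lit 24221, nat_lit 12165, nat_lit 8989,
  nat_lit 8332, nat_lit 6582, nat_lit 6437, nat_lit 585244, nat_lit 23720, nat_lit 11885,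
  nat_lit 8595, nat_lit 7713, nat_lit 6418, nat_lit 5668, nat_lit 3047, nat_lit 355783,
  nat_lit 23636, nat_lit 11903, nat_lit 8320, nat_lit 7844, nat_lit 6156, nat_lit 5694,
  nat_lit 5473, nat_lit 5848, nat_lit 8123, nat_lit 7462, nat_lit 6005, nat_lit 5150,
  nat_lit 5103, nat_lit 2421, nat_lit 3610, nat_lit 5790, nat_lit 4973, nat_lit 5108,
  nat_lit 4709, nat_lit 2434, nat_lit 4958, nat_lit 4802, nat_lit 2290, nat_lit 2260,
  nat_lit 4291, nat_lit 717]

def data28 : List (List Nat × List Nat) := [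
  ([nat_lit 987007, nat_lit 527758, nat_lit 453926, nat_lit 71773, nat_lit 369545, nat_lit 123353,
  nat_lit 325845, nat_lit 106133, nat_lit 54545, nat_lit 346026, nat_lit 97429, nat_lit 91474,
  nat_lit 316127, nat_lit 98384, nat_lit 84486, nat_lit 39085, nat_lit 356300, nat_lit 107172,
  nat_lit 89505, nat_lit 71071, nat_lit 392212, nat_lit 127576, nat_lit 90773, nat_lit 76351,
  nat_lit 36116, nat_lit 452295, nat_lit 152578, nat_lit 108914, nat_lit 95570, nat_lit 92785,
  nat_lit 612870, nat_lit 214571, nat_lit 166228, nat_lit 147415, nat_lit 134049, nat_lit 64260,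
  nat_lit 622559, nat_lit 266729, nat_lit 149804, nat_lit 81837, nat_lit 50767, nat_lit 44520,
  nat_lit 773967, nat_lit 260889, nat_lit 93889, nat_lit 54632, nat_lit 45095, nat_lit 37797,
  nat_lit 19037, nat_lit 980508, nat_lit 218452, nat_lit 83338, nat_lit 55926, nat_lit 42502,
  nat_lit 36168, nat_lit 35599, nat_lit 1547685, nat_lit 194723, nat_lit 78434, nat_lit 57608,
  nat_lit 44736, nat_lit 37510, nat_lit 34677, nat_lit 17026, nat_lit 2003492, nat_lit 184536,
  nat_lit 79148, nat_lit 58451, nat_lit 48438, nat_lit 40349, nat_lit 36679, nat_lit 34116,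
  nat_lit 40374, nat_lit 59234, nat_lit 49655, nat_lit 45471, nat_lit 35884, nat_lit 36752,
  nat_lit 16600, nat_lit 24300, nat_lit 44152, nat_lit 40952, nat_lit 39308, nat_lit 37008,
  nat_lit 23386, nat_lit 38246, nat_lit 38662, nat_lit 18026, nat_lit 18063, nat_lit 32460,
  nat_lit 5553],
   [nat_lit 5640536, nat_lit 1460814, nat_lit 1123012, nat_lit 93142, nat_lit 844341,
  nat_lit 106825, nat_lit 687103, nat_lit 71754, nat_lit 28720, nat_lit 611465, nat_lit 53692,
  nat_lit 39095, nat_lit 565169, nat_lit 44783, nat_lit 27791, nat_lit 14771, nat_lit 533362,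
  nat_lit 38170, nat_lit 22766, nat_lit 21140, nat_lit 516428, nat_lit 34254, nat_lit 19268,
  nat_lit 16239, nat_lit 8325, nat_lit 512726, nat_lit 31186, nat_lit 16619, nat_lit 13813,
  nat_lit 12653, nat_lit 527070, nat_lit 29421, nat_lit 15652, nat_lit 12600, nat_lit 11700,
  nat_lit 5209, nat_lit 513147, nat_lit 27339, nat_lit 13977, nat_lit 10583, nat_lit 9679,
  nat_lit 8379, nat_lit 530104, nat_lit 26066, nat_lit 13065, nat_lit 9937, nat_lit 9234,
  nat_lit 7638, nat_lit 3815, nat_lit 545509, nat_lit 24979, nat_lit 12536, nat_lit 9267,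
  nat_lit 8584, nat_lit 6789, nat_lit 6635, nat_lit 585739, nat_lit 24460, nat_lit 12246,
  nat_lit 8859, nat_lit 7945, nat_lit 6615, nat_lit 5847, nat_lit 3138, nat_lit 353650,
  nat_lit 24375, nat_lit 12263, nat_lit 8575, nat_lit 8080, nat_lit 6345, nat_lit 5871,
  nat_lit 5640, nat_lit 6026, nat_lit 8374, nat_lit 7685, nat_lit 6191, nat_lit 5310,
  nat_lit 5258, nat_lit 2496, nat_lit 3717, nat_lit 5968, nat_lit 5127, nat_lit 5264,
  nat_lit 4854, nat_lit 2511, nat_lit 5110, nat_lit 4951, nat_lit 2361, nat_lit 2329,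
  nat_lit 4422, nat_lit 738]),
  ([nat_lit 956411, nat_lit 524640, nat_lit 451859, nat_lit 73176, nat_lit 367870, nat_lit 125912,
  nat_lit 324335, nat_lit 108313, nat_lit 55728, nat_lit 344076, nat_lit 99377, nat_lit 93433,
  nat_lit 314296, nat_lit 100248, nat_lit 86231, nat_lit 39901, nat_lit 353803, nat_lit 109091,
  nat_lit 91212, nat_lit 72476, nat_lit 389305, nat_lit 129664, nat_lit 92391, nat_lit 77708,
  nat_lit 36755, nat_lit 448880, nat_lit 154960, nat_lit 110648, nat_lit 96987, nat_lit 94067,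
  nat_lit 606465, nat_lit 217249, nat_lit 168151, nat_lit 148902, nat_lit 135303, nat_lit 64831,
  nat_lit 619141, nat_lit 270261, nat_lit 152026, nat_lit 83229, nat_lit 51806, nat_lit 45463,
  nat_lit 771349, nat_lit 265036, nat_lit 95569, nat_lit 55698, nat_lit 45932, nat_lit 38526,
  nat_lit 19397, nat_lit 980244, nat_lit 222571, nat_lit 84699, nat_lit 56853, nat_lit 43236,
  nat_lit 36789, nat_lit 36197, nat_lit 1549658, nat_lit 198642, nat_lit 79765, nat_lit 58383,
  nat_lit 45418, nat_lit 38097, nat_lit 35216, nat_lit 17296, nat_lit 1975300, nat_lit 188162,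
  nat_lit 80365, nat_lit 59253, nat_lit 49004, nat_lit 40913, nat_lit 37200, nat_lit 34611,
  nat_lit 40953, nat_lit 60008, nat_lit 50203, nat_lit 45933, nat_lit 36349, nat_lit 37210,
  nat_lit 16818, nat_lit 24616, nat_lit 44602, nat_lit 41376, nat_lit 39680, nat_lit 37320,
  nat_lit 23517, nat_lit 38628, nat_lit 39060, nat_lit 18219, nat_lit 18279, nat_lit 32863,
  nat_lit 5623],
   [nat_lit 5553125, nat_lit 1473901, nat_lit 1132452, nat_lit 96262, nat_lit 850690,
  nat_lit 110282, nat_lit 691811, nat_lit 74041, nat_lit 29652, nat_lit 615102, nat_lit 55398,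
  nat_lit 40318, nat_lit 568172, nat_lit 46184, nat_lit 28648, nat_lit 15222, nat_lit 535843,
  nat_lit 39351, nat_lit 23454, nat_lit 21780, nat_lit 518515, nat_lit 35304, nat_lit 19841,
  nat_lit 16732, nat_lit 8571, nat_lit 514393, nat_lit 32131, nat_lit 17113, nat_lit 14229,
  nat_lit 13033, nat_lit 528143, nat_lit 30313, nat_lit 16117, nat_lit 12983, nat_lit 12051,
  nat_lit 5367, nat_lit 514472, nat_lit 28166, nat_lit 14393, nat_lit 10899, nat_lit 9967,
  nat_lit 8631, nat_lit 531274, nat_lit 26854, nat_lit 13450, nat_lit 10236, nat_lit 9506,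
  nat_lit 7868, nat_lit 3930, nat_lit 546626, nat_lit 25733, nat_lit 12906, nat_lit 9545,
  nat_lit 8835, nat_lit 6995, nat_lit 6833, nat_lit 586173, nat_lit 25197, nat_lit 12605,
  nat_lit 9123, nat_lit 8176, nat_lit 6811, nat_lit 6026, nat_lit 3230, nat_lit 351639,
  nat_lit 25110, nat_lit 12622, nat_lit 8830, nat_lit 8315, nat_lit 6535, nat_lit 6047,
  nat_lit 5807, nat_lit 6203, nat_lit 8624, nat_lit 7908, nat_lit 6377, nat_lit 5470,
  nat_lit 5413, nat_lit 2570, nat_lit 3825, nat_lit 6145, nat_lit 5282, nat_lit 5420,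
  nat_lit 4999, nat_lit 2587, nat_lit 5261, nat_lit 5100, nat_lit 2431, nat_lit 2398,
  nat_lit 4554, nat_lit 760]),
  ([nat_lit 927195, nat_lit 521328, nat_lit 449664, nat_lit 74512, nat_lit 366119, nat_lit 128374,
  nat_lit 322779, nat_lit 110421, nat_lit 56877, nat_lit 342108, nat_lit 101265, nat_lit 95344,
  nat_lit 312463, nat_lit 102056, nat_lit 87937, nat_lit 40699, nat_lit 351332, nat_lit 110954,
  nat_lit 92880, nat_lit 73855, nat_lit 386439, nat_lit 131690, nat_lit 93976, nat_lit 79041,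
  nat_lit 37383, nat_lit 445513, nat_lit 157269, nat_lit 112346, nat_lit 98377, nat_lit 95327,
  nat_lit 600267, nat_lit 219843, nat_lit 170035, nat_lit 150365, nat_lit 136540, nat_lit 65395,
  nat_lit 615756, nat_lit 273693, nat_lit 154208, nat_lit 84604, nat_lit 52835, nat_lit 46398,
  nat_lit 768744, nat_lit 269087, nat_lit 97229, nat_lit 56752, nat_lit 46762, nat_lit 39248,
  nat_lit 19753, nat_lit 979872, nat_lit 226610, nat_lit 86044, nat_lit 57770, nat_lit 43963,
  nat_lit 37405, nat_lit 36789, nat_lit 1551226, nat_lit 202493, nat_lit 81076, nat_lit 59152,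
  nat_lit 46091, nat_lit 38679, nat_lit 35749, nat_lit 17563, nat_lit 1948133, nat_lit 191732,
  nat_lit 81567, nat_lit 60045, nat_lit 49567, nat_lit 41469, nat_lit 37715, nat_lit 35101,
  nat_lit 41525, nat_lit 60773, nat_lit 50747, nat_lit 46392, nat_lit 36810, nat_lit 37664,
  nat_lit 17034, nat_lit 24927, nat_lit 45049, nat_lit 41795, nat_lit 40050, nat_lit 37634,
  nat_lit 23651, nat_lit 39007, nat_lit 39455, nat_lit 18410, nat_lit 18491, nat_lit 33262,
  nat_lit 5692],
   [nat_lit 5468162, nat_lit 1486240, nat_lit 1141432, nat_lit 99361, nat_lit 856750,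
  nat_lit 113724, nat_lit 696318, nat_lit 76319, nat_lit 30581, nat_lit 618592, nat_lit 57099,
  nat_lit 41538, nat_lit 571058, nat_lit 47580, nat_lit 29502, nat_lit 15672, nat_lit 538228,
  nat_lit 40528, nat_lit 24141, nat_lit 22418, nat_lit 520522, nat_lit 36351, nat_lit 20414,
  nat_lit 17224, nat_lit 8817, nat_lit 515997, nat_lit 33074, nat_lit 17608, nat_lit 14644,
  nat_lit 13412, nat_lit 529185, nat_lit 31203, nat_lit 16582, nat_lit 13366, nat_lit 12400,
  nat_lit 5526, nat_lit 515745, nat_lit 28989, nat_lit 14808, nat_lit 11214, nat_lit 10254,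
  nat_lit 8882, nat_lit 532393, nat_lit 27639, nat_lit 13835, nat_lit 10534, nat_lit 9777,
  nat_lit 8098, nat_lit 4044, nat_lit 547683, nat_lit 26485, nat_lit 13275, nat_lit 9822,
  nat_lit 9085, nat_lit 7200, nat_lit 7030, nat_lit 586554, nat_lit 25933, nat_lit 12964,
  nat_lit 9387, nat_lit 8407, nat_lit 7007, nat_lit 6206, nat_lit 3321, nat_lit 349736,
  nat_lit 25844, nat_lit 12980, nat_lit 9085, nat_lit 8549, nat_lit 6723, nat_lit 6224,
  nat_lit 5974, nat_lit 6380, nat_lit 8875, nat_lit 8130, nat_lit 6562, nat_lit 5630,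
  nat_lit 5568, nat_lit 2645, nat_lit 3932, nat_lit 6323, nat_lit 5436, nat_lit 5576,
  nat_lit 5144, nat_lit 2664, nat_lit 5412, nat_lit 5248, nat_lit 2502, nat_lit 2467,
  nat_lit 4686, nat_lit 782]),
  ([nat_lit 899233, nat_lit 517840, nat_lit 447351, nat_lit 75786, nat_lit 364300, nat_lit 130748,
  nat_lit 321181, nat_lit 112461, nat_lit 57995, nat_lit 340122, nat_lit 103096, nat_lit 97211,
  nat_lit 310626, nat_lit 103812, nat_lit 89608, nat_lit 41483, nat_lit 348883, nat_lit 112765,
  nat_lit 94515, nat_lit 75211, nat_lit 383609, nat_lit 133658, nat_lit 95531, nat_lit 80352,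
  nat_lit 38002, nat_lit 442187, nat_lit 159513, nat_lit 114012, nat_lit 99745, nat_lit 96569,
  nat_lit 594253, nat_lit 222362, nat_lit 171884, nat_lit 151807, nat_lit 137762, nat_lit 65954,
  nat_lit 612400, nat_lit 277037, nat_lit 156355, nat_lit 85966, nat_lit 53858, nat_lit 47326,
  nat_lit 766146, nat_lit 273051, nat_lit 98873, nat_lit 57797, nat_lit 47586, nat_lit 39966,
  nat_lit 20107, nat_lit 979395, nat_lit 230578, nat_lit 87376, nat_lit 58678, nat_lit 44683,
  nat_lit 38016, nat_lit 37376, nat_lit 1552425, nat_lit 206284, nat_lit 82371, nat_lit 59914,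
  nat_lit 46757, nat_lit 39255, nat_lit 36278, nat_lit 17828, nat_lit 1921892, nat_lit 195254,
  nat_lit 82754, nat_lit 60828, nat_lit 50126, nat_lit 42020, nat_lit 38225, nat_lit 35587,
  nat_lit 42090, nat_lit 61529, nat_lit 51287, nat_lit 46848, nat_lit 37267, nat_lit 38113,
  nat_lit 17248, nat_lit 25234, nat_lit 45492, nat_lit 42211, nat_lit 40419, nat_lit 37949,
  nat_lit 23787, nat_lit 39384, nat_lit 39846, nat_lit 18599, nat_lit 18701, nat_lit 33656,
  nat_lit 5761],
   [nat_lit 5385421, nat_lit 1497890, nat_lit 1149990, nat_lit 102444, nat_lit 862546,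
  nat_lit 117154, nat_lit 700643, nat_lit 78591, nat_lit 31510, nat_lit 621947, nat_lit 58796,
  nat_lit 42755, nat_lit 573835, nat_lit 48974, nat_lit 30355, nat_lit 16121, nat_lit 540526,
  nat_lit 41704, nat_lit 24827, nat_lit 23055, nat_lit 522457, nat_lit 37396, nat_lit 20985,
  nat_lit 17716, nat_lit 9062, nat_lit 517541, nat_lit 34015, nat_lit 18101, nat_lit 15060,
  nat_lit 13791, nat_lit 530198, nat_lit 32091, nat_lit 17047, nat_lit 13749, nat_lit 12749,
  nat_lit 5684, nat_lit 516968, nat_lit 29812, nat_lit 15223, nat_lit 11529, nat_lit 10541,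
  nat_lit 9134, nat_lit 533465, nat_lit 28423, nat_lit 14219, nat_lit 10833, nat_lit 10048,
  nat_lit 8328, nat_lit 4158, nat_lit 548683, nat_lit 27237, nat_lit 13644, nat_lit 10100,
  nat_lit 9335, nat_lit 7406, nat_lit 7227, nat_lit 586885, nat_lit 26667, nat_lit 13323,
  nat_lit 9651, nat_lit 8638, nat_lit 7203, nat_lit 6385, nat_lit 3413, nat_lit 347930,
  nat_lit 26576, nat_lit 13338, nat_lit 9341, nat_lit 8784, nat_lit 6912, nat_lit 6400,
  nat_lit 6141, nat_lit 6557, nat_lit 9125, nat_lit 8352, nat_lit 6747, nat_lit 5790,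
  nat_lit 5723, nat_lit 2719, nat_lit 4039, nat_lit 6500, nat_lit 5590, nat_lit 5732,
  nat_lit 5289, nat_lit 2741, nat_lit 5563, nat_lit 5396, nat_lit 2572, nat_lit 2535,
  nat_lit 4817, nat_lit 803]),
  ([nat_lit 872407, nat_lit 514193, nat_lit 444929, nat_lit 77001, nat_lit 362416, nat_lit 133039,
  nat_lit 319545, nat_lit 114439, nat_lit 59084, nat_lit 338117, nat_lit 104877, nat_lit 99038,
  nat_lit 308783, nat_lit 105521, nat_lit 91247, nat_lit 42252, nat_lit 346450, nat_lit 114527,
  nat_lit 96120, nat_lit 76547, nat_lit 380810, nat_lit 135575, nat_lit 97061, nat_lit 81645,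
  nat_lit 38612, nat_lit 438898, nat_lit 161698, nat_lit 115648, nat_lit 101094, nat_lit 97795,
  nat_lit 588405, nat_lit 224813, nat_lit 173703, nat_lit 153230, nat_lit 138972, nat_lit 66508,
  nat_lit 609069, nat_lit 280300, nat_lit 158472, nat_lit 87316, nat_lit 54875, nat_lit 48249,
  nat_lit 763551, nat_lit 276937, nat_lit 100502, nat_lit 58834, nat_lit 48404, nat_lit 40680,
  nat_lit 20459, nat_lit 978822, nat_lit 234483, nat_lit 88697, nat_lit 59578, nat_lit 45398,
  nat_lit 38624, nat_lit 37960, nat_lit 1553281, nat_lit 210024, nat_lit 83652, nat_lit 60673,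
  nat_lit 47418, nat_lit 39828, nat_lit 36804, nat_lit 18091, nat_lit 1896490, nat_lit 198732,
  nat_lit 83930, nat_lit 61603, nat_lit 50682, nat_lit 42565, nat_lit 38731, nat_lit 36069,
  nat_lit 42651, nat_lit 62278, nat_lit 51824, nat_lit 47302, nat_lit 37720, nat_lit 38559,
  nat_lit 17461, nat_lit 25537, nat_lit 45933, nat_lit 42624, nat_lit 40788, nat_lit 38266,
  nat_lit 23925, nat_lit 39759, nat_lit 40234, nat_lit 18787, nat_lit 18909, nat_lit 34048,
  nat_lit 5829],
   [nat_lit 5304664, nat_lit 1508903, nat_lit 1158158, nat_lit 105514, nat_lit 868098,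
  nat_lit 120578, nat_lit 704799, nat_lit 80860, nat_lit 32439, nat_lit 625177, nat_lit 60493,
  nat_lit 43972, nat_lit 576513, nat_lit 50368, nat_lit 31209, nat_lit 16569, nat_lit 542743,
  nat_lit 42879, nat_lit 25514, nat_lit 23692, nat_lit 524324, nat_lit 38442, nat_lit 21558,
  nat_lit 18208, nat_lit 9306, nat_lit 519031, nat_lit 34956, nat_lit 18596, nat_lit 15476,
  nat_lit 14170, nat_lit 531183, nat_lit 32980, nat_lit 17512, nat_lit 14132, nat_lit 13099,
  nat_lit 5842, nat_lit 518146, nat_lit 30635, nat_lit 15639, nat_lit 11844, nat_lit 10829,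
  nat_lit 9386, nat_lit 534493, nat_lit 29208, nat_lit 14605, nat_lit 11132, nat_lit 10319,
  nat_lit 8559, nat_lit 4273, nat_lit 549631, nat_lit 27988, nat_lit 14014, nat_lit 10378,
  nat_lit 9586, nat_lit 7612, nat_lit 7425, nat_lit 587171, nat_lit 27402, nat_lit 13683,
  nat_lit 9915, nat_lit 8869, nat_lit 7399, nat_lit 6565, nat_lit 3504, nat_lit 346210,
  nat_lit 27309, nat_lit 13697, nat_lit 9597, nat_lit 9018, nat_lit 7101, nat_lit 6577,
  nat_lit 6308, nat_lit 6735, nat_lit 9377, nat_lit 8575, nat_lit 6933, nat_lit 5950,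
  nat_lit 5878, nat_lit 2794, nat_lit 4146, nat_lit 6678, nat_lit 5745, nat_lit 5888,
  nat_lit 5434, nat_lit 2817, nat_lit 5715, nat_lit 5545, nat_lit 2643, nat_lit 2605,
  nat_lit 4949, nat_lit 825]),
  ([nat_lit 846625, nat_lit 510397, nat_lit 442404, nat_lit 78161, nat_lit 360471, nat_lit 135252,
  nat_lit 317869, nat_lit 116359, nat_lit 60147, nat_lit 336093, nat_lit 106611, nat_lit 100830,
  nat_lit 306933, nat_lit 107186, nat_lit 92858, nat_lit 43010, nat_lit 344032, nat_lit 116247,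
  nat_lit 97697, nat_lit 77865, nat_lit 378035, nat_lit 137444, nat_lit 98567, nat_lit 82922,
  nat_lit 39215, nat_lit 435639, nat_lit 163827, nat_lit 117259, nat_lit 102425, nat_lit 99006,
  nat_lit 582702, nat_lit 227203, nat_lit 175495, nat_lit 154637, nat_lit 140171, nat_lit 67059,
  nat_lit 605756, nat_lit 283491, nat_lit 160563, nat_lit 88658, nat_lit 55889, nat_lit 49170,
  nat_lit 760955, nat_lit 280754, nat_lit 102121, nat_lit 59867, nat_lit 49219, nat_lit 41392,
  nat_lit 20809, nat_lit 978154, nat_lit 238334, nat_lit 90009, nat_lit 60472, nat_lit 46109,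
  nat_lit 39230, nat_lit 38542, nat_lit 1553822, nat_lit 213719, nat_lit 84921, nat_lit 61428,
  nat_lit 48074, nat_lit 40399, nat_lit 37328, nat_lit 18353, nat_lit 1871843, nat_lit 202175,
  nat_lit 85096, nat_lit 62372, nat_lit 51237, nat_lit 43106, nat_lit 39234, nat_lit 36548,
  nat_lit 43207, nat_lit 63023, nat_lit 52360, nat_lit 47754, nat_lit 38171, nat_lit 39002,
  nat_lit 17672, nat_lit 25837, nat_lit 46372, nat_lit 43034, nat_lit 41156, nat_lit 38584,
  nat_lit 24066, nat_lit 40132, nat_lit 40620, nat_lit 18975, nat_lit 19116, nat_lit 34437,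
  nat_lit 5896],
   [nat_lit 5225726, nat_lit 1519321, nat_lit 1165966, nat_lit 108575, nat_lit 873424,
  nat_lit 124000, nat_lit 708800, nat_lit 83129, nat_lit 33369, nat_lit 628291, nat_lit 62191,
  nat_lit 45191, nat_lit 579100, nat_lit 51763, nat_lit 32065, nat_lit 17018, nat_lit 544886,
  nat_lit 44056, nat_lit 26202, nat_lit 24330, nat_lit 526129, nat_lit 39488, nat_lit 22131,
  nat_lit 18702, nat_lit 9551, nat_lit 520471, nat_lit 35899, nat_lit 19092, nat_lit 15893,
  nat_lit 14549, nat_lit 532141, nat_lit 33870, nat_lit 17979, nat_lit 14516, nat_lit 13449,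
  nat_lit 6000, nat_lit 519281, nat_lit 31460, nat_lit 16055, nat_lit 12161, nat_lit 11117,
  nat_lit 9638, nat_lit 535479, nat_lit 29993, nat_lit 14991, nat_lit 11432, nat_lit 10591,
  nat_lit 8790, nat_lit 4387, nat_lit 550530, nat_lit 28742, nat_lit 14385, nat_lit 10658,
  nat_lit 9837, nat_lit 7819, nat_lit 7623, nat_lit 587415, nat_lit 28138, nat_lit 14043,
  nat_lit 10180, nat_lit 9101, nat_lit 7596, nat_lit 6745, nat_lit 3596, nat_lit 344567,
  nat_lit 28043, nat_lit 14056, nat_lit 9853, nat_lit 9253, nat_lit 7291, nat_lit 6755,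
  nat_lit 6476, nat_lit 6913, nat_lit 9629, nat_lit 8798, nat_lit 7119, nat_lit 6111,
  nat_lit 6033, nat_lit 2869, nat_lit 4254, nat_lit 6856, nat_lit 5900, nat_lit 6044,
  nat_lit 5579, nat_lit 2895, nat_lit 5867, nat_lit 5693, nat_lit 2713, nat_lit 2674,
  nat_lit 5082, nat_lit 847]),
  ([nat_lit 821781, nat_lit 506465, nat_lit 439785, nat_lit 79269, nat_lit 358469, nat_lit 137394,
  nat_lit 316156, nat_lit 118226, nat_lit 61186, nat_lit 334050, nat_lit 108302, nat_lit 102589,
  nat_lit 305076, nat_lit 108811, nat_lit 94443, nat_lit 43756, nat_lit 341624, nat_lit 117926,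
  nat_lit 99250, nat_lit 79167, nat_lit 375282, nat_lit 139270, nat_lit 100053, nat_lit 84185,
  nat_lit 39812, nat_lit 432408, nat_lit 165907, nat_lit 118848, nat_lit 103741, nat_lit 100205,
  nat_lit 577129, nat_lit 229535, nat_lit 177263, nat_lit 156030, nat_lit 141361, nat_lit 67607,
  nat_lit 602458, nat_lit 286615, nat_lit 162631, nat_lit 89993, nat_lit 56900, nat_lit 50088,
  nat_lit 758356, nat_lit 284509, nat_lit 103731, nat_lit 60895, nat_lit 50032, nat_lit 42102,
  nat_lit 21159, nat_lit 977400, nat_lit 242137, nat_lit 91315, nat_lit 61362, nat_lit 46817,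
  nat_lit 39834, nat_lit 39122, nat_lit 1554065, nat_lit 217374, nat_lit 86181, nat_lit 62180,
  nat_lit 48727, nat_lit 40967, nat_lit 37850, nat_lit 18614, nat_lit 1847888, nat_lit 205588,
  nat_lit 86255, nat_lit 63137, nat_lit 51791, nat_lit 43645, nat_lit 39735, nat_lit 37026,
  nat_lit 43760, nat_lit 63763, nat_lit 52894, nat_lit 48206, nat_lit 38620, nat_lit 39443,
  nat_lit 17883, nat_lit 26135, nat_lit 46811, nat_lit 43443, nat_lit 41524, nat_lit 38904,
  nat_lit 24209, nat_lit 40504, nat_lit 41005, nat_lit 19162, nat_lit 19321, nat_lit 34825,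
  nat_lit 5964],
   [nat_lit 5148393, nat_lit 1529188, nat_lit 1173441, nat_lit 111631, nat_lit 878543,
  nat_lit 127424, nat_lit 712658, nat_lit 85401, nat_lit 34301, nat_lit 631300, nat_lit 63892,
  nat_lit 46412, nat_lit 581602, nat_lit 53161, nat_lit 32923, nat_lit 17468, nat_lit 546960,
  nat_lit 45236, nat_lit 26892, nat_lit 24970, nat_lit 527878, nat_lit 40538, nat_lit 22707,
  nat_lit 19198, nat_lit 9797, nat_lit 521866, nat_lit 36844, nat_lit 19589, nat_lit 16312,
  nat_lit 14930, nat_lit 533074, nat_lit 34762, nat_lit 18446, nat_lit 14901, nat_lit 13800,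
  nat_lit 6159, nat_lit 520378, nat_lit 32286, nat_lit 16473, nat_lit 12479, nat_lit 11406,
  nat_lit 9892, nat_lit 536428, nat_lit 30781, nat_lit 15379, nat_lit 11734, nat_lit 10864,
  nat_lit 9021, nat_lit 4503, nat_lit 551385, nat_lit 29497, nat_lit 14758, nat_lit 10938,
  nat_lit 10090, nat_lit 8027, nat_lit 7822, nat_lit 587623, nat_lit 28876, nat_lit 14405,
  nat_lit 10447, nat_lit 9334, nat_lit 7794, nat_lit 6926, nat_lit 3688, nat_lit 342996,
  nat_lit 28779, nat_lit 14417, nat_lit 10112, nat_lit 9488, nat_lit 7481, nat_lit 6933,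
  nat_lit 6645, nat_lit 7091, nat_lit 9883, nat_lit 9022, nat_lit 7306, nat_lit 6273,
  nat_lit 6189, nat_lit 2944, nat_lit 4362, nat_lit 7035, nat_lit 6057, nat_lit 6202,
  nat_lit 5725, nat_lit 2972, nat_lit 6019, nat_lit 5843, nat_lit 2784, nat_lit 2743,
  nat_lit 5215, nat_lit 869])]

theorem run28 : run W28 data28 = true := by decide +kernel

end Vale.Agent.P154.AF.Eng
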