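import Vale.Agent.P154AF.Eng
import Vale.Agent.P154AF.Run28

/-! Run data, generations 77 to 84 (helper file). -/

namespace Vale.Agent.P154.AF.Eng

def W77 : List Nat :=
  [nat_lit 2115572, nat_lit 1533972, nat_lit 1262438, nat_lit 282506, nat_lit 959044,
  nat_lit 340047, nat_lit 786282, nat_lit 231627, nat_lit 97523, nat_lit 693627, nat_lit 177008,
  nat_lit 129384, nat_lit 636188, nat_lit 147304, nat_lit 92795, nat_lit 47892, nat_lit 592862,
  nat_lit 125625, nat_lit 75659, nat_lit 68799, nat_lit 566587, nat_lit 112450, nat_lit 63700,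
  nat_lit 54563, nat_lit 26381, nat_lit 551078, nat_lit 102112, nat_lit 55450, nat_lit 46518,
  nat_lit 41426, nat_lit 550301, nat_lit 96232, nat_lit 51994, nat_lit 42494, nat_lit 38351,
  nat_lit 17237, nat_lit 540033, nat_lit 89572, nat_lit 46707, nat_lit 35857, nat_lit 32073,
  nat_lit 28202, nat_lit 548256, nat_lit 85627, nat_lit 43645, nat_lit 33983, nat_lit 30283,
  nat_lit 25637, nat_lit 12772, nat_lit 555003, nat_lit 82332, nat_lit 41976, nat_lit 31816,
  nat_lit 28089, nat_lit 23151, nat_lit 22267, nat_lit 566836, nat_lit 80518, nat_lit 40831,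
  nat_lit 30280, nat_lit 26196, nat_lit 22103, nat_lit 20233, nat_lit 10376, nat_lit 294930,
  nat_lit 79825, nat_lit 40562, nat_lit 29435, nat_lit 26209, nat_lit 21161, nat_lit 19769,
  nat_lit 18867, nat_lit 20119, nat_lit 28826, nat_lit 25134, nat_lit 20686, nat_lit 18225,
  nat_lit 17634, nat_lit 8480, nat_lit 12257, nat_lit 20109, nat_lit 17614, nat_lit 17662,
  nat_lit 16341, nat_lit 8730, nat_lit 17069, nat_lit 16528, nat_lit 7912, nat_lit 7846,
  nat_lit 15113, nat_lit 2491]

def data77 : List (List Nat × List Nat) := [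
  ([nat_lit 136650, nat_lit 213314, nat_lit 224428, nat_lit 83873, nat_lit 198499, nat_lit 174734,
  nat_lit 184763, nat_lit 162579, nat_lit 92614, nat_lit 195826, nat_lit 155489, nat_lit 168137,
  nat_lit 184654, nat_lit 157441, nat_lit 160011, nat_lit 76562, nat_lit 202804, nat_lit 171033,
  nat_lit 165912, nat_lit 142346, nat_lit 223794, nat_lit 198620, nat_lit 168508, nat_lit 147817,
  nat_lit 70618, nat_lit 259910, nat_lit 235791, nat_lit 192940, nat_lit 170799, nat_lit 163358,
  nat_lit 336056, nat_lit 309306, nat_lit 261561, nat_lit 229661, nat_lit 208705, nat_lit 99871,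
  nat_lit 409816, nat_lit 406034, nat_lit 270458, nat_lit 171576, nat_lit 123622, nat_lit 110950,
  nat_lit 578367, nat_lit 449546, nat_lit 202197, nat_lit 127029, nat_lit 103288, nat_lit 89714,
  nat_lit 44353, nat_lit 830271, nat_lit 428960, nat_lit 172692, nat_lit 117806, nat_lit 92648,
  nat_lit 80262, nat_lit 77524, nat_lit 1302430, nat_lit 407468, nat_lit 161750, nat_lit 111630,
  nat_lit 90352, nat_lit 78231, nat_lit 72223, nat_lit 35730, nat_lit 985112, nat_lit 391126,
  nat_lit 156929, nat_lit 111070, nat_lit 89265, nat_lit 77824, nat_lit 71959, nat_lit 68101,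
  nat_lit 77979, nat_lit 110369, nat_lit 88778, nat_lit 78977, nat_lit 68198, nat_lit 68130,
  nat_lit 31848, nat_lit 44515, nat_lit 76832, nat_lit 70809, nat_lit 67461, nat_lit 63157,
  nat_lit 36312, nat_lit 65921, nat_lit 66424, nat_lit 31623, nat_lit 32241, nat_lit 60076,
  nat_lit 10269],
   [nat_lit 2032946, nat_lit 1518096, nat_lit 1255739, nat_lit 288508, nat_lit 955705,
  nat_lit 348817, nat_lit 784611, nat_lit 237996, nat_lit 100430, nat_lit 692618, nat_lit 182134,
  nat_lit 133256, nat_lit 635510, nat_lit 151645, nat_lit 95682, nat_lit 49307, nat_lit 592324,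
  nat_lit 129387, nat_lit 78044, nat_lit 70875, nat_lit 566102, nat_lit 115843, nat_lit 65727,
  nat_lit 56303, nat_lit 27163, nat_lit 550525, nat_lit 105219, nat_lit 57242, nat_lit 48022,
  nat_lit 42709, nat_lit 549568, nat_lit 99158, nat_lit 53667, nat_lit 43863, nat_lit 39541,
  nat_lit 17777, nat_lit 539344, nat_lit 92317, nat_lit 48224, nat_lit 37046, nat_lit 33097,
  nat_lit 29121, nat_lit 547308, nat_lit 88265, nat_lit 45075, nat_lit 35116, nat_lit 31243,
  nat_lit 26464, nat_lit 13185, nat_lit 553760, nat_lit 84885, nat_lit 43355, nat_lit 32888,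
  nat_lit 28982, nat_lit 23913, nat_lit 22996, nat_lit 565065, nat_lit 83015, nat_lit 42170,
  nat_lit 31299, nat_lit 27045, nat_lit 22822, nat_lit 20909, nat_lit 10713, nat_lit 293511,
  nat_lit 82280, nat_lit 41882, nat_lit 30433, nat_lit 27039, nat_lit 21848, nat_lit 20414,
  nat_lit 19485, nat_lit 20778, nat_lit 29802, nat_lit 25941, nat_lit 21354, nat_lit 18839,
  nat_lit 18218, nat_lit 8763, nat_lit 12657, nat_lit 20772, nat_lit 18208, nat_lit 18242,
  nat_lit 16879, nat_lit 9026, nat_lit 17627, nat_lit 17062, nat_lit 8171, nat_lit 8106,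
  nat_lit 15624, nat_lit 2574]),
  ([nat_lit 126282, nat_lit 203180, nat_lit 216006, nat_lit 82326, nat_lit 192030, nat_lit 173252,
  nat_lit 179358, nat_lit 162025, nat_lit 92726, nat_lit 190344, nat_lit 155463, nat_lit 169223,
  nat_lit 179863, nat_lit 157658, nat_lit 161495, nat_lit 77416, nat_lit 197565, nat_lit 171477,
  nat_lit 167598, nat_lit 144325, nat_lit 218194, nat_lit 199250, nat_lit 170489, nat_lit 149955,
  nat_lit 71691, nat_lit 253680, nat_lit 236736, nat_lit 195191, nat_lit 173127, nat_lit 165645,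
  nat_lit 328237, nat_lit 310510, nat_lit 264216, nat_lit 232330, nat_lit 211336, nat_lit 101174,
  nat_lit 402211, nat_lit 408576, nat_lit 274337, nat_lit 175041, nat_lit 126660, nat_lit 113743,
  nat_lit 570240, nat_lit 454175, nat_lit 206368, nat_lit 130010, nat_lit 105734, nat_lit 91944,
  nat_lit 45433, nat_lit 821517, nat_lit 435121, nat_lit 176253, nat_lit 120352, nat_lit 94753,
  nat_lit 82162, nat_lit 79317, nat_lit 1286714, nat_lit 414192, nat_lit 165003, nat_lit 113908,
  nat_lit 92259, nat_lit 79965, nat_lit 73831, nat_lit 36529, nat_lit 963025, nat_lit 398001,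
  nat_lit 160008, nat_lit 113235, nat_lit 91036, nat_lit 79397, nat_lit 73450, nat_lit 69551,
  nat_lit 79483, nat_lit 112476, nat_lit 90473, nat_lit 80447, nat_lit 69596, nat_lit 69472,
  nat_lit 32512, nat_lit 45354, nat_lit 78279, nat_lit 72120, nat_lit 68721, nat_lit 64368,
  nat_lit 36938, nat_lit 67146, nat_lit 67624, nat_lit 32214, nat_lit 32839, nat_lit 61262,
  nat_lit 10468],
   [nat_lit 1949829, nat_lit 1500724, nat_lit 1248136, nat_lit 294582, nat_lit 951806,
  nat_lit 357859, nat_lit 782563, nat_lit 244607, nat_lit 103462, nat_lit 691326, nat_lit 187476,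
  nat_lit 137305, nat_lit 634604, nat_lit 156179, nat_lit 98712, nat_lit 50788, nat_lit 591597,
  nat_lit 133322, nat_lit 80551, nat_lit 73051, nat_lit 565451, nat_lit 119395, nat_lit 67860,
  nat_lit 58132, nat_lit 27982, nat_lit 549824, nat_lit 108475, nat_lit 59129, nat_lit 49605,
  nat_lit 44057, nat_lit 548695, nat_lit 102225, nat_lit 55429, nat_lit 45304, nat_lit 40792,
  nat_lit 18345, nat_lit 538520, nat_lit 95195, nat_lit 49824, nat_lit 38300, nat_lit 34175,
  nat_lit 30089, nat_lit 546223, nat_lit 91033, nat_lit 46584, nat_lit 36311, nat_lit 32254,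
  nat_lit 27335, nat_lit 13621, nat_lit 552376, nat_lit 87564, nat_lit 44810, nat_lit 34019,
  nat_lit 29922, nat_lit 24717, nat_lit 23766, nat_lit 563160, nat_lit 85637, nat_lit 43583,
  nat_lit 32375, nat_lit 27940, nat_lit 23580, nat_lit 21623, nat_lit 11070, nat_lit 292038,
  nat_lit 84855, nat_lit 43273, nat_lit 31488, nat_lit 27914, nat_lit 22573, nat_lit 21093,
  nat_lit 20136, nat_lit 21474, nat_lit 30833, nat_lit 26792, nat_lit 22058, nat_lit 19487,
  nat_lit 18834, nat_lit 9062, nat_lit 13080, nat_lit 21471, nat_lit 18834, nat_lit 18855,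
  nat_lit 17448, nat_lit 9338, nat_lit 18215, nat_lit 17626, nat_lit 8445, nat_lit 8382,
  nat_lit 16165, nat_lit 2662]),
  ([nat_lit 116258, nat_lit 192965, nat_lit 207417, nat_lit 80640, nat_lit 185401, nat_lit 171527,
  nat_lit 173802, nat_lit 161287, nat_lit 92751, nat_lit 184711, nat_lit 155294, nat_lit 170217,
  nat_lit 174930, nat_lit 157752, nat_lit 162932, nat_lit 78258, nat_lit 192180, nat_lit 171808,
  nat_lit 169258, nat_lit 146322, nat_lit 212440, nat_lit 199767, nat_lit 172471, nat_lit 152130,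
  nat_lit 72788, nat_lit 247282, nat_lit 237573, nat_lit 197461, nat_lit 175509, nat_lit 167994,
  nat_lit 320229, nat_lit 311603, nat_lit 266904, nat_lit 235071, nat_lit 214057, nat_lit 102525,
  nat_lit 394348, nat_lit 411031, nat_lit 278318, nat_lit 178648, nat_lit 129840, nat_lit 116670,
  nat_lit 561765, nat_lit 458808, nat_lit 210708, nat_lit 133132, nat_lit 108299, nat_lit 94286,
  nat_lit 46566, nat_lit 812281, nat_lit 441390, nat_lit 179971, nat_lit 123019, nat_lit 96964,
  nat_lit 84159, nat_lit 81203, nat_lit 1270207, nat_lit 421077, nat_lit 168400, nat_lit 116299,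
  nat_lit 94263, nat_lit 81787, nat_lit 75521, nat_lit 37369, nat_lit 940715, nat_lit 405069,
  nat_lit 163226, nat_lit 115506, nat_lit 92898, nat_lit 81051, nat_lit 75017, nat_lit 71076,
  nat_lit 81056, nat_lit 114688, nat_lit 92255, nat_lit 81994, nat_lit 71068, nat_lit 70884,
  nat_lit 33211, nat_lit 46236, nat_lit 79804, nat_lit 73502, nat_lit 70050, nat_lit 65646,
  nat_lit 37599, nat_lit 68437, nat_lit 68888, nat_lit 32838, nat_lit 33469, nat_lit 62512,
  nat_lit 10678],
   [nat_lit 1866295, nat_lit 1481772, nat_lit 1239562, nat_lit 300711, nat_lit 947303,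
  nat_lit 367174, nat_lit 780105, nat_lit 251466, nat_lit 106625, nat_lit 689728, nat_lit 193044,
  nat_lit 141539, nat_lit 633450, nat_lit 160915, nat_lit 101894, nat_lit 52337, nat_lit 590662,
  nat_lit 137438, nat_lit 83188, nat_lit 75331, nat_lit 564620, nat_lit 123116, nat_lit 70106,
  nat_lit 60056, nat_lit 28842, nat_lit 548962, nat_lit 111888, nat_lit 61118, nat_lit 51272,
  nat_lit 45475, nat_lit 547671, nat_lit 105442, nat_lit 57287, nat_lit 46821, nat_lit 42107,
  nat_lit 18944, nat_lit 537549, nat_lit 98216, nat_lit 51510, nat_lit 39625, nat_lit 35310,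
  nat_lit 31111, nat_lit 544989, nat_lit 93939, nat_lit 48176, nat_lit 37573, nat_lit 33318,
  nat_lit 28254, nat_lit 14080, nat_lit 550841, nat_lit 90378, nat_lit 46345, nat_lit 35214,
  nat_lit 30912, nat_lit 25566, nat_lit 24578, nat_lit 561115, nat_lit 88390, nat_lit 45074,
  nat_lit 33513, nat_lit 28884, nat_lit 24380, nat_lit 22377, nat_lit 11446, nat_lit 290507,
  nat_lit 87560, nat_lit 44742, nat_lit 32604, nat_lit 28836, nat_lit 23338, nat_lit 21811,
  nat_lit 20825, nat_lit 22208, nat_lit 31923, nat_lit 27688, nat_lit 22802, nat_lit 20173,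
  nat_lit 19485, nat_lit 9378, nat_lit 13527, nat_lit 22210, nat_lit 19497, nat_lit 19501,
  nat_lit 18048, nat_lit 9669, nat_lit 18837, nat_lit 18220, nat_lit 8734, nat_lit 8672,
  nat_lit 16737, nat_lit 2755]),
  ([nat_lit 106590, nat_lit 182689, nat_lit 198671, nat_lit 78812, nat_lit 178617, nat_lit 169543,
  nat_lit 168096, nat_lit 160349, nat_lit 92681, nat_lit 178927, nat_lit 154967, nat_lit 171105,
  nat_lit 169855, nat_lit 157710, nat_lit 164310, nat_lit 79086, nat_lit 186649, nat_lit 172011,
  nat_lit 170884, nat_lit 148334, nat_lit 206530, nat_lit 200158, nat_lit 174449, nat_lit 154343,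
  nat_lit 73909, nat_lit 240714, nat_lit 238286, nat_lit 199744, nat_lit 177943, nat_lit 170406,
  nat_lit 312028, nat_lit 312570, nat_lit 269621, nat_lit 237885, nat_lit 216869, nat_lit 103925,
  nat_lit 386217, nat_lit 413386, nat_lit 282402, nat_lit 182403, nat_lit 133171, nat_lit 119739,
  nat_lit 552926, nat_lit 463435, nat_lit 215223, nat_lit 136403, nat_lit 110992, nat_lit 96749,
  nat_lit 47758, nat_lit 802538, nat_lit 447762, nat_lit 183855, nat_lit 125817, nat_lit 99286,
  nat_lit 86261, nat_lit 83186, nat_lit 1252874, nat_lit 428123, nat_lit 171950, nat_lit 118809,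
  nat_lit 96369, nat_lit 83704, nat_lit 77301, nat_lit 38253, nat_lit 918179, nat_lit 412330,
  nat_lit 166590, nat_lit 117890, nat_lit 94859, nat_lit 82792, nat_lit 76667, nat_lit 72681,
  nat_lit 82702, nat_lit 117009, nat_lit 94131, nat_lit 83626, nat_lit 72619, nat_lit 72373,
  nat_lit 33949, nat_lit 47164, nat_lit 81413, nat_lit 74960, nat_lit 71452, nat_lit 66997,
  nat_lit 38299, nat_lit 69800, nat_lit 70220, nat_lit 33495, nat_lit 34133, nat_lit 63829,
  nat_lit 10899],
   [nat_lit 1782432, nat_lit 1461153, nat_lit 1229948, nat_lit 306875, nat_lit 942148,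
  nat_lit 376761, nat_lit 777205, nat_lit 258580, nat_lit 109924, nat_lit 687796, nat_lit 198847,
  nat_lit 145969, nat_lit 632026, nat_lit 165861, nat_lit 105235, nat_lit 53957, nat_lit 589502,
  nat_lit 141746, nat_lit 85962, nat_lit 77723, nat_lit 563591, nat_lit 127014, nat_lit 72472,
  nat_lit 62081, nat_lit 29744, nat_lit 547922, nat_lit 115468, nat_lit 63216, nat_lit 53030,
  nat_lit 46967, nat_lit 546482, nat_lit 108815, nat_lit 59246, nat_lit 48421, nat_lit 43490,
  nat_lit 19574, nat_lit 536418, nat_lit 101386, nat_lit 53291, nat_lit 41025, nat_lit 36507,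
  nat_lit 32190, nat_lit 543593, nat_lit 96990, nat_lit 49858, nat_lit 38907, nat_lit 34441,
  nat_lit 29224, nat_lit 14566, nat_lit 549144, nat_lit 93334, nat_lit 47966, nat_lit 36478,
  nat_lit 31957, nat_lit 26462, nat_lit 25437, nat_lit 558917, nat_lit 91283, nat_lit 46650,
  nat_lit 34715, nat_lit 29881, nat_lit 25224, nat_lit 23174, nat_lit 11843, nat_lit 288912,
  nat_lit 90401, nat_lit 46294, nat_lit 33784, nat_lit 29809, nat_lit 24147, nat_lit 22570,
  nat_lit 21552, nat_lit 22984, nat_lit 33076, nat_lit 28635, nat_lit 23586, nat_lit 20899,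
  nat_lit 20175, nat_lit 9713, nat_lit 13999, nat_lit 22990, nat_lit 20199, nat_lit 20185,
  nat_lit 18684, nat_lit 10019, nat_lit 19494, nat_lit 18849, nat_lit 9040, nat_lit 8980,
  nat_lit 17342, nat_lit 2854]),
  ([nat_lit 97313, nat_lit 172376, nat_lit 189780, nat_lit 76837, nat_lit 171683, nat_lit 167284,
  nat_lit 162243, nat_lit 159197, nat_lit 92506, nat_lit 172994, nat_lit 154469, nat_lit 171872,
  nat_lit 164637, nat_lit 157517, nat_lit 165618, nat_lit 79894, nat_lit 180970, nat_lit 172072,
  nat_lit 172465, nat_lit 150356, nat_lit 200463, nat_lit 200408, nat_lit 176415, nat_lit 156589,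
  nat_lit 75052, nat_lit 233974, nat_lit 238861, nat_lit 202035, nat_lit 180428, nat_lit 172880,
  nat_lit 303629, nat_lit 313394, nat_lit 272361, nat_lit 240773, nat_lit 219776, nat_lit 105375,
  nat_lit 377812, nat_lit 415622, nat_lit 286589, nat_lit 186314, nat_lit 136662, nat_lit 122958,
  nat_lit 543703, nat_lit 468039, nat_lit 219920, nat_lit 139831, nat_lit 113821, nat_lit 99340,
  nat_lit 49012, nat_lit 792261, nat_lit 454229, nat_lit 187914, nat_lit 128752, nat_lit 101728,
  nat_lit 88475, nat_lit 85276, nat_lit 1234684, nat_lit 435328, nat_lit 175660, nat_lit 121447,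
  nat_lit 98585, nat_lit 85723, nat_lit 79176, nat_lit 39185, nat_lit 895414, nat_lit 419786,
  nat_lit 170110, nat_lit 120395, nat_lit 96925, nat_lit 84626, nat_lit 78405, nat_lit 74374,
  nat_lit 84425, nat_lit 119448, nat_lit 96109, nat_lit 85347, nat_lit 74257, nat_lit 73942,
  nat_lit 34727, nat_lit 48141, nat_lit 83111, nat_lit 76500, nat_lit 72932, nat_lit 68425,
  nat_lit 39039, nat_lit 71239, nat_lit 71625, nat_lit 34189, nat_lit 34833, nat_lit 65219,
  nat_lit 11131],
   [nat_lit 1698386, nat_lit 1438778, nat_lit 1219218, nat_lit 313052, nat_lit 936290,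
  nat_lit 386613, nat_lit 773821, nat_lit 265953, nat_lit 113364, nat_lit 685499, nat_lit 204893,
  nat_lit 150604, nat_lit 630305, nat_lit 171028, nat_lit 108747, nat_lit 55652, nat_lit 588094,
  nat_lit 146253, nat_lit 88882, nat_lit 80232, nat_lit 562345, nat_lit 131097, nat_lit 74966,
  nat_lit 64213, nat_lit 30691, nat_lit 546688, nat_lit 119222, nat_lit 65430, nat_lit 54884,
  nat_lit 48537, nat_lit 545110, nat_lit 112355, nat_lit 61313, nat_lit 50108, nat_lit 44947,
  nat_lit 20239, nat_lit 535111, nat_lit 104715, nat_lit 55171, nat_lit 42504, nat_lit 37769,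
  nat_lit 33330, nat_lit 542020, nat_lit 100195, nat_lit 51635, nat_lit 40317, nat_lit 35624,
  nat_lit 30248, nat_lit 15079, nat_lit 547268, nat_lit 96440, nat_lit 49680, nat_lit 37816,
  nat_lit 33060, nat_lit 27410, nat_lit 26345, nat_lit 556551, nat_lit 94323, nat_lit 48316,
  nat_lit 35989, nat_lit 30934, nat_lit 26117, nat_lit 24018, nat_lit 12263, nat_lit 287245,
  nat_lit 93386, nat_lit 47934, nat_lit 35035, nat_lit 30837, nat_lit 25002, nat_lit 23373,
  nat_lit 22323, nat_lit 23804, nat_lit 34297, nat_lit 29635, nat_lit 24416, nat_lit 21668,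
  nat_lit 20905, nat_lit 10067, nat_lit 14498, nat_lit 23816, nat_lit 20943, nat_lit 20909,
  nat_lit 19357, nat_lit 10390, nat_lit 20190, nat_lit 19515, nat_lit 9364, nat_lit 9307,
  nat_lit 17985, nat_lit 2958]),
  ([nat_lit 88439, nat_lit 162057, nat_lit 180763, nat_lit 74714, nat_lit 164608, nat_lit 164735,
  nat_lit 156248, nat_lit 157812, nat_lit 92216, nat_lit 166916, nat_lit 153782, nat_lit 172500,
  nat_lit 159279, nat_lit 157157, nat_lit 166842, nat_lit 80676, nat_lit 175147, nat_lit 171977,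
  nat_lit 173991, nat_lit 152381, nat_lit 194242, nat_lit 200500, nat_lit 178359, nat_lit 158864,
  nat_lit 76216, nat_lit 227063, nat_lit 239279, nat_lit 204325, nat_lit 182960, nat_lit 175416,
  nat_lit 295032, nat_lit 314054, nat_lit 275117, nat_lit 243731, nat_lit 222777, nat_lit 106878,
  nat_lit 369125, nat_lit 417714, nat_lit 290875, nat_lit 190385, nat_lit 140319, nat_lit 126336,
  nat_lit 534087, nat_lit 472601, nat_lit 224805, nat_lit 143425, nat_lit 116793, nat_lit 102068,
  nat_lit 50331, nat_lit 781425, nat_lit 460780, nat_lit 192156, nat_lit 131834, nat_lit 104297,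
  nat_lit 90808, nat_lit 87477, nat_lit 1215613, nat_lit 442685, nat_lit 179540, nat_lit 124221,
  nat_lit 100918, nat_lit 87851, nat_lit 81153, nat_lit 40167, nat_lit 872433, nat_lit 427433,
  nat_lit 173795, nat_lit 123028, nat_lit 99104, nat_lit 86559, nat_lit 80237, nat_lit 76159,
  nat_lit 86229, nat_lit 122012, nat_lit 98195, nat_lit 87165, nat_lit 75986, nat_lit 75598,
  nat_lit 35550, nat_lit 49170, nat_lit 84906, nat_lit 78128, nat_lit 74497, nat_lit 69936,
  nat_lit 39823, nat_lit 72761, nat_lit 73110, nat_lit 34923, nat_lit 35572, nat_lit 66688,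
  nat_lit 11377],
   [nat_lit 1614294, nat_lit 1414564, nat_lit 1207298, nat_lit 319211, nat_lit 929674,
  nat_lit 396718, nat_lit 769916, nat_lit 273586, nat_lit 116948, nat_lit 682806, nat_lit 211187,
  nat_lit 155451, nat_lit 628262, nat_lit 176422, nat_lit 112437, nat_lit 57426, nat_lit 586416,
  nat_lit 150969, nat_lit 91957, nat_lit 82865, nat_lit 560862, nat_lit 135376, nat_lit 77596,
  nat_lit 66459, nat_lit 31686, nat_lit 545242, nat_lit 123159, nat_lit 67767, nat_lit 56839,
  nat_lit 50191, nat_lit 543540, nat_lit 116070, nat_lit 63497, nat_lit 51889, nat_lit 46480,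
  nat_lit 20941, nat_lit 533615, nat_lit 108210, nat_lit 57157, nat_lit 44070, nat_lit 39101,
  nat_lit 34536, nat_lit 540257, nat_lit 103562, nat_lit 53515, nat_lit 41808, nat_lit 36873,
  nat_lit 31330, nat_lit 15621, nat_lit 545202, nat_lit 99705, nat_lit 51492, nat_lit 39232,
  nat_lit 34224, nat_lit 28412, nat_lit 27307, nat_lit 554009, nat_lit 97518, nat_lit 50077,
  nat_lit 37337, nat_lit 32048, nat_lit 27061, nat_lit 24912, nat_lit 12708, nat_lit 285503,
  nat_lit 96524, nat_lit 49669, nat_lit 36359, nat_lit 31923, nat_lit 25907, nat_lit 24222,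
  nat_lit 23139, nat_lit 24672, nat_lit 35590, nat_lit 30692, nat_lit 25293, nat_lit 22483,
  nat_lit 21679, nat_lit 10443, nat_lit 15026, nat_lit 24690, nat_lit 21731, nat_lit 21675,
  nat_lit 20071, nat_lit 10783, nat_lit 20927, nat_lit 20219, nat_lit 9708, nat_lit 9652,
  nat_lit 18667, nat_lit 3069]),
  ([nat_lit 79975, nat_lit 151764, nat_lit 171638, nat_lit 72440, nat_lit 157405, nat_lit 161880,
  nat_lit 150119, nat_lit 156178, nat_lit 91798, nat_lit 160699, nat_lit 152891, nat_lit 172970,
  nat_lit 153785, nat_lit 156616, nat_lit 167966, nat_lit 81426, nat_lit 169183, nat_lit 171707,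
  nat_lit 175449, nat_lit 154400, nat_lit 187868, nat_lit 200416, nat_lit 180272, nat_lit 161163,
  nat_lit 77400, nat_lit 219983, nat_lit 239522, nat_lit 206606, nat_lit 185538, nat_lit 178012,
  nat_lit 286239, nat_lit 314531, nat_lit 277880, nat_lit 246759, nat_lit 225877, nat_lit 108434,
  nat_lit 360154, nat_lit 419641, nat_lit 295258, nat_lit 194623, nat_lit 144152, nat_lit 129882,
  nat_lit 524061, nat_lit 477101, nat_lit 229885, nat_lit 147194, nat_lit 119918, nat_lit 104941,
  nat_lit 51721, nat_lit 770004, nat_lit 467400, nat_lit 196590, nat_lit 135071, nat_lit 107001,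
  nat_lit 93269, nat_lit 89799, nat_lit 1195630, nat_lit 450186, nat_lit 183597, nat_lit 127140,
  nat_lit 103376, nat_lit 90095, nat_lit 83240, nat_lit 41204, nat_lit 849238, nat_lit 435266,
  nat_lit 177652, nat_lit 125797, nat_lit 101402, nat_lit 88598, nat_lit 82171, nat_lit 78045,
  nat_lit 88118, nat_lit 124709, nat_lit 100396, nat_lit 89085, nat_lit 77814, nat_lit 77347,
  nat_lit 36420, nat_lit 50256, nat_lit 86804, nat_lit 79850, nat_lit 76154, nat_lit 71536,
  nat_lit 40655, nat_lit 74372, nat_lit 74680, nat_lit 35699, nat_lit 36353, nat_lit 68241,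
  nat_lit 11636],
   [nat_lit 1530298, nat_lit 1388433, nat_lit 1194110, nat_lit 325317, nat_lit 922248,
  nat_lit 407061, nat_lit 765450, nat_lit 281481, nat_lit 120679, nat_lit 679686, nat_lit 217737,
  nat_lit 160519, nat_lit 625871, nat_lit 182051, nat_lit 116315, nat_lit 59282, nat_lit 584445,
  nat_lit 155902, nat_lit 95195, nat_lit 85628, nat_lit 559122, nat_lit 139857, nat_lit 80370,
  nat_lit 68826, nat_lit 32732, nat_lit 543565, nat_lit 127288, nat_lit 70236, nat_lit 58903,
  nat_lit 51933, nat_lit 541755, nat_lit 119967, nat_lit 65803, nat_lit 53769, nat_lit 48095,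
  nat_lit 21681, nat_lit 531911, nat_lit 111881, nat_lit 59257, nat_lit 45727, nat_lit 40507,
  nat_lit 35812, nat_lit 538287, nat_lit 107099, nat_lit 55504, nat_lit 43386, nat_lit 38192,
  nat_lit 32474, nat_lit 16195, nat_lit 542931, nat_lit 103136, nat_lit 53409, nat_lit 40732,
  nat_lit 35453, nat_lit 29473, nat_lit 28326, nat_lit 551274, nat_lit 100877, nat_lit 51941,
  nat_lit 38766, nat_lit 33226, nat_lit 28061, nat_lit 25858, nat_lit 13179, nat_lit 283679,
  nat_lit 99822, nat_lit 51505, nat_lit 37764, nat_lit 33072, nat_lit 26866, nat_lit 25122,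
  nat_lit 24003, nat_lit 25589, nat_lit 36961, nat_lit 31809, nat_lit 26222, nat_lit 23349,
  nat_lit 22501, nat_lit 10842, nat_lit 15585, nat_lit 25616, nat_lit 22567, nat_lit 22487,
  nat_lit 20827, nat_lit 11201, nat_lit 21708, nat_lit 20965, nat_lit 10072, nat_lit 10019,
  nat_lit 19392, nat_lit 3187])]

theorem run77 : run W77 data77 = true := by decide +kernel

end Vale.Agent.P154.AF.Eng
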