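import Vale.Agent.P154AF.Eng
import Vale.Agent.P154AF.Run77

/-! Run data, generations 126 to 133 (helper file). -/

namespace Vale.Agent.P154.AF.Eng

def W126 : List Nat :=
  [nat_lit 1087, nat_lit 6117, nat_lit 22053, nat_lit 25056, nat_lit 37753, nat_lit 128539,
  nat_lit 56937, nat_lit 188995, nat_lit 117587, nat_lit 74244, nat_lit 231049, nat_lit 273140,
  nat_lit 90149, nat_lit 255886, nat_lit 289593, nat_lit 143234, nat_lit 104510, nat_lit 270511,
  nat_lit 288669, nat_lit 272415, nat_lit 115067, nat_lit 281399, nat_lit 283538, nat_lit 263572,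
  nat_lit 131450, nat_lit 126067, nat_lit 286959, nat_lit 274397, nat_lit 254337, nat_lit 244926,
  nat_lit 136582, nat_lit 292677, nat_lit 272616, nat_lit 250235, nat_lit 235850, nat_lit 120108,
  nat_lit 143391, nat_lit 292489, nat_lit 263261, nat_lit 239438, nat_lit 220736, nat_lit 216895,
  nat_lit 149574, nat_lit 294083, nat_lit 259496, nat_lit 232859, nat_lit 216135, nat_lit 205830,
  nat_lit 104627, nat_lit 153757, nat_lit 293918, nat_lit 254648, nat_lit 229193, nat_lit 209074,
  nat_lit 198696, nat_lit 195145, nat_lit 157239, nat_lit 292613, nat_lit 252835, nat_lit 224772,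
  nat_lit 204536, nat_lit 193222, nat_lit 187019, nat_lit 93566, nat_lit 79027, nat_lit 292565,
  nat_lit 254438, nat_lit 222614, nat_lit 204042, nat_lit 189478, nat_lit 181890, nat_lit 178963,
  nat_lit 126167, nat_lit 219694, nat_lit 199500, nat_lit 186610, nat_lit 178734, nat_lit 175475,
  nat_lit 85945, nat_lit 100678, nat_lit 184331, nat_lit 174530, nat_lit 171157, nat_lit 166859,
  nat_lit 89471, nat_lit 168519, nat_lit 166275, nat_lit 82273, nat_lit 82489, nat_lit 161991,
  nat_lit 27150]

def data126 : List (List Nat × List Nat) := [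
  ([nat_lit 43, nat_lit 0, nat_lit 5, nat_lit 3, nat_lit 22, nat_lit 54, nat_lit 57, nat_lit 243,
  nat_lit 225, nat_lit 118, nat_lit 742, nat_lit 2094, nat_lit 189, nat_lit 1552, nat_lit 5802,
  nat_lit 4367, nat_lit 274, nat_lit 2983, nat_lit 12545, nat_lit 22551, nat_lit 405,
  nat_lit 5774, nat_lit 23557, nat_lit 44911, nat_lit 27212, nat_lit 730, nat_lit 11280,
  nat_lit 44012, nat_lit 81124, nat_lit 103022, nat_lit 1430, nat_lit 24035, nat_lit 86443,
  nat_lit 150782, nat_lit 191980, nat_lit 103033, nat_lit 3523, nat_lit 58626, nat_lit 171209,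
  nat_lit 253877, nat_lit 293437, nat_lit 307717, nat_lit 11652, nat_lit 131272, nat_lit 272240,
  nat_lit 331448, nat_lit 349734, nat_lit 357579, nat_lit 180323, nat_lit 32839, nat_lit 221372,
  nat_lit 343271, nat_lit 370180, nat_lit 372979, nat_lit 376016, nat_lit 374209, nat_lit 59575,
  nat_lit 296051, nat_lit 382344, nat_lit 389460, nat_lit 386674, nat_lit 383666, nat_lit 379808,
  nat_lit 190225, nat_lit 36149, nat_lit 334914, nat_lit 403005, nat_lit 400396, nat_lit 394062,
  nat_lit 386291, nat_lit 381867, nat_lit 380975, nat_lit 204522, nat_lit 405437, nat_lit 395794,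
  nat_lit 388413, nat_lit 383015, nat_lit 379696, nat_lit 189531, nat_lit 198204, nat_lit 388983,
  nat_lit 382427, nat_lit 378124, nat_lit 376130, nat_lit 192613, nat_lit 377148, nat_lit 375095,
  nat_lit 187007, nat_lit 187466, nat_lit 373082, nat_lit 61965],
   [nat_lit 830, nat_lit 4596, nat_lit 17503, nat_lit 20399, nat_lit 31298, nat_lit 111823,
  nat_lit 48810, nat_lit 171394, nat_lit 108317, nat_lit 65083, nat_lit 215013, nat_lit 260565,
  nat_lit 80405, nat_lit 242253, nat_lit 281870, nat_lit 140572, nat_lit 94461, nat_lit 259345,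
  nat_lit 284558, nat_lit 271280, nat_lit 104932, nat_lit 272284, nat_lit 282066, nat_lit 264765,
  nat_lit 132660, nat_lit 115869, nat_lit 279602, nat_lit 274654, nat_lit 257291, nat_lit 249085,
  nat_lit 126246, nat_lit 286718, nat_lit 274065, nat_lit 254387, nat_lit 241162, nat_lit 123011,
  nat_lit 133149, nat_lit 287680, nat_lit 265704, nat_lit 244363, nat_lit 226669, nat_lit 223163,
  nat_lit 139320, nat_lit 290089, nat_lit 262606, nat_lit 238250, nat_lit 222651, nat_lit 212616,
  nat_lit 108166, nat_lit 143506, nat_lit 290552, nat_lit 258112, nat_lit 234937, nat_lit 215885,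
  nat_lit 205791, nat_lit 202400, nat_lit 146934, nat_lit 289655, nat_lit 256620, nat_lit 230721,
  nat_lit 211596, nat_lit 200553, nat_lit 194395, nat_lit 97384, nat_lit 73871, nat_lit 289806,
  nat_lit 258456, nat_lit 228672, nat_lit 211238, nat_lit 196859, nat_lit 189235, nat_lit 186573,
  nat_lit 128179, nat_lit 225801, nat_lit 206838, nat_lit 194144, nat_lit 186180, nat_lit 183270,
  nat_lit 89777, nat_lit 104349, nat_lit 191781, nat_lit 181967, nat_lit 178885, nat_lit 174524,
  nat_lit 93323, nat_lit 176193, nat_lit 174040, nat_lit 86120, nat_lit 86390, nat_lit 169641,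
  nat_lit 28465]),
  ([nat_lit 49, nat_lit 0, nat_lit 3, nat_lit 1, nat_lit 15, nat_lit 34, nat_lit 39, nat_lit 165,
  nat_lit 154, nat_lit 84, nat_lit 537, nat_lit 1554, nat_lit 138, nat_lit 1170, nat_lit 4558,
  nat_lit 3488, nat_lit 203, nat_lit 2319, nat_lit 10291, nat_lit 19014, nat_lit 303,
  nat_lit 4625, nat_lit 19991, nat_lit 39408, nat_lit 24144, nat_lit 555, nat_lit 9284,
  nat_lit 38486, nat_lit 73409, nat_lit 94632, nat_lit 1106, nat_lit 20357, nat_lit 77608,
  nat_lit 139951, nat_lit 181149, nat_lit 97714, nat_lit 2797, nat_lit 51229, nat_lit 158163,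
  nat_lit 242250, nat_lit 284890, nat_lit 301003, nat_lit 9603, nat_lit 118346, nat_lit 258489,
  nat_lit 324187, nat_lit 347177, nat_lit 357557, nat_lit 180751, nat_lit 27967, nat_lit 204165,
  nat_lit 332713, nat_lit 367882, nat_lit 375329, nat_lit 380999, nat_lit 380354, nat_lit 51572,
  nat_lit 277018, nat_lit 375274, nat_lit 390665, nat_lit 392254, nat_lit 391721, nat_lit 389146,
  nat_lit 195129, nat_lit 31429, nat_lit 315422, nat_lit 398093, nat_lit 403670, nat_lit 401668,
  nat_lit 396359, nat_lit 393221, nat_lit 393052, nat_lit 202418, nat_lit 409800, nat_lit 404455,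
  nat_lit 399586, nat_lit 395693, nat_lit 393194, nat_lit 196423, nat_lit 202674, nat_lit 400741,
  nat_lit 395789, nat_lit 392379, nat_lit 390966, nat_lit 199406, nat_lit 391827, nat_lit 390287,
  nat_lit 194742, nat_lit 195210, nat_lit 388923, nat_lit 64621],
   [nat_lit 651, nat_lit 3442, nat_lit 13821, nat_lit 16512, nat_lit 25831, nat_lit 96768,
  nat_lit 41685, nat_lit 154733, nat_lit 99329, nat_lit 56871, nat_lit 199320, nat_lit 247648,
  nat_lit 71524, nat_lit 228570, nat_lit 273491, nat_lit 137560, nat_lit 85180, nat_lit 247884,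
  nat_lit 279752, nat_lit 269485, nat_lit 95492, nat_lit 262737, nat_lit 279925, nat_lit 265417,
  nat_lit 133580, nat_lit 106301, nat_lit 271734, nat_lit 274310, nat_lit 259808, nat_lit 252827,
  nat_lit 116496, nat_lit 280210, nat_lit 274966, nat_lit 258180, nat_lit 246179, nat_lit 125769,
  nat_lit 123447, nat_lit 282306, nat_lit 267660, nat_lit 248996, nat_lit 232397, nat_lit 229267,
  nat_lit 129583, nat_lit 285523, nat_lit 265270, nat_lit 243412, nat_lit 229031, nat_lit 219304,
  nat_lit 111678, nat_lit 133752, nat_lit 286612, nat_lit 261164, nat_lit 240489, nat_lit 222613,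
  nat_lit 212844, nat_lit 209662, nat_lit 137119, nat_lit 286130, nat_lit 260018, nat_lit 236502,
  nat_lit 218618, nat_lit 207882, nat_lit 201819, nat_lit 101237, nat_lit 68960, nat_lit 286480,
  nat_lit 262088, nat_lit 234585, nat_lit 218414, nat_lit 204265, nat_lit 196655, nat_lit 194291,
  nat_lit 130006, nat_lit 231767, nat_lit 214187, nat_lit 201724, nat_lit 193719, nat_lit 191202,
  nat_lit 93673, nat_lit 108022, nat_lit 199284, nat_lit 189511, nat_lit 186766, nat_lit 182345,
  nat_lit 97228, nat_lit 184027, nat_lit 181975, nat_lit 90055, nat_lit 90375, nat_lit 177476,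
  nat_lit 29813]),
  ([nat_lit 44, nat_lit 0, nat_lit 2, nat_lit 1, nat_lit 10, nat_lit 21, nat_lit 27, nat_lit 112,
  nat_lit 104, nat_lit 61, nat_lit 386, nat_lit 1144, nat_lit 102, nat_lit 875, nat_lit 3556,
  nat_lit 2766, nat_lit 151, nat_lit 1793, nat_lit 8391, nat_lit 15933, nat_lit 228,
  nat_lit 3685, nat_lit 16877, nat_lit 34401, nat_lit 21313, nat_lit 424, nat_lit 7605,
  nat_lit 33502, nat_lit 66146, nat_lit 86575, nat_lit 855, nat_lit 17172, nat_lit 69412,
  nat_lit 129452, nat_lit 170381, nat_lit 92379, nat_lit 2215, nat_lit 44613, nat_lit 145635,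
  nat_lit 230455, nat_lit 275804, nat_lit 293625, nat_lit 7890, nat_lit 106382, nat_lit 244705,
  nat_lit 316235, nat_lit 343813, nat_lit 356729, nat_lit 180781, nat_lit 23748, nat_lit 187791,
  nat_lit 321609, nat_lit 364775, nat_lit 376949, nat_lit 385341, nat_lit 385922, nat_lit 44534,
  nat_lit 258553, nat_lit 367439, nat_lit 391111, nat_lit 397254, nat_lit 399344, nat_lit 398138,
  nat_lit 199879, nat_lit 27263, nat_lit 296333, nat_lit 392352, nat_lit 406261, nat_lit 408824,
  nat_lit 406153, nat_lit 404416, nat_lit 405031, nat_lit 199894, nat_lit 413530, nat_lit 412746,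
  nat_lit 410595, nat_lit 408334, nat_lit 406753, nat_lit 203355, nat_lit 206970, nat_lit 412389,
  nat_lit 409199, nat_lit 406791, nat_lit 406007, nat_lit 206232, nat_lit 406704, nat_lit 405757,
  nat_lit 202626, nat_lit 203102, nat_lit 405104, nat_lit 67340],
   [nat_lit 497, nat_lit 2572, nat_lit 10865, nat_lit 13298, nat_lit 21235, nat_lit 83328,
  nat_lit 35480, nat_lit 139100, nat_lit 90697, nat_lit 49551, nat_lit 184099, nat_lit 234527,
  nat_lit 63472, nat_lit 214966, nat_lit 264555, nat_lit 134231, nat_lit 76648, nat_lit 236241,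
  nat_lit 274308, nat_lit 267052, nat_lit 86739, nat_lit 252855, nat_lit 277149, nat_lit 265530,
  nat_lit 134208, nat_lit 97360, nat_lit 263441, nat_lit 273384, nat_lit 261877, nat_lit 256135,
  nat_lit 107335, nat_lit 273224, nat_lit 275327, nat_lit 261598, nat_lit 250875, nat_lit 128374,
  nat_lit 114291, nat_lit 276428, nat_lit 269128, nat_lit 253319, nat_lit 237895, nat_lit 235187,
  nat_lit 120370, nat_lit 280438, nat_lit 267485, nat_lit 248325, nat_lit 235248, nat_lit 225872,
  nat_lit 115153, nat_lit 124506, nat_lit 282149, nat_lit 263800, nat_lit 245828, nat_lit 229234,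
  nat_lit 219835, nat_lit 216910, nat_lit 127805, nat_lit 282083, nat_lit 263021, nat_lit 242096,
  nat_lit 225579, nat_lit 215189, nat_lit 209274, nat_lit 105116, nat_lit 64299, nat_lit 282633,
  nat_lit 265326, nat_lit 240333, nat_lit 225546, nat_lit 211675, nat_lit 204132, nat_lit 202100,
  nat_lit 131643, nat_lit 237573, nat_lit 221521, nat_lit 209332, nat_lit 201335, nat_lit 199256,
  nat_lit 97626, nat_lit 111686, nat_lit 206823, nat_lit 197148, nat_lit 194785, nat_lit 190310,
  nat_lit 101178, nat_lit 192009, nat_lit 190067, nat_lit 94071, nat_lit 94436, nat_lit 185485,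
  nat_lit 31191]),
  ([nat_lit 45, nat_lit 0, nat_lit 1, nat_lit 0, nat_lit 6, nat_lit 13, nat_lit 19, nat_lit 75,
  nat_lit 70, nat_lit 43, nat_lit 276, nat_lit 836, nat_lit 74, nat_lit 651, nat_lit 2757,
  nat_lit 2178, nat_lit 111, nat_lit 1378, nat_lit 6803, nat_lit 13274, nat_lit 170,
  nat_lit 2922, nat_lit 14179, nat_lit 29885, nat_lit 18724, nat_lit 320, nat_lit 6204,
  nat_lit 29043, nat_lit 59363, nat_lit 78898, nat_lit 657, nat_lit 14434, nat_lit 61864,
  nat_lit 119349, nat_lit 159763, nat_lit 87072, nat_lit 1745, nat_lit 38733, nat_lit 133691,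
  nat_lit 218599, nat_lit 266276, nat_lit 285668, nat_lit 6457, nat_lit 95373, nat_lit 231009,
  nat_lit 307682, nat_lit 339687, nat_lit 355119, nat_lit 180422, nat_lit 20104, nat_lit 172306,
  nat_lit 310073, nat_lit 360902, nat_lit 377843, nat_lit 389029, nat_lit 390893, nat_lit 38362,
  nat_lit 240751, nat_lit 358924, nat_lit 390808, nat_lit 401657, nat_lit 406506, nat_lit 406750,
  nat_lit 204459, nat_lit 23593, nat_lit 277760, nat_lit 385846, nat_lit 408167, nat_lit 415504,
  nat_lit 415641, nat_lit 415418, nat_lit 416875, nat_lit 196980, nat_lit 416615, nat_lit 420636,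
  nat_lit 421405, nat_lit 420906, nat_lit 420337, nat_lit 210311, nat_lit 211076, nat_lit 423894,
  nat_lit 422623, nat_lit 421329, nat_lit 421223, nat_lit 213074, nat_lit 421750, nat_lit 421478,
  nat_lit 210646, nat_lit 211129, nat_lit 421599, nat_lit 70116],
   [nat_lit 406, nat_lit 1915, nat_lit 8502, nat_lit 10660, nat_lit 17387, nat_lit 71428,
  nat_lit 30097, nat_lit 124551, nat_lit 82480, nat_lit 43051, nat_lit 169458, nat_lit 221340,
  nat_lit 56195, nat_lit 201559, nat_lit 255166, nat_lit 130619, nat_lit 68830, nat_lit 224528,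
  nat_lit 268294, nat_lit 264015, nat_lit 78647, nat_lit 242738, nat_lit 273779, nat_lit 265113,
  nat_lit 134548, nat_lit 89029, nat_lit 254808, nat_lit 271899, nat_lit 263493, nat_lit 259002,
  nat_lit 98750, nat_lit 265835, nat_lit 275163, nat_lit 264630, nat_lit 255233, nat_lit 130818,
  nat_lit 105672, nat_lit 270112, nat_lit 270116, nat_lit 257317, nat_lit 243143, nat_lit 240903,
  nat_lit 111672, nat_lit 274895, nat_lit 269252, nat_lit 252973, nat_lit 241279, nat_lit 232299,
  nat_lit 118581, nat_lit 115759, nat_lit 277217, nat_lit 266018, nat_lit 250939, nat_lit 235726,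
  nat_lit 226743, nat_lit 224125, nat_lit 118985, nat_lit 277564, nat_lit 265628, nat_lit 247486,
  nat_lit 232456, nat_lit 222455, nat_lit 216744, nat_lit 109011, nat_lit 59883, nat_lit 278314,
  nat_lit 268166, nat_lit 245900, nat_lit 232612, nat_lit 219072, nat_lit 211654, nat_lit 209984,
  nat_lit 133089, nat_lit 243202, nat_lit 228818, nat_lit 216949, nat_lit 209014, nat_lit 207415,
  nat_lit 101630, nat_lit 115330, nat_lit 214379, nat_lit 204863, nat_lit 202926, nat_lit 198405,
  nat_lit 105167, nat_lit 200124, nat_lit 198301, nat_lit 98162, nat_lit 98567, nat_lit 193657,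
  nat_lit 32597]),
  ([nat_lit 47, nat_lit 0, nat_lit 0, nat_lit 0, nat_lit 4, nat_lit 8, nat_lit 13, nat_lit 50,
  nat_lit 47, nat_lit 31, nat_lit 195, nat_lit 607, nat_lit 55, nat_lit 481, nat_lit 2124,
  nat_lit 1705, nat_lit 84, nat_lit 1054, nat_lit 5487, nat_lit 11000, nat_lit 129, nat_lit 2307,
  nat_lit 11857, nat_lit 25843, nat_lit 16376, nat_lit 245, nat_lit 5040, nat_lit 25079,
  nat_lit 53074, nat_lit 71638, nat_lit 507, nat_lit 12090, nat_lit 54954, nat_lit 109692,
  nat_lit 149366, nat_lit 81834, nat_lit 1375, nat_lit 33532, nat_lit 122373, nat_lit 206782,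
  nat_lit 256401, nat_lit 277215, nat_lit 5274, nat_lit 85291, nat_lit 217504, nat_lit 298618,
  nat_lit 334851, nat_lit 352759, nat_lit 179686, nat_lit 16981, nat_lit 157735, nat_lit 298217,
  nat_lit 356311, nat_lit 378023, nat_lit 392054, nat_lit 395251, nat_lit 32983, nat_lit 223683,
  nat_lit 349816, nat_lit 389776, nat_lit 405452, nat_lit 413183, nat_lit 414955, nat_lit 208853,
  nat_lit 20380, nat_lit 259791, nat_lit 378644, nat_lit 409391, nat_lit 421685, nat_lit 424791,
  nat_lit 426191, nat_lit 428550, nat_lit 193705, nat_lit 419051, nat_lit 428101, nat_lit 431987,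
  nat_lit 433374, nat_lit 433911, nat_lit 217273, nat_lit 214979, nat_lit 435223, nat_lit 436030,
  nat_lit 435960, nat_lit 436581, nat_lit 219916, nat_lit 436934, nat_lit 437420, nat_lit 218788,
  nat_lit 219276, nat_lit 438381, nat_lit 72946],
   [nat_lit 331, nat_lit 1425, nat_lit 6630, nat_lit 8510, nat_lit 14191, nat_lit 60969,
  nat_lit 25460, nat_lit 111109, nat_lit 74721, nat_lit 37316, nat_lit 155477, nat_lit 208208,
  nat_lit 49657, nat_lit 188446, nat_lit 245420, nat_lit 126761, nat_lit 61705, nat_lit 212840,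
  nat_lit 261774, nat_lit 260409, nat_lit 71202, nat_lit 232473, nat_lit 269856, nat_lit 264179,
  nat_lit 134604, nat_lit 81302, nat_lit 245914, nat_lit 269882, nat_lit 264654, nat_lit 261421,
  nat_lit 90741, nat_lit 258113, nat_lit 274491, nat_lit 267267, nat_lit 259235, nat_lit 133095,
  nat_lit 97595, nat_lit 263420, nat_lit 270633, nat_lit 260979, nat_lit 248121, nat_lit 246399,
  nat_lit 103498, nat_lit 268949, nat_lit 270575, nat_lit 257340, nat_lit 247103, nat_lit 238567,
  nat_lit 121952, nat_lit 107521, nat_lit 271866, nat_lit 267821, nat_lit 255803, nat_lit 242066,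
  nat_lit 233549, nat_lit 231288, nat_lit 110668, nat_lit 272621, nat_lit 267836, nat_lit 252655,
  nat_lit 239227, nat_lit 229659, nat_lit 224211, nat_lit 112911, nat_lit 55719, nat_lit 273570,
  nat_lit 270606, nat_lit 251267, nat_lit 239590, nat_lit 226437, nat_lit 219204, nat_lit 217926,
  nat_lit 134342, nat_lit 248635, nat_lit 236056, nat_lit 224555, nat_lit 216743, nat_lit 215661,
  nat_lit 105675, nat_lit 118943, nat_lit 221936, nat_lit 212642, nat_lit 211172, nat_lit 206617,
  nat_lit 109187, nat_lit 208357, nat_lit 206664, nat_lit 102322, nat_lit 102761, nat_lit 201978,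
  nat_lit 34030]),
  ([nat_lit 44, nat_lit 0, nat_lit 0, nat_lit 0, nat_lit 3, nat_lit 5, nat_lit 9, nat_lit 33,
  nat_lit 31, nat_lit 23, nat_lit 138, nat_lit 438, nat_lit 41, nat_lit 354, nat_lit 1627,
  nat_lit 1328, nat_lit 64, nat_lit 802, nat_lit 4404, nat_lit 9070, nat_lit 98, nat_lit 1814,
  nat_lit 9876, nat_lit 22254, nat_lit 14262, nat_lit 187, nat_lit 4081, nat_lit 21579,
  nat_lit 47284, nat_lit 64822, nat_lit 390, nat_lit 10098, nat_lit 48669, nat_lit 100526,
  nat_lit 139260, nat_lit 76702, nat_lit 1081, nat_lit 28958, nat_lit 111719, nat_lit 195097,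
  nat_lit 246276, nat_lit 268355, nat_lit 4297, nat_lit 76109, nat_lit 204287, nat_lit 289137,
  nat_lit 329364, nat_lit 349688, nat_lit 178589, nat_lit 14309, nat_lit 144097, nat_lit 286149,
  nat_lit 351058, nat_lit 377506, nat_lit 394418, nat_lit 398989, nat_lit 28304, nat_lit 207408,
  nat_lit 340207, nat_lit 388041, nat_lit 408634, nat_lit 419358, nat_lit 422727, nat_lit 213048,
  nat_lit 17572, nat_lit 242504, nat_lit 370820, nat_lit 409944, nat_lit 427353, nat_lit 433577,
  nat_lit 436707, nat_lit 440023, nat_lit 190106, nat_lit 420842, nat_lit 435118, nat_lit 442309,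
  nat_lit 445706, nat_lit 447444, nat_lit 224225, nat_lit 218668, nat_lit 446345, nat_lit 449386,
  nat_lit 450654, nat_lit 452051, nat_lit 226742, nat_lit 452225, nat_lit 453555, nat_lit 227036,
  nat_lit 227529, nat_lit 455423, nat_lit 75826],
   [nat_lit 272, nat_lit 1060, nat_lit 5154, nat_lit 6770, nat_lit 11548, nat_lit 51845,
  nat_lit 21481, nat_lit 98782, nat_lit 67452, nat_lit 32273, nat_lit 142226, nat_lit 195249,
  nat_lit 43800, nat_lit 175719, nat_lit 235421, nat_lit 122697, nat_lit 55229, nat_lit 201273,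
  nat_lit 254821, nat_lit 256280, nat_lit 64372, nat_lit 222150, nat_lit 265431, nat_lit 262748,
  nat_lit 134386, nat_lit 74153, nat_lit 236841, nat_lit 267367, nat_lit 265366, nat_lit 263392,
  nat_lit 83287, nat_lit 250131, nat_lit 273334, nat_lit 269504, nat_lit 262870, nat_lit 135201,
  nat_lit 90041, nat_lit 256418, nat_lit 270692, nat_lit 264294, nat_lit 252815, nat_lit 251662,
  nat_lit 95830, nat_lit 262662, nat_lit 271464, nat_lit 261413, nat_lit 252703, nat_lit 244660,
  nat_lit 125257, nat_lit 99778, nat_lit 266155, nat_lit 269215, nat_lit 260407, nat_lit 248235,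
  nat_lit 240238, nat_lit 238380, nat_lit 102841, nat_lit 267308, nat_lit 269650, nat_lit 257588,
  nat_lit 245872, nat_lit 236785, nat_lit 231659, nat_lit 116806, nat_lit 51797, nat_lit 268454,
  nat_lit 272648, nat_lit 256421, nat_lit 246461, nat_lit 233754, nat_lit 226767, nat_lit 225909,
  nat_lit 135403, nat_lit 253858, nat_lit 243213, nat_lit 232135, nat_lit 224505, nat_lit 223977,
  nat_lit 109756, nat_lit 122516, nat_lit 229477, nat_lit 220471, nat_lit 219508, nat_lit 214931,
  nat_lit 113230, nat_lit 216694, nat_lit 215142, nat_lit 106544, nat_lit 107009, nat_lit 210437,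
  nat_lit 35486]),
  ([nat_lit 39, nat_lit 0, nat_lit 0, nat_lit 0, nat_lit 2, nat_lit 3, nat_lit 7, nat_lit 22,
  nat_lit 20, nat_lit 17, nat_lit 97, nat_lit 314, nat_lit 31, nat_lit 259, nat_lit 1241,
  nat_lit 1028, nat_lit 48, nat_lit 609, nat_lit 3520, nat_lit 7446, nat_lit 75, nat_lit 1422,
  nat_lit 8195, nat_lit 19088, nat_lit 12373, nat_lit 143, nat_lit 3295, nat_lit 18509,
  nat_lit 41989, nat_lit 58467, nat_lit 301, nat_lit 8412, nat_lit 42985, nat_lit 91878,
  nat_lit 129500, nat_lit 71706, nat_lit 848, nat_lit 24954, nat_lit 101747, nat_lit 183627,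
  nat_lit 235991, nat_lit 259175, nat_lit 3493, nat_lit 67784, nat_lit 191437, nat_lit 279331,
  nat_lit 323292, nat_lit 345951, nat_lit 177149, nat_lit 12034, nat_lit 131395, nat_lit 273974,
  nat_lit 345202, nat_lit 376319, nat_lit 396127, nat_lit 402103, nat_lit 24249, nat_lit 191968,
  nat_lit 330188, nat_lit 385638, nat_lit 411205, nat_lit 425015, nat_lit 430047, nat_lit 217031,
  nat_lit 15128, nat_lit 225959, nat_lit 362457, nat_lit 409842, nat_lit 432494, nat_lit 441976,
  nat_lit 446936, nat_lit 451265, nat_lit 186219, nat_lit 421996, nat_lit 441670, nat_lit 452346,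
  nat_lit 457873, nat_lit 460901, nat_lit 231152, nat_lit 222135, nat_lit 457233, nat_lit 462662,
  nat_lit 465378, nat_lit 467602, nat_lit 233537, nat_lit 467591, nat_lit 469853, nat_lit 235377,
  nat_lit 235872, nat_lit 472697, nat_lit 78750],
   [nat_lit 222, nat_lit 788, nat_lit 3996, nat_lit 5370, nat_lit 9373, nat_lit 43935,
  nat_lit 18083, nat_lit 87549, nat_lit 60690, nat_lit 27859, nat_lit 129749, nat_lit 182562,
  nat_lit 38573, nat_lit 163449, nat_lit 225262, nat_lit 118468, nat_lit 49365, nat_lit 189907,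
  nat_lit 247507, nat_lit 251675, nat_lit 58127, nat_lit 211848, nat_lit 260557, nat_lit 260842,
  nat_lit 133905, nat_lit 67560, nat_lit 227665, nat_lit 264389, nat_lit 265634, nat_lit 264920,
  nat_lit 76370, nat_lit 241959, nat_lit 271718, nat_lit 271340, nat_lit 266130, nat_lit 137133,
  nat_lit 82998, nat_lit 249170, nat_lit 270313, nat_lit 267258, nat_lit 257212, nat_lit 256679,
  nat_lit 88658, nat_lit 256094, nat_lit 271930, nat_lit 265182, nat_lit 258062, nat_lit 250562,
  nat_lit 128487, nat_lit 92520, nat_lit 260140, nat_lit 270209, nat_lit 264740, nat_lit 254216,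
  nat_lit 246792, nat_lit 245385, nat_lit 95496, nat_lit 261679, nat_lit 271077, nat_lit 262274,
  nat_lit 252371, nat_lit 243816, nat_lit 239071, nat_lit 120686, nat_lit 48116, nat_lit 263019,
  nat_lit 274300, nat_lit 261347, nat_lit 253205, nat_lit 241008, nat_lit 234329, nat_lit 233917,
  nat_lit 136273, nat_lit 258859, nat_lit 250271, nat_lit 239672, nat_lit 232288, nat_lit 232347,
  nat_lit 113864, nat_lit 126037, nat_lit 236987, nat_lit 228334, nat_lit 227916, nat_lit 223334,
  nat_lit 117290, nat_lit 225117, nat_lit 223720, nat_lit 110821, nat_lit 111306, nat_lit 219019,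
  nat_lit 36964])]

theorem run126 : run W126 data126 = true := by decide +kernel

end Vale.Agent.P154.AF.Eng
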