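import Vale.Agent.P154AF.Eng

/-! Run data, generations 35 to 42 (helper file). -/

namespace Vale.Agent.P154.AF.Eng

def W35 : List Nat :=
  [nat_lit 5148393, nat_lit 1529188, nat_lit 1173441, nat_lit 111631, nat_lit 878543,
  nat_lit 127424, nat_lit 712658, nat_lit 85401, nat_lit 34301, nat_lit 631300, nat_lit 63892,
  nat_lit 46412, nat_lit 581602, nat_lit 53161, nat_lit 32923, nat_lit 17468, nat_lit 546960,
  nat_lit 45236, nat_lit 26892, nat_lit 24970, nat_lit 527878, nat_lit 40538, nat_lit 22707,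
  nat_lit 19198, nat_lit 9797, nat_lit 521866, nat_lit 36844, nat_lit 19589, nat_lit 16312,
  nat_lit 14930, nat_lit 533074, nat_lit 34762, nat_lit 18446, nat_lit 14901, nat_lit 13800,
  nat_lit 6159, nat_lit 520378, nat_lit 32286, nat_lit 16473, nat_lit 12479, nat_lit 11406,
  nat_lit 9892, nat_lit 536428, nat_lit 30781, nat_lit 15379, nat_lit 11734, nat_lit 10864,
  nat_lit 9021, nat_lit 4503, nat_lit 551385, nat_lit 29497, nat_lit 14758, nat_lit 10938,
  nat_lit 10090, nat_lit 8027, nat_lit 7822, nat_lit 587623, nat_lit 28876, nat_lit 14405,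
  nat_lit 10447, nat_lit 9334, nat_lit 7794, nat_lit 6926, nat_lit 3688, nat_lit 342996,
  nat_lit 28779, nat_lit 14417, nat_lit 10112, nat_lit 9488, nat_lit 7481, nat_lit 6933,
  nat_lit 6645, nat_lit 7091, nat_lit 9883, nat_lit 9022, nat_lit 7306, nat_lit 6273,
  nat_lit 6189, nat_lit 2944, nat_lit 4362, nat_lit 7035, nat_lit 6057, nat_lit 6202,
  nat_lit 5725, nat_lit 2972, nat_lit 6019, nat_lit 5843, nat_lit 2784, nat_lit 2743,
  nat_lit 5215, nat_lit 869]

def data35 : List (List Nat × List Nat) := [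
  ([nat_lit 797799, nat_lit 502401, nat_lit 437073, nat_lit 80329, nat_lit 356410, nat_lit 139468,
  nat_lit 314406, nat_lit 120043, nat_lit 62203, nat_lit 331986, nat_lit 109952, nat_lit 104319,
  nat_lit 303209, nat_lit 110400, nat_lit 96006, nat_lit 44494, nat_lit 339224, nat_lit 119568,
  nat_lit 100782, nat_lit 80456, nat_lit 372545, nat_lit 141057, nat_lit 101522, nat_lit 85436,
  nat_lit 40404, nat_lit 429197, nat_lit 167942, nat_lit 120417, nat_lit 105044, nat_lit 101395,
  nat_lit 571673, nat_lit 231817, nat_lit 179010, nat_lit 157413, nat_lit 142544, nat_lit 68153,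
  nat_lit 599171, nat_lit 289681, nat_lit 164680, nat_lit 91323, nat_lit 57910, nat_lit 51006,
  nat_lit 755748, nat_lit 288210, nat_lit 105336, nat_lit 61921, nat_lit 50843, nat_lit 42812,
  nat_lit 21508, nat_lit 976558, nat_lit 245899, nat_lit 92616, nat_lit 62250, nat_lit 47524,
  nat_lit 40438, nat_lit 39702, nat_lit 1554029, nat_lit 220999, nat_lit 87435, nat_lit 62932,
  nat_lit 49378, nat_lit 41535, nat_lit 38371, nat_lit 18875, nat_lit 1824550, nat_lit 208977,
  nat_lit 87409, nat_lit 63899, nat_lit 52345, nat_lit 44181, nat_lit 40234, nat_lit 37502,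
  nat_lit 44311, nat_lit 64500, nat_lit 53428, nat_lit 48658, nat_lit 39068, nat_lit 39883,
  nat_lit 18093, nat_lit 26431, nat_lit 47249, nat_lit 43852, nat_lit 41893, nat_lit 39227,
  nat_lit 24355, nat_lit 40877, nat_lit 41390, nat_lit 19349, nat_lit 19525, nat_lit 35212,
  nat_lit 6031],
   [nat_lit 5072502, nat_lit 1538537, nat_lit 1180605, nat_lit 114686, nat_lit 883468,
  nat_lit 130855, nat_lit 716383, nat_lit 87679, nat_lit 35238, nat_lit 634211, nat_lit 65600,
  nat_lit 47639, nat_lit 584027, nat_lit 54564, nat_lit 33785, nat_lit 17920, nat_lit 548970,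
  nat_lit 46421, nat_lit 27586, nat_lit 25612, nat_lit 529573, nat_lit 41592, nat_lit 23285,
  nat_lit 19696, nat_lit 10043, nat_lit 523217, nat_lit 37793, nat_lit 20090, nat_lit 16733,
  nat_lit 15312, nat_lit 533984, nat_lit 35658, nat_lit 18917, nat_lit 15289, nat_lit 14153,
  nat_lit 6318, nat_lit 521440, nat_lit 33116, nat_lit 16894, nat_lit 12799, nat_lit 11697,
  nat_lit 10147, nat_lit 537341, nat_lit 31573, nat_lit 15769, nat_lit 12038, nat_lit 11138,
  nat_lit 9255, nat_lit 4619, nat_lit 552199, nat_lit 30256, nat_lit 15132, nat_lit 11221,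
  nat_lit 10343, nat_lit 8236, nat_lit 8022, nat_lit 587796, nat_lit 29618, nat_lit 14769,
  nat_lit 10716, nat_lit 9568, nat_lit 7993, nat_lit 7109, nat_lit 3781, nat_lit 341487,
  nat_lit 29518, nat_lit 14780, nat_lit 10372, nat_lit 9725, nat_lit 7673, nat_lit 7112,
  nat_lit 6814, nat_lit 7271, nat_lit 10138, nat_lit 9247, nat_lit 7494, nat_lit 6436,
  nat_lit 6347, nat_lit 3020, nat_lit 4470, nat_lit 7215, nat_lit 6214, nat_lit 6360,
  nat_lit 5872, nat_lit 3050, nat_lit 6173, nat_lit 5993, nat_lit 2856, nat_lit 2813,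
  nat_lit 5349, nat_lit 891]),
  ([nat_lit 774618, nat_lit 498213, nat_lit 434272, nat_lit 81342, nat_lit 354295, nat_lit 141479,
  nat_lit 312620, nat_lit 121815, nat_lit 63200, nat_lit 329900, nat_lit 111566, nat_lit 106022,
  nat_lit 301329, nat_lit 111955, nat_lit 97549, nat_lit 45222, nat_lit 336826, nat_lit 121178,
  nat_lit 102295, nat_lit 81734, nat_lit 369820, nat_lit 142807, nat_lit 102975, nat_lit 86677,
  nat_lit 40991, nat_lit 426003, nat_lit 169937, nat_lit 121969, nat_lit 106338, nat_lit 102576,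
  nat_lit 566317, nat_lit 234052, nat_lit 180741, nat_lit 158786, nat_lit 143723, nat_lit 68697,
  nat_lit 595889, nat_lit 292695, nat_lit 166714, nat_lit 92652, nat_lit 58922, nat_lit 51925,
  nat_lit 753127, nat_lit 291864, nat_lit 106938, nat_lit 62947, nat_lit 51655, nat_lit 43522,
  nat_lit 21858, nat_lit 975633, nat_lit 249627, nat_lit 93916, nat_lit 63136, nat_lit 48230,
  nat_lit 41043, nat_lit 40282, nat_lit 1553728, nat_lit 224597, nat_lit 88684, nat_lit 63685,
  nat_lit 50028, nat_lit 42102, nat_lit 38892, nat_lit 19135, nat_lit 1801769, nat_lit 212347,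
  nat_lit 88559, nat_lit 64659, nat_lit 52900, nat_lit 44717, nat_lit 40733, nat_lit 37979,
  nat_lit 44860, nat_lit 65236, nat_lit 53963, nat_lit 49111, nat_lit 39516, nat_lit 40323,
  nat_lit 18303, nat_lit 26726, nat_lit 47688, nat_lit 44260, nat_lit 42264, nat_lit 39552,
  nat_lit 24503, nat_lit 41250, nat_lit 41774, nat_lit 19535, nat_lit 19728, nat_lit 35598,
  nat_lit 6098],
   [nat_lit 4997926, nat_lit 1547396, nat_lit 1187477, nat_lit 117745, nat_lit 888211,
  nat_lit 134298, nat_lit 719983, nat_lit 89966, nat_lit 36180, nat_lit 637030, nat_lit 67316,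
  nat_lit 48872, nat_lit 586377, nat_lit 55975, nat_lit 34652, nat_lit 18374, nat_lit 550921,
  nat_lit 47613, nat_lit 28285, nat_lit 26258, nat_lit 531219, nat_lit 42652, nat_lit 23868,
  nat_lit 20198, nat_lit 10290, nat_lit 524528, nat_lit 38748, nat_lit 20594, nat_lit 17157,
  nat_lit 15697, nat_lit 534871, nat_lit 36560, nat_lit 19390, nat_lit 15679, nat_lit 14508,
  nat_lit 6479, nat_lit 522466, nat_lit 33951, nat_lit 17317, nat_lit 13122, nat_lit 11989,
  nat_lit 10403, nat_lit 538221, nat_lit 32369, nat_lit 16162, nat_lit 12344, nat_lit 11414,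
  nat_lit 9489, nat_lit 4735, nat_lit 552972, nat_lit 31020, nat_lit 15510, nat_lit 11506,
  nat_lit 10598, nat_lit 8447, nat_lit 8224, nat_lit 587934, nat_lit 30364, nat_lit 15136,
  nat_lit 10986, nat_lit 9803, nat_lit 8193, nat_lit 7292, nat_lit 3874, nat_lit 340035,
  nat_lit 30261, nat_lit 15145, nat_lit 10634, nat_lit 9963, nat_lit 7865, nat_lit 7292,
  nat_lit 6985, nat_lit 7452, nat_lit 10395, nat_lit 9473, nat_lit 7683, nat_lit 6600,
  nat_lit 6505, nat_lit 3096, nat_lit 4580, nat_lit 7397, nat_lit 6372, nat_lit 6519,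
  nat_lit 6020, nat_lit 3129, nat_lit 6327, nat_lit 6144, nat_lit 2928, nat_lit 2884,
  nat_lit 5484, nat_lit 914]),
  ([nat_lit 752166, nat_lit 493907, nat_lit 431386, nat_lit 82311, nat_lit 352127, nat_lit 143431,
  nat_lit 310797, nat_lit 123543, nat_lit 64178, nat_lit 327791, nat_lit 113145, nat_lit 107702,
  nat_lit 299437, nat_lit 113478, nat_lit 99074, nat_lit 45944, nat_lit 334430, nat_lit 122756,
  nat_lit 103791, nat_lit 83003, nat_lit 367103, nat_lit 144525, nat_lit 104415, nat_lit 87910,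
  nat_lit 41576, nat_lit 422822, nat_lit 171894, nat_lit 123507, nat_lit 107623, nat_lit 103751,
  nat_lit 561050, nat_lit 236245, nat_lit 182456, nat_lit 160152, nat_lit 144899, nat_lit 69242,
  nat_lit 592608, nat_lit 295659, nat_lit 168736, nat_lit 93979, nat_lit 59936, nat_lit 52846,
  nat_lit 750493, nat_lit 295475, nat_lit 108539, nat_lit 63974, nat_lit 52468, nat_lit 44235,
  nat_lit 22208, nat_lit 974625, nat_lit 253326, nat_lit 95215, nat_lit 64021, nat_lit 48937,
  nat_lit 41649, nat_lit 40863, nat_lit 1553174, nat_lit 228175, nat_lit 89929, nat_lit 64438,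
  nat_lit 50677, nat_lit 42670, nat_lit 39414, nat_lit 19396, nat_lit 1779503, nat_lit 215703,
  nat_lit 89707, nat_lit 65418, nat_lit 53457, nat_lit 45251, nat_lit 41232, nat_lit 38455,
  nat_lit 45410, nat_lit 65972, nat_lit 54499, nat_lit 49565, nat_lit 39964, nat_lit 40762,
  nat_lit 18513, nat_lit 27020, nat_lit 48128, nat_lit 44668, nat_lit 42636, nat_lit 39881,
  nat_lit 24654, nat_lit 41624, nat_lit 42159, nat_lit 19723, nat_lit 19931, nat_lit 35985,
  nat_lit 6164],
   [nat_lit 4924514, nat_lit 1555794, nat_lit 1194076, nat_lit 120809, nat_lit 892785,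
  nat_lit 137756, nat_lit 723468, nat_lit 92265, nat_lit 37129, nat_lit 639763, nat_lit 69043,
  nat_lit 50113, nat_lit 588660, nat_lit 57395, nat_lit 35525, nat_lit 18831, nat_lit 552816,
  nat_lit 48812, nat_lit 28988, nat_lit 26908, nat_lit 532819, nat_lit 43718, nat_lit 24454,
  nat_lit 20703, nat_lit 10539, nat_lit 525802, nat_lit 39709, nat_lit 21101, nat_lit 17585,
  nat_lit 16084, nat_lit 535736, nat_lit 37467, nat_lit 19867, nat_lit 16073, nat_lit 14865,
  nat_lit 6640, nat_lit 523461, nat_lit 34792, nat_lit 17744, nat_lit 13447, nat_lit 12284,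
  nat_lit 10662, nat_lit 539068, nat_lit 33171, nat_lit 16558, nat_lit 12653, nat_lit 11692,
  nat_lit 9726, nat_lit 4853, nat_lit 553708, nat_lit 31789, nat_lit 15890, nat_lit 11793,
  nat_lit 10855, nat_lit 8659, nat_lit 8427, nat_lit 588043, nat_lit 31116, nat_lit 15506,
  nat_lit 11259, nat_lit 10041, nat_lit 8395, nat_lit 7478, nat_lit 3968, nat_lit 338635,
  nat_lit 31009, nat_lit 15513, nat_lit 10898, nat_lit 10203, nat_lit 8059, nat_lit 7474,
  nat_lit 7157, nat_lit 7635, nat_lit 10655, nat_lit 9701, nat_lit 7873, nat_lit 6765,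
  nat_lit 6665, nat_lit 3173, nat_lit 4690, nat_lit 7580, nat_lit 6532, nat_lit 6680,
  nat_lit 6169, nat_lit 3208, nat_lit 6483, nat_lit 6297, nat_lit 3000, nat_lit 2955,
  nat_lit 5621, nat_lit 936]),
  ([nat_lit 730385, nat_lit 489486, nat_lit 428416, nat_lit 83238, nat_lit 349905, nat_lit 145326,
  nat_lit 308938, nat_lit 125231, nat_lit 65139, nat_lit 325658, nat_lit 114693, nat_lit 109360,
  nat_lit 297530, nat_lit 114973, nat_lit 100583, nat_lit 46660, nat_lit 332031, nat_lit 124307,
  nat_lit 105273, nat_lit 84264, nat_lit 364391, nat_lit 146212, nat_lit 105844, nat_lit 89137,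
  nat_lit 42157, nat_lit 419649, nat_lit 173816, nat_lit 125032, nat_lit 108901, nat_lit 104921,
  nat_lit 555862, nat_lit 238400, nat_lit 184159, nat_lit 161513, nat_lit 146073, nat_lit 69786,
  nat_lit 589325, nat_lit 298582, nat_lit 170748, nat_lit 95308, nat_lit 60953, nat_lit 53770,
  nat_lit 747838, nat_lit 299051, nat_lit 110141, nat_lit 65003, nat_lit 53284, nat_lit 44950,
  nat_lit 22559, nat_lit 973536, nat_lit 257001, nat_lit 96516, nat_lit 64908, nat_lit 49645,
  nat_lit 42257, nat_lit 41446, nat_lit 1552379, nat_lit 231737, nat_lit 91174, nat_lit 65194,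
  nat_lit 51327, nat_lit 43240, nat_lit 39938, nat_lit 19657, nat_lit 1757698, nat_lit 219051,
  nat_lit 90856, nat_lit 66178, nat_lit 54016, nat_lit 45787, nat_lit 41732, nat_lit 38933,
  nat_lit 45959, nat_lit 66708, nat_lit 55037, nat_lit 50021, nat_lit 40413, nat_lit 41203,
  nat_lit 18724, nat_lit 27313, nat_lit 48570, nat_lit 45078, nat_lit 43011, nat_lit 40213,
  nat_lit 24807, nat_lit 41999, nat_lit 42545, nat_lit 19910, nat_lit 20134, nat_lit 36372,
  nat_lit 6232],
   [nat_lit 4852137, nat_lit 1563754, nat_lit 1200417, nat_lit 123883, nat_lit 897200,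
  nat_lit 141234, nat_lit 726843, nat_lit 94579, nat_lit 38084, nat_lit 642416, nat_lit 70782,
  nat_lit 51363, nat_lit 590879, nat_lit 58825, nat_lit 36406, nat_lit 19291, nat_lit 554659,
  nat_lit 50020, nat_lit 29697, nat_lit 27563, nat_lit 534375, nat_lit 44794, nat_lit 25046,
  nat_lit 21214, nat_lit 10790, nat_lit 527040, nat_lit 40679, nat_lit 21614, nat_lit 18017,
  nat_lit 16474, nat_lit 536580, nat_lit 38381, nat_lit 20349, nat_lit 16470, nat_lit 15226,
  nat_lit 6803, nat_lit 524426, nat_lit 35639, nat_lit 18175, nat_lit 13776, nat_lit 12582,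
  nat_lit 10923, nat_lit 539886, nat_lit 33980, nat_lit 16958, nat_lit 12964, nat_lit 11973,
  nat_lit 9965, nat_lit 4971, nat_lit 554410, nat_lit 32564, nat_lit 16274, nat_lit 12084,
  nat_lit 11115, nat_lit 8873, nat_lit 8632, nat_lit 588122, nat_lit 31873, nat_lit 15879,
  nat_lit 11535, nat_lit 10281, nat_lit 8599, nat_lit 7665, nat_lit 4064, nat_lit 337282,
  nat_lit 31764, nat_lit 15884, nat_lit 11166, nat_lit 10445, nat_lit 8255, nat_lit 7657,
  nat_lit 7331, nat_lit 7819, nat_lit 10918, nat_lit 9932, nat_lit 8065, nat_lit 6932,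
  nat_lit 6826, nat_lit 3251, nat_lit 4801, nat_lit 7765, nat_lit 6693, nat_lit 6842,
  nat_lit 6320, nat_lit 3289, nat_lit 6640, nat_lit 6450, nat_lit 3073, nat_lit 3027,
  nat_lit 5758, nat_lit 959]),
  ([nat_lit 709222, nat_lit 484952, nat_lit 425363, nat_lit 84125, nat_lit 347630, nat_lit 147168,
  nat_lit 307040, nat_lit 126881, nat_lit 66083, nat_lit 323498, nat_lit 116211, nat_lit 110999,
  nat_lit 295605, nat_lit 116442, nat_lit 102079, nat_lit 47370, nat_lit 329626, nat_lit 125831,
  nat_lit 106743, nat_lit 85519, nat_lit 361680, nat_lit 147872, nat_lit 107264, nat_lit 90360,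
  nat_lit 42737, nat_lit 416480, nat_lit 175708, nat_lit 126548, nat_lit 110174, nat_lit 106088,
  nat_lit 550742, nat_lit 240520, nat_lit 185852, nat_lit 162871, nat_lit 147247, nat_lit 70331,
  nat_lit 586035, nat_lit 301467, nat_lit 172754, nat_lit 96640, nat_lit 61976, nat_lit 54699,
  nat_lit 745161, nat_lit 302596, nat_lit 111748, nat_lit 66036, nat_lit 54104, nat_lit 45669,
  nat_lit 22912, nat_lit 972368, nat_lit 260659, nat_lit 97820, nat_lit 65798, nat_lit 50357,
  nat_lit 42869, nat_lit 42031, nat_lit 1551349, nat_lit 235289, nat_lit 92419, nat_lit 65954,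
  nat_lit 51980, nat_lit 43812, nat_lit 40464, nat_lit 19920, nat_lit 1736308, nat_lit 222394,
  nat_lit 92006, nat_lit 66939, nat_lit 54578, nat_lit 46323, nat_lit 42233, nat_lit 39412,
  nat_lit 46510, nat_lit 67446, nat_lit 55578, nat_lit 50480, nat_lit 40864, nat_lit 41645,
  nat_lit 18935, nat_lit 27607, nat_lit 49015, nat_lit 45490, nat_lit 43388, nat_lit 40549,
  nat_lit 24963, nat_lit 42377, nat_lit 42932, nat_lit 20099, nat_lit 20338, nat_lit 36761,
  nat_lit 6299],
   [nat_lit 4780674, nat_lit 1571294, nat_lit 1206513, nat_lit 126970, nat_lit 901464,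
  nat_lit 144735, nat_lit 730117, nat_lit 96911, nat_lit 39049, nat_lit 644994, nat_lit 72535,
  nat_lit 52625, nat_lit 593039, nat_lit 60268, nat_lit 37295, nat_lit 19756, nat_lit 556454,
  nat_lit 51240, nat_lit 30414, nat_lit 28224, nat_lit 535891, nat_lit 45879, nat_lit 25644,
  nat_lit 21730, nat_lit 11042, nat_lit 528246, nat_lit 41657, nat_lit 22132, nat_lit 18453,
  nat_lit 16869, nat_lit 537405, nat_lit 39304, nat_lit 20835, nat_lit 16871, nat_lit 15590,
  nat_lit 6968, nat_lit 525363, nat_lit 36495, nat_lit 18610, nat_lit 14108, nat_lit 12883,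
  nat_lit 11187, nat_lit 540675, nat_lit 34796, nat_lit 17362, nat_lit 13280, nat_lit 12257,
  nat_lit 10206, nat_lit 5091, nat_lit 555078, nat_lit 33347, nat_lit 16663, nat_lit 12377,
  nat_lit 11377, nat_lit 9090, nat_lit 8840, nat_lit 588173, nat_lit 32639, nat_lit 16256,
  nat_lit 11814, nat_lit 10523, nat_lit 8805, nat_lit 7855, nat_lit 4160, nat_lit 335971,
  nat_lit 32525, nat_lit 16260, nat_lit 11436, nat_lit 10690, nat_lit 8453, nat_lit 7843,
  nat_lit 7506, nat_lit 8005, nat_lit 11183, nat_lit 10165, nat_lit 8260, nat_lit 7101,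
  nat_lit 6989, nat_lit 3330, nat_lit 4914, nat_lit 7952, nat_lit 6857, nat_lit 7006,
  nat_lit 6472, nat_lit 3370, nat_lit 6799, nat_lit 6606, nat_lit 3147, nat_lit 3099,
  nat_lit 5898, nat_lit 982]),
  ([nat_lit 688633, nat_lit 480308, nat_lit 422227, nat_lit 84972, nat_lit 345300, nat_lit 148958,
  nat_lit 305104, nat_lit 128495, nat_lit 67013, nat_lit 321311, nat_lit 117701, nat_lit 112620,
  nat_lit 293662, nat_lit 117886, nat_lit 103564, nat_lit 48076, nat_lit 327213, nat_lit 127332,
  nat_lit 108202, nat_lit 86771, nat_lit 358965, nat_lit 149506, nat_lit 108677, nat_lit 91579,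
  nat_lit 43316, nat_lit 413312, nat_lit 177572, nat_lit 128056, nat_lit 111445, nat_lit 107254,
  nat_lit 545679, nat_lit 242608, nat_lit 187537, nat_lit 164227, nat_lit 148422, nat_lit 70878,
  nat_lit 582734, nat_lit 304318, nat_lit 174756, nat_lit 97977, nat_lit 63005, nat_lit 55635,
  nat_lit 742459, nat_lit 306116, nat_lit 113361, nat_lit 67075, nat_lit 54928, nat_lit 46393,
  nat_lit 23268, nat_lit 971119, nat_lit 264305, nat_lit 99130, nat_lit 66692, nat_lit 51071,
  nat_lit 43484, nat_lit 42621, nat_lit 1550091, nat_lit 238836, nat_lit 93668, nat_lit 66718,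
  nat_lit 52635, nat_lit 44388, nat_lit 40993, nat_lit 20184, nat_lit 1715292, nat_lit 225738,
  nat_lit 93160, nat_lit 67703, nat_lit 55145, nat_lit 46862, nat_lit 42737, nat_lit 39894,
  nat_lit 47062, nat_lit 68186, nat_lit 56122, nat_lit 50942, nat_lit 41318, nat_lit 42089,
  nat_lit 19148, nat_lit 27902, nat_lit 49463, nat_lit 45904, nat_lit 43769, nat_lit 40889,
  nat_lit 25122, nat_lit 42757, nat_lit 43322, nat_lit 20289, nat_lit 20542, nat_lit 37152,
  nat_lit 6366],
   [nat_lit 4710022, nat_lit 1578431, nat_lit 1212376, nat_lit 130074, nat_lit 905585,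
  nat_lit 148265, nat_lit 733293, nat_lit 99264, nat_lit 40024, nat_lit 647501, nat_lit 74307,
  nat_lit 53900, nat_lit 595142, nat_lit 61726, nat_lit 38194, nat_lit 20225, nat_lit 558203,
  nat_lit 52472, nat_lit 31139, nat_lit 28893, nat_lit 537369, nat_lit 46976, nat_lit 26249,
  nat_lit 22251, nat_lit 11298, nat_lit 529421, nat_lit 42646, nat_lit 22656, nat_lit 18895,
  nat_lit 17267, nat_lit 538210, nat_lit 40237, nat_lit 21327, nat_lit 17276, nat_lit 15958,
  nat_lit 7134, nat_lit 526274, nat_lit 37360, nat_lit 19051, nat_lit 14444, nat_lit 13187,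
  nat_lit 11455, nat_lit 541437, nat_lit 35621, nat_lit 17771, nat_lit 13599, nat_lit 12543,
  nat_lit 10450, nat_lit 5212, nat_lit 555714, nat_lit 34139, nat_lit 17056, nat_lit 12675,
  nat_lit 11642, nat_lit 9310, nat_lit 9050, nat_lit 588197, nat_lit 33412, nat_lit 16638,
  nat_lit 12097, nat_lit 10769, nat_lit 9014, nat_lit 8046, nat_lit 4257, nat_lit 334699,
  nat_lit 33295, nat_lit 16640, nat_lit 11710, nat_lit 10937, nat_lit 8653, nat_lit 8031,
  nat_lit 7684, nat_lit 8194, nat_lit 11452, nat_lit 10400, nat_lit 8456, nat_lit 7272,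
  nat_lit 7154, nat_lit 3409, nat_lit 5028, nat_lit 8141, nat_lit 7022, nat_lit 7173,
  nat_lit 6626, nat_lit 3452, nat_lit 6960, nat_lit 6763, nat_lit 3222, nat_lit 3173,
  nat_lit 6039, nat_lit 1005]),
  ([nat_lit 668580, nat_lit 475553, nat_lit 419008, nat_lit 85781, nat_lit 342915, nat_lit 150700,
  nat_lit 303128, nat_lit 130075, nat_lit 67929, nat_lit 319094, nat_lit 119166, nat_lit 114227,
  nat_lit 291698, nat_lit 119307, nat_lit 105039, nat_lit 48778, nat_lit 324790, nat_lit 128811,
  nat_lit 109653, nat_lit 88020, nat_lit 356245, nat_lit 151118, nat_lit 110085, nat_lit 92798,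
  nat_lit 43894, nat_lit 410139, nat_lit 179410, nat_lit 129558, nat_lit 112714, nat_lit 108420,
  nat_lit 540666, nat_lit 244668, nat_lit 189218, nat_lit 165584, nat_lit 149601, nat_lit 71427,
  nat_lit 579419, nat_lit 307139, nat_lit 176758, nat_lit 99321, nat_lit 64043, nat_lit 56578,
  nat_lit 739727, nat_lit 309615, nat_lit 114982, nat_lit 68120, nat_lit 55758, nat_lit 47123,
  nat_lit 23626, nat_lit 969789, nat_lit 267942, nat_lit 100447, nat_lit 67591, nat_lit 51791,
  nat_lit 44104, nat_lit 43214, nat_lit 1548611, nat_lit 242381, nat_lit 94921, nat_lit 67488,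
  nat_lit 53293, nat_lit 44967, nat_lit 41525, nat_lit 20450, nat_lit 1694615, nat_lit 229086,
  nat_lit 94318, nat_lit 68471, nat_lit 55716, nat_lit 47404, nat_lit 43244, nat_lit 40378,
  nat_lit 47618, nat_lit 68931, nat_lit 56671, nat_lit 51408, nat_lit 41774, nat_lit 42536,
  nat_lit 19362, nat_lit 28197, nat_lit 49914, nat_lit 46320, nat_lit 44154, nat_lit 41234,
  nat_lit 25285, nat_lit 43140, nat_lit 43714, nat_lit 20480, nat_lit 20747, nat_lit 37545,
  nat_lit 6434],
   [nat_lit 4640085, nat_lit 1585178, nat_lit 1218017, nat_lit 133197, nat_lit 909570,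
  nat_lit 151828, nat_lit 736378, nat_lit 101640, nat_lit 41011, nat_lit 649941, nat_lit 76097,
  nat_lit 55189, nat_lit 597192, nat_lit 63200, nat_lit 39104, nat_lit 20699, nat_lit 559909,
  nat_lit 53718, nat_lit 31873, nat_lit 29568, nat_lit 538811, nat_lit 48085, nat_lit 26861,
  nat_lit 22780, nat_lit 11556, nat_lit 530566, nat_lit 43646, nat_lit 23187, nat_lit 19342,
  nat_lit 17670, nat_lit 538996, nat_lit 41181, nat_lit 21826, nat_lit 17687, nat_lit 16331,
  nat_lit 7302, nat_lit 527158, nat_lit 38235, nat_lit 19497, nat_lit 14785, nat_lit 13495,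
  nat_lit 11725, nat_lit 542172, nat_lit 36456, nat_lit 18185, nat_lit 13923, nat_lit 12834,
  nat_lit 10697, nat_lit 5335, nat_lit 556319, nat_lit 34941, nat_lit 17454, nat_lit 12977,
  nat_lit 11910, nat_lit 9532, nat_lit 9263, nat_lit 588194, nat_lit 34195, nat_lit 17025,
  nat_lit 12384, nat_lit 11017, nat_lit 9225, nat_lit 8241, nat_lit 4355, nat_lit 333462,
  nat_lit 34074, nat_lit 17025, nat_lit 11988, nat_lit 11187, nat_lit 8856, nat_lit 8221,
  nat_lit 7864, nat_lit 8385, nat_lit 11725, nat_lit 10639, nat_lit 8655, nat_lit 7446,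
  nat_lit 7322, nat_lit 3490, nat_lit 5144, nat_lit 8333, nat_lit 7190, nat_lit 7341,
  nat_lit 6782, nat_lit 3535, nat_lit 7123, nat_lit 6922, nat_lit 3298, nat_lit 3248,
  nat_lit 6182, nat_lit 1029])]

theorem run35 : run W35 data35 = true := by decide +kernel

end Vale.Agent.P154.AF.Eng
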