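import Vale.Agent.P154AF.Eng
import Vale.Agent.P154AF.Run35

/-! Run data, generations 84 to 91 (helper file). -/

namespace Vale.Agent.P154.AF.Eng

def W84 : List Nat :=
  [nat_lit 1530298, nat_lit 1388433, nat_lit 1194110, nat_lit 325317, nat_lit 922248,
  nat_lit 407061, nat_lit 765450, nat_lit 281481, nat_lit 120679, nat_lit 679686, nat_lit 217737,
  nat_lit 160519, nat_lit 625871, nat_lit 182051, nat_lit 116315, nat_lit 59282, nat_lit 584445,
  nat_lit 155902, nat_lit 95195, nat_lit 85628, nat_lit 559122, nat_lit 139857, nat_lit 80370,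
  nat_lit 68826, nat_lit 32732, nat_lit 543565, nat_lit 127288, nat_lit 70236, nat_lit 58903,
  nat_lit 51933, nat_lit 541755, nat_lit 119967, nat_lit 65803, nat_lit 53769, nat_lit 48095,
  nat_lit 21681, nat_lit 531911, nat_lit 111881, nat_lit 59257, nat_lit 45727, nat_lit 40507,
  nat_lit 35812, nat_lit 538287, nat_lit 107099, nat_lit 55504, nat_lit 43386, nat_lit 38192,
  nat_lit 32474, nat_lit 16195, nat_lit 542931, nat_lit 103136, nat_lit 53409, nat_lit 40732,
  nat_lit 35453, nat_lit 29473, nat_lit 28326, nat_lit 551274, nat_lit 100877, nat_lit 51941,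
  nat_lit 38766, nat_lit 33226, nat_lit 28061, nat_lit 25858, nat_lit 13179, nat_lit 283679,
  nat_lit 99822, nat_lit 51505, nat_lit 37764, nat_lit 33072, nat_lit 26866, nat_lit 25122,
  nat_lit 24003, nat_lit 25589, nat_lit 36961, nat_lit 31809, nat_lit 26222, nat_lit 23349,
  nat_lit 22501, nat_lit 10842, nat_lit 15585, nat_lit 25616, nat_lit 22567, nat_lit 22487,
  nat_lit 20827, nat_lit 11201, nat_lit 21708, nat_lit 20965, nat_lit 10072, nat_lit 10019,
  nat_lit 19392, nat_lit 3187]

def data84 : List (List Nat × List Nat) := [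
  ([nat_lit 71946, nat_lit 141531, nat_lit 162428, nat_lit 70015, nat_lit 150084, nat_lit 158705,
  nat_lit 143861, nat_lit 154278, nat_lit 91242, nat_lit 154348, nat_lit 151778, nat_lit 173263,
  nat_lit 148157, nat_lit 155875, nat_lit 168975, nat_lit 82136, nat_lit 163080, nat_lit 171247,
  nat_lit 176824, nat_lit 156405, nat_lit 181344, nat_lit 200139, nat_lit 182142, nat_lit 163480,
  nat_lit 78600, nat_lit 212735, nat_lit 239570, nat_lit 208867, nat_lit 188157, nat_lit 180667,
  nat_lit 277249, nat_lit 314802, nat_lit 280641, nat_lit 249856, nat_lit 229074, nat_lit 110044,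
  nat_lit 350892, nat_lit 421375, nat_lit 299734, nat_lit 199034, nat_lit 148169, nat_lit 133604,
  nat_lit 513612, nat_lit 481516, nat_lit 235164, nat_lit 151147, nat_lit 123206, nat_lit 107968,
  nat_lit 53185, nat_lit 757975, nat_lit 474075, nat_lit 201224, nat_lit 138471, nat_lit 109850,
  nat_lit 95865, nat_lit 92249, nat_lit 1174711, nat_lit 457822, nat_lit 187841, nat_lit 130211,
  nat_lit 105966, nat_lit 92463, nat_lit 85445, nat_lit 42299, nat_lit 825834, nat_lit 443279,
  nat_lit 181691, nat_lit 128712, nat_lit 103829, nat_lit 90752, nat_lit 84213, nat_lit 80037,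
  nat_lit 90098, nat_lit 127548, nat_lit 102721, nat_lit 91117, nat_lit 79747, nat_lit 79197,
  nat_lit 37341, nat_lit 51403, nat_lit 88812, nat_lit 81674, nat_lit 77907, nat_lit 73233,
  nat_lit 41538, nat_lit 76079, nat_lit 76341, nat_lit 36520, nat_lit 37180, nat_lit 69885,
  nat_lit 11910],
   [nat_lit 1446579, nat_lit 1360307, nat_lit 1179574, nat_lit 331332, nat_lit 913951,
  nat_lit 417623, nat_lit 760377, nat_lit 289636, nat_lit 124561, nat_lit 676102, nat_lit 224547,
  nat_lit 165816, nat_lit 623099, nat_lit 187922, nat_lit 120390, nat_lit 61222, nat_lit 582155,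
  nat_lit 161060, nat_lit 98606, nat_lit 88527, nat_lit 557101, nat_lit 144551, nat_lit 83298,
  nat_lit 71320, nat_lit 33830, nat_lit 541637, nat_lit 131618, nat_lit 72843, nat_lit 61081,
  nat_lit 53770, nat_lit 539734, nat_lit 124057, nat_lit 68240, nat_lit 55754, nat_lit 49797,
  nat_lit 22463, nat_lit 529982, nat_lit 115735, nat_lit 61477, nat_lit 47482, nat_lit 41993,
  nat_lit 37162, nat_lit 536094, nat_lit 110815, nat_lit 57609, nat_lit 45057, nat_lit 39586,
  nat_lit 33685, nat_lit 16803, nat_lit 540439, nat_lit 106742, nat_lit 55437, nat_lit 42322,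
  nat_lit 36753, nat_lit 30597, nat_lit 29405, nat_lit 548333, nat_lit 104408, nat_lit 53914,
  nat_lit 40280, nat_lit 34472, nat_lit 29119, nat_lit 26863, nat_lit 13679, nat_lit 281764,
  nat_lit 103289, nat_lit 53449, nat_lit 39254, nat_lit 34287, nat_lit 27883, nat_lit 26077,
  nat_lit 24921, nat_lit 26561, nat_lit 38414, nat_lit 32992, nat_lit 27206, nat_lit 24268,
  nat_lit 23373, nat_lit 11265, nat_lit 16178, nat_lit 26598, nat_lit 23456, nat_lit 23348,
  nat_lit 21631, nat_lit 11644, nat_lit 22536, nat_lit 21757, nat_lit 10459, nat_lit 10409,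
  nat_lit 20162, nat_lit 3312]),
  ([nat_lit 64365, nat_lit 131397, nat_lit 153158, nat_lit 67442, nat_lit 142663, nat_lit 155198,
  nat_lit 137488, nat_lit 152096, nat_lit 90535, nat_lit 147874, nat_lit 150427, nat_lit 173355,
  nat_lit 142401, nat_lit 154918, nat_lit 169848, nat_lit 82800, nat_lit 156846, nat_lit 170577,
  nat_lit 178099, nat_lit 158384, nat_lit 174676, nat_lit 199647, nat_lit 183953, nat_lit 165807,
  nat_lit 79814, nat_lit 205325, nat_lit 239400, nat_lit 211097, nat_lit 190810, nat_lit 183377,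
  nat_lit 268066, nat_lit 314841, nat_lit 283388, nat_lit 253015, nat_lit 232368, nat_lit 111709,
  nat_lit 341339, nat_lit 422888, nat_lit 304295, nat_lit 203621, nat_lit 152379, nat_lit 137511,
  nat_lit 502729, nat_lit 485816, nat_lit 240648, nat_lit 155293, nat_lit 126664, nat_lit 111160,
  nat_lit 54728, nat_lit 745311, nat_lit 480784, nat_lit 206068, nat_lit 142045, nat_lit 112852,
  nat_lit 98607, nat_lit 94836, nat_lit 1152835, nat_lit 465578, nat_lit 192281, nat_lit 133445,
  nat_lit 108699, nat_lit 94963, nat_lit 87775, nat_lit 43456, nat_lit 802231, nat_lit 451463,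
  nat_lit 185921, nat_lit 131781, nat_lit 106393, nat_lit 93027, nat_lit 86372, nat_lit 82144,
  nat_lit 92172, nat_lit 130538, nat_lit 105178, nat_lit 93267, nat_lit 81795, nat_lit 81154,
  nat_lit 38316, nat_lit 52614, nat_lit 90940, nat_lit 83606, nat_lit 79766, nat_lit 75033,
  nat_lit 42475, nat_lit 77888, nat_lit 78100, nat_lit 37390, nat_lit 38055, nat_lit 71627,
  nat_lit 12200],
   [nat_lit 1363319, nat_lit 1330122, nat_lit 1163614, nat_lit 337207, nat_lit 904727,
  nat_lit 428375, nat_lit 754653, nat_lit 298043, nat_lit 128593, nat_lit 672017, nat_lit 231619,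
  nat_lit 171350, nat_lit 619916, nat_lit 194041, nat_lit 124673, nat_lit 63250, nat_lit 579519,
  nat_lit 166449, nat_lit 102199, nat_lit 91569, nat_lit 554776, nat_lit 149464, nat_lit 86387,
  nat_lit 73949, nat_lit 34985, nat_lit 539435, nat_lit 136156, nat_lit 75598, nat_lit 63381,
  nat_lit 55707, nat_lit 537459, nat_lit 128346, nat_lit 70817, nat_lit 57851, nat_lit 51592,
  nat_lit 23290, nat_lit 527809, nat_lit 119782, nat_lit 63826, nat_lit 49341, nat_lit 43563,
  nat_lit 38593, nat_lit 533659, nat_lit 114719, nat_lit 59838, nat_lit 46828, nat_lit 41058,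
  nat_lit 34967, nat_lit 17448, nat_lit 537709, nat_lit 110533, nat_lit 57585, nat_lit 44008,
  nat_lit 38128, nat_lit 31789, nat_lit 30551, nat_lit 545170, nat_lit 108120, nat_lit 56004,
  nat_lit 41887, nat_lit 35792, nat_lit 30241, nat_lit 27928, nat_lit 14209, nat_lit 279751,
  nat_lit 106934, nat_lit 55507, nat_lit 40835, nat_lit 35573, nat_lit 28961, nat_lit 27089,
  nat_lit 25895, nat_lit 27591, nat_lit 39957, nat_lit 34243, nat_lit 28249, nat_lit 25245,
  nat_lit 24299, nat_lit 11715, nat_lit 16806, nat_lit 27639, nat_lit 24400, nat_lit 24261,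
  nat_lit 22484, nat_lit 12116, nat_lit 23416, nat_lit 22597, nat_lit 10871, nat_lit 10823,
  nat_lit 20981, nat_lit 3445]),
  ([nat_lit 57231, nat_lit 121401, nat_lit 143858, nat_lit 64724, nat_lit 135159, nat_lit 151348,
  nat_lit 131009, nat_lit 149616, nat_lit 89665, nat_lit 141286, nat_lit 148818, nat_lit 173224,
  nat_lit 136526, nat_lit 153727, nat_lit 170565, nat_lit 83406, nat_lit 150487, nat_lit 169678,
  nat_lit 179256, nat_lit 160325, nat_lit 167872, nat_lit 198920, nat_lit 185691, nat_lit 168135,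
  nat_lit 81039, nat_lit 197759, nat_lit 238989, nat_lit 213281, nat_lit 193492, nat_lit 186137,
  nat_lit 258696, nat_lit 314622, nat_lit 286106, nat_lit 256234, nat_lit 235760, nat_lit 113430,
  nat_lit 331492, nat_lit 424148, nat_lit 308934, nat_lit 208391, nat_lit 156790, nat_lit 141614,
  nat_lit 491400, nat_lit 489973, nat_lit 246339, nat_lit 159643, nat_lit 130304, nat_lit 114526,
  nat_lit 56355, nat_lit 731990, nat_lit 487504, nat_lit 211129, nat_lit 145803, nat_lit 116018,
  nat_lit 101503, nat_lit 97569, nat_lit 1129981, nat_lit 473439, nat_lit 196926, nat_lit 136851,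
  nat_lit 111584, nat_lit 97606, nat_lit 90239, nat_lit 44679, nat_lit 778439, nat_lit 459805,
  nat_lit 190352, nat_lit 135013, nat_lit 109102, nat_lit 95434, nat_lit 88655, nat_lit 84374,
  nat_lit 94347, nat_lit 133688, nat_lit 107776, nat_lit 95545, nat_lit 83964, nat_lit 83226,
  nat_lit 39349, nat_lit 53894, nat_lit 93194, nat_lit 85656, nat_lit 81737, nat_lit 76945,
  nat_lit 43471, nat_lit 79807, nat_lit 79964, nat_lit 38313, nat_lit 38982, nat_lit 73474,
  nat_lit 12508],
   [nat_lit 1280715, nat_lit 1297821, nat_lit 1146150, nat_lit 342892, nat_lit 894516,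
  nat_lit 439285, nat_lit 748231, nat_lit 306697, nat_lit 132779, nat_lit 667393, nat_lit 238956,
  nat_lit 177127, nat_lit 616291, nat_lit 200413, nat_lit 129172, nat_lit 65370, nat_lit 576510,
  nat_lit 172077, nat_lit 105984, nat_lit 94761, nat_lit 552121, nat_lit 154605, nat_lit 89647,
  nat_lit 76719, nat_lit 36198, nat_lit 536938, nat_lit 140911, nat_lit 78510, nat_lit 65810,
  nat_lit 57750, nat_lit 534909, nat_lit 132844, nat_lit 73541, nat_lit 60066, nat_lit 53484,
  nat_lit 24165, nat_lit 525372, nat_lit 124029, nat_lit 66311, nat_lit 51311, nat_lit 45222,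
  nat_lit 40109, nat_lit 530964, nat_lit 118818, nat_lit 62198, nat_lit 48703, nat_lit 42614,
  nat_lit 36324, nat_lit 18131, nat_lit 534724, nat_lit 114515, nat_lit 59860, nat_lit 45796,
  nat_lit 39582, nat_lit 33052, nat_lit 31767, nat_lit 541769, nat_lit 112020, nat_lit 58218,
  nat_lit 43592, nat_lit 37190, nat_lit 31430, nat_lit 29060, nat_lit 14771, nat_lit 277633,
  nat_lit 110764, nat_lit 57688, nat_lit 42514, nat_lit 36935, nat_lit 30105, nat_lit 28165,
  nat_lit 26929, nat_lit 28681, nat_lit 41594, nat_lit 35568, nat_lit 29355, nat_lit 26284,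
  nat_lit 25284, nat_lit 12193, nat_lit 17472, nat_lit 28745, nat_lit 25404, nat_lit 25232,
  nat_lit 23392, nat_lit 12617, nat_lit 24350, nat_lit 23489, nat_lit 11308, nat_lit 11264,
  nat_lit 21854, nat_lit 3587]),
  ([nat_lit 50583, nat_lit 111585, nat_lit 134558, nat_lit 61866, nat_lit 127592, nat_lit 147147,
  nat_lit 124439, nat_lit 146822, nat_lit 88619, nat_lit 134597, nat_lit 146936, nat_lit 172844,
  nat_lit 130540, nat_lit 152282, nat_lit 171105, nat_lit 83947, nat_lit 144013, nat_lit 168529,
  nat_lit 180277, nat_lit 162214, nat_lit 160938, nat_lit 197936, nat_lit 187338, nat_lit 170453,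
  nat_lit 82270, nat_lit 190043, nat_lit 238313, nat_lit 215403, nat_lit 196194, nat_lit 188944,
  nat_lit 249144, nat_lit 314116, nat_lit 288780, nat_lit 259505, nat_lit 239247, nat_lit 115205,
  nat_lit 321353, nat_lit 425118, nat_lit 313640, nat_lit 213344, nat_lit 161411, nat_lit 145919,
  nat_lit 479616, nat_lit 493951, nat_lit 252239, nat_lit 164205, nat_lit 134134, nat_lit 118076,
  nat_lit 58072, nat_lit 717991, nat_lit 494209, nat_lit 216414, nat_lit 149753, nat_lit 119356,
  nat_lit 104564, nat_lit 100458, nat_lit 1106135, nat_lit 481384, nat_lit 201784,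
  nat_lit 140439, nat_lit 114629, nat_lit 100399, nat_lit 92846, nat_lit 45974, nat_lit 754468,
  nat_lit 468288, nat_lit 194993, nat_lit 138420, nat_lit 111968, nat_lit 97980, nat_lit 91071,
  nat_lit 86736, nat_lit 96625, nat_lit 137007, nat_lit 110524, nat_lit 97958, nat_lit 86264,
  nat_lit 85422, nat_lit 40446, nat_lit 55248, nat_lit 95584, nat_lit 87831, nat_lit 83828,
  nat_lit 78975, nat_lit 44531, nat_lit 81844, nat_lit 81943, nat_lit 39293, nat_lit 39966,
  nat_lit 75433, nat_lit 12833],
   [nat_lit 1199031, nat_lit 1263355, nat_lit 1127104, nat_lit 348326, nat_lit 883256,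
  nat_lit 450310, nat_lit 741061, nat_lit 315582, nat_lit 137114, nat_lit 662188, nat_lit 246554,
  nat_lit 183151, nat_lit 612186, nat_lit 207040, nat_lit 133897, nat_lit 67583, nat_lit 573096,
  nat_lit 177949, nat_lit 109969, nat_lit 98109, nat_lit 549108, nat_lit 159979, nat_lit 93087,
  nat_lit 79638, nat_lit 37474, nat_lit 534118, nat_lit 145889, nat_lit 81587, nat_lit 68374,
  nat_lit 59905, nat_lit 532058, nat_lit 137558, nat_lit 76420, nat_lit 62407, nat_lit 55479,
  nat_lit 25090, nat_lit 522649, nat_lit 128484, nat_lit 68940, nat_lit 53399, nat_lit 46975,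
  nat_lit 41717, nat_lit 527987, nat_lit 123121, nat_lit 64698, nat_lit 50691, nat_lit 44260,
  nat_lit 37763, nat_lit 18855, nat_lit 531464, nat_lit 118697, nat_lit 62269, nat_lit 47692,
  nat_lit 41120, nat_lit 34393, nat_lit 33058, nat_lit 538112, nat_lit 116117, nat_lit 60564,
  nat_lit 45401, nat_lit 38672, nat_lit 32692, nat_lit 30262, nat_lit 15368, nat_lit 275400,
  nat_lit 114788, nat_lit 59999, nat_lit 44296, nat_lit 38379, nat_lit 31320, nat_lit 29307,
  nat_lit 28029, nat_lit 29837, nat_lit 43331, nat_lit 36972, nat_lit 30529, nat_lit 27390,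
  nat_lit 26332, nat_lit 12702, nat_lit 18179, nat_lit 29919, nat_lit 26473, nat_lit 26263,
  nat_lit 24357, nat_lit 13151, nat_lit 25344, nat_lit 24438, nat_lit 11774, nat_lit 11733,
  nat_lit 22784, nat_lit 3738]),
  ([nat_lit 44392, nat_lit 101996, nat_lit 125300, nat_lit 58878, nat_lit 119991, nat_lit 142591,
  nat_lit 117800, nat_lit 143700, nat_lit 87386, nat_lit 127827, nat_lit 144761, nat_lit 172188,
  nat_lit 124457, nat_lit 150566, nat_lit 171442, nat_lit 84409, nat_lit 137439, nat_lit 167110,
  nat_lit 181137, nat_lit 164033, nat_lit 153890, nat_lit 196670, nat_lit 188873, nat_lit 172747,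
  nat_lit 83502, nat_lit 182192, nat_lit 237343, nat_lit 217444, nat_lit 198905, nat_lit 191788,
  nat_lit 239424, nat_lit 313292, nat_lit 291389, nat_lit 262819, nat_lit 242825, nat_lit 117033,
  nat_lit 310929, nat_lit 425760, nat_lit 318399, nat_lit 218483, nat_lit 166247, nat_lit 150437,
  nat_lit 467373, nat_lit 497708, nat_lit 258347, nat_lit 168988, nat_lit 138165, nat_lit 121821,
  nat_lit 59882, nat_lit 703297, nat_lit 500864, nat_lit 221930, nat_lit 153905, nat_lit 122877,
  nat_lit 107799, nat_lit 103513, nat_lit 1081294, nat_lit 489386, nat_lit 206863,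
  nat_lit 144219, nat_lit 117846, nat_lit 103353, nat_lit 95607, nat_lit 47344, nat_lit 730341,
  nat_lit 476891, nat_lit 199852, nat_lit 142009, nat_lit 114998, nat_lit 100676, nat_lit 93630,
  nat_lit 89238, nat_lit 99012, nat_lit 140507, nat_lit 113433, nat_lit 100518, nat_lit 88704,
  nat_lit 87751, nat_lit 41609, nat_lit 56681, nat_lit 98121, nat_lit 90141, nat_lit 86049,
  nat_lit 81134, nat_lit 45658, nat_lit 84009, nat_lit 84042, nat_lit 40334, nat_lit 41010,
  nat_lit 77514, nat_lit 13179],
   [nat_lit 1118449, nat_lit 1226712, nat_lit 1106415, nat_lit 353438, nat_lit 870892,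
  nat_lit 461396, nat_lit 733100, nat_lit 324678, nat_lit 141595, nat_lit 656366, nat_lit 254406,
  nat_lit 189426, nat_lit 607570, nat_lit 213920, nat_lit 138855, nat_lit 69891, nat_lit 569249,
  nat_lit 184066, nat_lit 114163, nat_lit 101617, nat_lit 545712, nat_lit 165591, nat_lit 96717,
  nat_lit 82713, nat_lit 38815, nat_lit 530955, nat_lit 151097, nat_lit 84837, nat_lit 71081,
  nat_lit 62178, nat_lit 528888, nat_lit 142494, nat_lit 79465, nat_lit 64881, nat_lit 57583,
  nat_lit 26069, nat_lit 519621, nat_lit 133155, nat_lit 71723, nat_lit 55612, nat_lit 48830,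
  nat_lit 43422, nat_lit 524712, nat_lit 127635, nat_lit 67346, nat_lit 52797, nat_lit 46001,
  nat_lit 39288, nat_lit 19625, nat_lit 527913, nat_lit 123087, nat_lit 64820, nat_lit 49704,
  nat_lit 42748, nat_lit 35815, nat_lit 34431, nat_lit 534183, nat_lit 120418, nat_lit 63049,
  nat_lit 47322, nat_lit 40241, nat_lit 34032, nat_lit 31540, nat_lit 16002, nat_lit 273046,
  nat_lit 119013, nat_lit 62449, nat_lit 46190, nat_lit 39908, nat_lit 32611, nat_lit 30522,
  nat_lit 29199, nat_lit 31062, nat_lit 45176, nat_lit 38459, nat_lit 31775, nat_lit 28568,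
  nat_lit 27448, nat_lit 13244, nat_lit 18929, nat_lit 31166, nat_lit 27610, nat_lit 27359,
  nat_lit 25385, nat_lit 13720, nat_lit 26401, nat_lit 25447, nat_lit 12271, nat_lit 12232,
  nat_lit 23775, nat_lit 3899]),
  ([nat_lit 38687, nat_lit 92676, nat_lit 116116, nat_lit 55771, nat_lit 112377, nat_lit 137679,
  nat_lit 111107, nat_lit 140240, nat_lit 85953, nat_lit 120989, nat_lit 142280, nat_lit 171230,
  nat_lit 118289, nat_lit 148560, nat_lit 171549, nat_lit 84781, nat_lit 130774, nat_lit 165401,
  nat_lit 181813, nat_lit 165763, nat_lit 146737, nat_lit 195100, nat_lit 190274, nat_lit 175003,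
  nat_lit 84728, nat_lit 174214, nat_lit 236056, nat_lit 219384, nat_lit 201613, nat_lit 194662,
  nat_lit 229544, nat_lit 312118, nat_lit 293914, nat_lit 266167, nat_lit 246489, nat_lit 118915,
  nat_lit 300223, nat_lit 426035, nat_lit 323195, nat_lit 223809, nat_lit 171306, nat_lit 155174,
  nat_lit 454667, nat_lit 501206, nat_lit 264662, nat_lit 174000, nat_lit 142408, nat_lit 125771,
  nat_lit 61793, nat_lit 687888, nat_lit 507435, nat_lit 227684, nat_lit 158270, nat_lit 126593,
  nat_lit 111221, nat_lit 106745, nat_lit 1055446, nat_lit 497419, nat_lit 212172,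
  nat_lit 148203, nat_lit 121244, nat_lit 106478, nat_lit 98532, nat_lit 48795, nat_lit 706062,
  nat_lit 485590, nat_lit 204939, nat_lit 145794, nat_lit 118206, nat_lit 103531, nat_lit 96342,
  nat_lit 91892, nat_lit 101513, nat_lit 144196, nat_lit 116513, nat_lit 103233, nat_lit 91294,
  nat_lit 90221, nat_lit 42845, nat_lit 58197, nat_lit 100813, nat_lit 92595, nat_lit 88410,
  nat_lit 83430, nat_lit 46858, nat_lit 86311, nat_lit 86273, nat_lit 41440, nat_lit 42119,
  nat_lit 79727, nat_lit 13545],
   [nat_lit 1039263, nat_lit 1187874, nat_lit 1084008, nat_lit 358156, nat_lit 857362,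
  nat_lit 472485, nat_lit 724293, nat_lit 333964, nat_lit 146217, nat_lit 649880, nat_lit 262507,
  nat_lit 195954, nat_lit 602403, nat_lit 221054, nat_lit 144055, nat_lit 72296, nat_lit 564934,
  nat_lit 190433, nat_lit 118576, nat_lit 105294, nat_lit 541902, nat_lit 171447, nat_lit 100545,
  nat_lit 85952, nat_lit 40225, nat_lit 527419, nat_lit 156540, nat_lit 88271, nat_lit 73938,
  nat_lit 64576, nat_lit 525371, nat_lit 147659, nat_lit 82683, nat_lit 67494, nat_lit 59801,
  nat_lit 27106, nat_lit 516263, nat_lit 138048, nat_lit 74667, nat_lit 57957, nat_lit 50790,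
  nat_lit 45231, nat_lit 521114, nat_lit 132367, nat_lit 70151, nat_lit 55030, nat_lit 47842,
  nat_lit 40906, nat_lit 20441, nat_lit 524049, nat_lit 127691, nat_lit 67521, nat_lit 51838,
  nat_lit 44472, nat_lit 37326, nat_lit 35889, nat_lit 529961, nat_lit 124930, nat_lit 65682,
  nat_lit 49361, nat_lit 41905, nat_lit 35454, nat_lit 32898, nat_lit 16676, nat_lit 270559,
  nat_lit 123447, nat_lit 65045, nat_lit 48200, nat_lit 41530, nat_lit 33984, nat_lit 31815,
  nat_lit 30444, nat_lit 32359, nat_lit 47136, nat_lit 40035, nat_lit 33100, nat_lit 29822,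
  nat_lit 28637, nat_lit 13821, nat_lit 19725, nat_lit 32491, nat_lit 28822, nat_lit 28524,
  nat_lit 26480, nat_lit 14327, nat_lit 27527, nat_lit 26522, nat_lit 12800, nat_lit 12764,
  nat_lit 24833, nat_lit 4070]),
  ([nat_lit 33454, nat_lit 83673, nat_lit 107052, nat_lit 52558, nat_lit 104785, nat_lit 132416,
  nat_lit 104385, nat_lit 136433, nat_lit 84309, nat_lit 114107, nat_lit 139476, nat_lit 169940,
  nat_lit 112054, nat_lit 146248, nat_lit 171400, nat_lit 85049, nat_lit 124040, nat_lit 163381,
  nat_lit 182279, nat_lit 167384, nat_lit 139499, nat_lit 193203, nat_lit 191515, nat_lit 177204,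
  nat_lit 85941, nat_lit 166128, nat_lit 234420, nat_lit 221199, nat_lit 204305, nat_lit 197556,
  nat_lit 219523, nat_lit 310560, nat_lit 296330, nat_lit 269537, nat_lit 250233, nat_lit 120846,
  nat_lit 289248, nat_lit 425896, nat_lit 328009, nat_lit 229320, nat_lit 176593, nat_lit 160139,
  nat_lit 441497, nat_lit 504392, nat_lit 271178, nat_lit 179249, nat_lit 146871, nat_lit 129938,
  nat_lit 63808, nat_lit 671756, nat_lit 513878, nat_lit 233678, nat_lit 162857, nat_lit 130513,
  nat_lit 114839, nat_lit 110164, nat_lit 1028601, nat_lit 505445, nat_lit 217717,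
  nat_lit 152398, nat_lit 124835, nat_lit 109786, nat_lit 101631, nat_lit 50333, nat_lit 681659,
  nat_lit 494353, nat_lit 210260, nat_lit 149782, nat_lit 121600, nat_lit 106557, nat_lit 99216,
  nat_lit 94707, nat_lit 104131, nat_lit 148086, nat_lit 119774, nat_lit 106114, nat_lit 94045,
  nat_lit 92843, nat_lit 44159, nat_lit 59803, nat_lit 103671, nat_lit 95204, nat_lit 90919,
  nat_lit 85874, nat_lit 48136, nat_lit 88759, nat_lit 88645, nat_lit 42616, nat_lit 43298,
  nat_lit 82079, nat_lit 13935],
   [nat_lit 961701, nat_lit 1146870, nat_lit 1059836, nat_lit 362394, nat_lit 842618,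
  nat_lit 483500, nat_lit 714599, nat_lit 343406, nat_lit 150970, nat_lit 642693, nat_lit 270841,
  nat_lit 202733, nat_lit 596651, nat_lit 228435, nat_lit 149503, nat_lit 74799, nat_lit 560123,
  nat_lit 197047, nat_lit 123216, nat_lit 109143, nat_lit 537650, nat_lit 177546, nat_lit 104580,
  nat_lit 89360, nat_lit 41706, nat_lit 523485, nat_lit 162221, nat_lit 91896, nat_lit 76952,
  nat_lit 67107, nat_lit 521484, nat_lit 153057, nat_lit 86084, nat_lit 70254, nat_lit 62141,
  nat_lit 28204, nat_lit 512552, nat_lit 143167, nat_lit 77780, nat_lit 60443, nat_lit 52863,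
  nat_lit 47150, nat_lit 517174, nat_lit 137322, nat_lit 73121, nat_lit 57395, nat_lit 49789,
  nat_lit 42622, nat_lit 21309, nat_lit 519854, nat_lit 132516, nat_lit 70382, nat_lit 54103,
  nat_lit 46297, nat_lit 38931, nat_lit 37441, nat_lit 525429, nat_lit 129659, nat_lit 68471,
  nat_lit 51525, nat_lit 43668, nat_lit 36964, nat_lit 34344, nat_lit 17393, nat_lit 267931,
  nat_lit 128096, nat_lit 67795, nat_lit 50336, nat_lit 43249, nat_lit 35444, nat_lit 33190,
  nat_lit 31769, nat_lit 33735, nat_lit 49217, nat_lit 41704, nat_lit 34507, nat_lit 31159,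
  nat_lit 29904, nat_lit 14436, nat_lit 20570, nat_lit 33900, nat_lit 30114, nat_lit 29765,
  nat_lit 27648, nat_lit 14974, nat_lit 28725, nat_lit 27667, nat_lit 13364, nat_lit 13332,
  nat_lit 25962, nat_lit 4254])]

theorem run84 : run W84 data84 = true := by decide +kernel

end Vale.Agent.P154.AF.Eng
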