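import Vale.Agent.P154AF.Eng
import Vale.Agent.P154AF.Run84

/-! Run data, generations 133 to 140 (helper file). -/

namespace Vale.Agent.P154.AF.Eng

def W133 : List Nat :=
  [nat_lit 222, nat_lit 788, nat_lit 3996, nat_lit 5370, nat_lit 9373, nat_lit 43935,
  nat_lit 18083, nat_lit 87549, nat_lit 60690, nat_lit 27859, nat_lit 129749, nat_lit 182562,
  nat_lit 38573, nat_lit 163449, nat_lit 225262, nat_lit 118468, nat_lit 49365, nat_lit 189907,
  nat_lit 247507, nat_lit 251675, nat_lit 58127, nat_lit 211848, nat_lit 260557, nat_lit 260842,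
  nat_lit 133905, nat_lit 67560, nat_lit 227665, nat_lit 264389, nat_lit 265634, nat_lit 264920,
  nat_lit 76370, nat_lit 241959, nat_lit 271718, nat_lit 271340, nat_lit 266130, nat_lit 137133,
  nat_lit 82998, nat_lit 249170, nat_lit 270313, nat_lit 267258, nat_lit 257212, nat_lit 256679,
  nat_lit 88658, nat_lit 256094, nat_lit 271930, nat_lit 265182, nat_lit 258062, nat_lit 250562,
  nat_lit 128487, nat_lit 92520, nat_lit 260140, nat_lit 270209, nat_lit 264740, nat_lit 254216,
  nat_lit 246792, nat_lit 245385, nat_lit 95496, nat_lit 261679, nat_lit 271077, nat_lit 262274,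
  nat_lit 252371, nat_lit 243816, nat_lit 239071, nat_lit 120686, nat_lit 48116, nat_lit 263019,
  nat_lit 274300, nat_lit 261347, nat_lit 253205, nat_lit 241008, nat_lit 234329, nat_lit 233917,
  nat_lit 136273, nat_lit 258859, nat_lit 250271, nat_lit 239672, nat_lit 232288, nat_lit 232347,
  nat_lit 113864, nat_lit 126037, nat_lit 236987, nat_lit 228334, nat_lit 227916, nat_lit 223334,
  nat_lit 117290, nat_lit 225117, nat_lit 223720, nat_lit 110821, nat_lit 111306, nat_lit 219019,
  nat_lit 36964]

def data133 : List (List Nat × List Nat) := [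
  ([nat_lit 44, nat_lit 0, nat_lit 0, nat_lit 0, nat_lit 1, nat_lit 1, nat_lit 4, nat_lit 14,
  nat_lit 13, nat_lit 12, nat_lit 67, nat_lit 225, nat_lit 23, nat_lit 189, nat_lit 942,
  nat_lit 793, nat_lit 36, nat_lit 460, nat_lit 2803, nat_lit 6087, nat_lit 57, nat_lit 1111,
  nat_lit 6777, nat_lit 16315, nat_lit 10695, nat_lit 109, nat_lit 2653, nat_lit 15830,
  nat_lit 37175, nat_lit 52578, nat_lit 231, nat_lit 6992, nat_lit 37872, nat_lit 83767,
  nat_lit 120133, nat_lit 66876, nat_lit 663, nat_lit 21463, nat_lit 92463, nat_lit 172442,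
  nat_lit 225635, nat_lit 249761, nat_lit 2834, nat_lit 60267, nat_lit 179023, nat_lit 269291,
  nat_lit 316701, nat_lit 341600, nat_lit 175390, nat_lit 10101, nat_lit 119614, nat_lit 261786,
  nat_lit 338810, nat_lit 374493, nat_lit 397195, nat_lit 404600, nat_lit 20745, nat_lit 177387,
  nat_lit 319849, nat_lit 382605, nat_lit 413172, nat_lit 430147, nat_lit 436898, nat_lit 220794,
  nat_lit 13005, nat_lit 210198, nat_lit 353632, nat_lit 409109, nat_lit 437104, nat_lit 449969,
  nat_lit 456853, nat_lit 462248, nat_lit 182083, nat_lit 422527, nat_lit 447747, nat_lit 462075,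
  nat_lit 469847, nat_lit 474252, nat_lit 238038, nat_lit 225372, nat_lit 467862, nat_lit 475826,
  nat_lit 480102, nat_lit 483202, nat_lit 240286, nat_lit 483003, nat_lit 486285, nat_lit 243796,
  nat_lit 244291, nat_lit 490175, nat_lit 81715],
   [nat_lit 204, nat_lit 584, nat_lit 3089, nat_lit 4248, nat_lit 7589, nat_lit 37119,
  nat_lit 15190, nat_lit 77376, nat_lit 54442, nat_lit 24006, nat_lit 118070, nat_lit 170235,
  nat_lit 33923, nat_lit 151693, nat_lit 215034, nat_lit 114113, nat_lit 44070, nat_lit 178811,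
  nat_lit 239903, nat_lit 246647, nat_lit 52431, nat_lit 201639, nat_lit 255285, nat_lit 258491,
  nat_lit 133176, nat_lit 61495, nat_lit 218454, nat_lit 260988, nat_lit 265473, nat_lit 266012,
  nat_lit 69968, nat_lit 233662, nat_lit 269673, nat_lit 272780, nat_lit 269011, nat_lit 138891,
  nat_lit 76446, nat_lit 241736, nat_lit 269515, nat_lit 269867, nat_lit 261304, nat_lit 261439,
  nat_lit 81965, nat_lit 249301, nat_lit 271990, nat_lit 268641, nat_lit 263168, nat_lit 256262,
  nat_lit 131634, nat_lit 85731, nat_lit 253873, nat_lit 270817, nat_lit 268793, nat_lit 259993,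
  nat_lit 253200, nat_lit 252286, nat_lit 88617, nat_lit 255783, nat_lit 272125, nat_lit 266703,
  nat_lit 258710, nat_lit 250738, nat_lit 246433, nat_lit 124543, nat_lit 44666, nat_lit 257314,
  nat_lit 275570, nat_lit 266037, nat_lit 259807, nat_lit 248184, nat_lit 241874, nat_lit 241933,
  nat_lit 136958, nat_lit 263626, nat_lit 257210, nat_lit 247150, nat_lit 240077, nat_lit 240753,
  nat_lit 117992, nat_lit 129500, nat_lit 244450, nat_lit 236218, nat_lit 236381, nat_lit 231810,
  nat_lit 121358, nat_lit 233613, nat_lit 232384, nat_lit 115148, nat_lit 115643, nat_lit 227712,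
  nat_lit 38460]),
  ([nat_lit 49, nat_lit 0, nat_lit 0, nat_lit 0, nat_lit 1, nat_lit 1, nat_lit 3, nat_lit 9,
  nat_lit 8, nat_lit 9, nat_lit 47, nat_lit 160, nat_lit 18, nat_lit 137, nat_lit 712,
  nat_lit 609, nat_lit 29, nat_lit 346, nat_lit 2224, nat_lit 4958, nat_lit 46, nat_lit 866,
  nat_lit 5588, nat_lit 13900, nat_lit 9216, nat_lit 86, nat_lit 2131, nat_lit 13503,
  nat_lit 32824, nat_lit 47152, nat_lit 181, nat_lit 5800, nat_lit 33293, nat_lit 76198,
  nat_lit 111194, nat_lit 62231, nat_lit 523, nat_lit 18430, nat_lit 83861, nat_lit 161602,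
  nat_lit 215286, nat_lit 240193, nat_lit 2300, nat_lit 53504, nat_lit 167095, nat_lit 259100,
  nat_lit 309660, nat_lit 336689, nat_lit 173337, nat_lit 8473, nat_lit 108731, nat_lit 249673,
  nat_lit 331944, nat_lit 372063, nat_lit 397640, nat_lit 406488, nat_lit 17733, nat_lit 163673,
  nat_lit 309278, nat_lit 378984, nat_lit 414547, nat_lit 434748, nat_lit 443269, nat_lit 224329,
  nat_lit 11170, nat_lit 195249, nat_lit 344425, nat_lit 407771, nat_lit 441181, nat_lit 457540,
  nat_lit 466436, nat_lit 472947, nat_lit 177735, nat_lit 422455, nat_lit 453337, nat_lit 471474,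
  nat_lit 481603, nat_lit 487468, nat_lit 244868, nat_lit 228375, nat_lit 478208, nat_lit 488853,
  nat_lit 494796, nat_lit 498822, nat_lit 246976, nat_lit 498431, nat_lit 502822, nat_lit 252278,
  nat_lit 252771, nat_lit 507829, nat_lit 84714],
   [nat_lit 195, nat_lit 436, nat_lit 2386, nat_lit 3354, nat_lit 6137, nat_lit 31277,
  nat_lit 12744, nat_lit 68212, nat_lit 48704, nat_lit 20662, nat_lit 107198, nat_lit 158338,
  nat_lit 29806, nat_lit 140494, nat_lit 204818, nat_lit 109671, nat_lit 39310, nat_lit 168043,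
  nat_lit 232075, nat_lit 241247, nat_lit 47259, nat_lit 191585, nat_lit 249669, nat_lit 255721,
  nat_lit 132213, nat_lit 55937, nat_lit 209270, nat_lit 257203, nat_lit 264896, nat_lit 266681,
  nat_lit 64065, nat_lit 225298, nat_lit 267228, nat_lit 273827, nat_lit 271512, nat_lit 140472,
  nat_lit 70374, nat_lit 234172, nat_lit 268321, nat_lit 272121, nat_lit 265084, nat_lit 265935,
  nat_lit 75741, nat_lit 242337, nat_lit 271660, nat_lit 271784, nat_lit 268009, nat_lit 261748,
  nat_lit 134691, nat_lit 79404, nat_lit 247407, nat_lit 271050, nat_lit 272557, nat_lit 265554,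
  nat_lit 259446, nat_lit 259066, nat_lit 82197, nat_lit 249671, nat_lit 272806, nat_lit 270865,
  nat_lit 264871, nat_lit 257536, nat_lit 253729, nat_lit 128367, nat_lit 41446, nat_lit 251387,
  nat_lit 276468, nat_lit 270478, nat_lit 266251, nat_lit 255267, nat_lit 249387, nat_lit 249942,
  nat_lit 137460, nat_lit 268149, nat_lit 264014, nat_lit 254553, nat_lit 247857, nat_lit 249179,
  nat_lit 122132, nat_lit 132894, nat_lit 251853, nat_lit 244108, nat_lit 244884, nat_lit 240346,
  nat_lit 125427, nat_lit 242165, nat_lit 241119, nat_lit 119515, nat_lit 120014, nat_lit 236502,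
  nat_lit 39973]),
  ([nat_lit 46, nat_lit 0, nat_lit 0, nat_lit 0, nat_lit 0, nat_lit 0, nat_lit 3, nat_lit 6,
  nat_lit 5, nat_lit 8, nat_lit 32, nat_lit 113, nat_lit 15, nat_lit 100, nat_lit 537,
  nat_lit 466, nat_lit 25, nat_lit 261, nat_lit 1760, nat_lit 4026, nat_lit 38, nat_lit 674,
  nat_lit 4596, nat_lit 11809, nat_lit 7918, nat_lit 70, nat_lit 1710, nat_lit 11494,
  nat_lit 28913, nat_lit 42183, nat_lit 144, nat_lit 4805, nat_lit 29214, nat_lit 69175,
  nat_lit 102711, nat_lit 57792, nat_lit 415, nat_lit 15806, nat_lit 75930, nat_lit 151159,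
  nat_lit 205019, nat_lit 230550, nat_lit 1869, nat_lit 47445, nat_lit 155699, nat_lit 248841,
  nat_lit 302240, nat_lit 331275, nat_lit 171014, nat_lit 7102, nat_lit 98717, nat_lit 237714,
  nat_lit 324674, nat_lit 369069, nat_lit 397484, nat_lit 407781, nat_lit 15149, nat_lit 150830,
  nat_lit 298557, nat_lit 374823, nat_lit 415346, nat_lit 438820, nat_lit 449153, nat_lit 227630,
  nat_lit 9588, nat_lit 181131, nat_lit 334915, nat_lit 405859, nat_lit 444724, nat_lit 464677,
  nat_lit 475666, nat_lit 483339, nat_lit 173214, nat_lit 421803, nat_lit 458437, nat_lit 480525,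
  nat_lit 493116, nat_lit 500521, nat_lit 251630, nat_lit 231140, nat_lit 488250, nat_lit 501714,
  nat_lit 509430, nat_lit 514430, nat_lit 253593, nat_lit 513845, nat_lit 519433, nat_lit 260809,
  nat_lit 261296, nat_lit 525627, nat_lit 87744],
   [nat_lit 174, nat_lit 325, nat_lit 1842, nat_lit 2644, nat_lit 4957, nat_lit 26296,
  nat_lit 10680, nat_lit 60003, nat_lit 43465, nat_lit 17768, nat_lit 97135, nat_lit 146934,
  nat_lit 26169, nat_lit 129884, nat_lit 194690, nat_lit 105180, nat_lit 35040, nat_lit 157654,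
  nat_lit 224093, nat_lit 235531, nat_lit 42572, nat_lit 181744, nat_lit 243765, nat_lit 252569,
  nat_lit 131035, nat_lit 50855, nat_lit 200175, nat_lit 253076, nat_lit 263924, nat_lit 266941,
  nat_lit 58632, nat_lit 216927, nat_lit 264418, nat_lit 274492, nat_lit 273638, nat_lit 141879,
  nat_lit 64756, nat_lit 226536, nat_lit 266757, nat_lit 274024, nat_lit 268551, nat_lit 270160,
  nat_lit 69963, nat_lit 235256, nat_lit 270961, nat_lit 274610, nat_lit 272579, nat_lit 267012,
  nat_lit 137652, nat_lit 73518, nat_lit 240793, nat_lit 270928, nat_lit 276028, nat_lit 270887,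
  nat_lit 265520, nat_lit 265712, nat_lit 76216, nat_lit 243392, nat_lit 273134, nat_lit 274755,
  nat_lit 270842, nat_lit 264197, nat_lit 260943, nat_lit 132150, nat_lit 38443, nat_lit 245289,
  nat_lit 277008, nat_lit 274664, nat_lit 272523, nat_lit 262245, nat_lit 256855, nat_lit 257926,
  nat_lit 137787, nat_lit 272422, nat_lit 270668, nat_lit 261869, nat_lit 255614, nat_lit 257607,
  nat_lit 126278, nat_lit 136214, nat_lit 259182, nat_lit 251989, nat_lit 253411, nat_lit 248926,
  nat_lit 129491, nat_lit 250757, nat_lit 249911, nat_lit 123916, nat_lit 124410, nat_lit 245374,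
  nat_lit 41499]),
  ([nat_lit 44, nat_lit 0, nat_lit 0, nat_lit 0, nat_lit 0, nat_lit 0, nat_lit 2, nat_lit 4,
  nat_lit 3, nat_lit 6, nat_lit 22, nat_lit 80, nat_lit 12, nat_lit 72, nat_lit 404, nat_lit 356,
  nat_lit 20, nat_lit 196, nat_lit 1390, nat_lit 3260, nat_lit 31, nat_lit 524, nat_lit 3773,
  nat_lit 10008, nat_lit 6786, nat_lit 56, nat_lit 1370, nat_lit 9767, nat_lit 25415,
  nat_lit 37655, nat_lit 114, nat_lit 3976, nat_lit 25594, nat_lit 62687, nat_lit 94702,
  nat_lit 53570, nat_lit 327, nat_lit 13544, nat_lit 68650, nat_lit 141153, nat_lit 194900,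
  nat_lit 220905, nat_lit 1515, nat_lit 42033, nat_lit 144865, nat_lit 238590, nat_lit 294510,
  nat_lit 325420, nat_lit 168451, nat_lit 5945, nat_lit 89536, nat_lit 225980, nat_lit 317069,
  nat_lit 365556, nat_lit 396758, nat_lit 408500, nat_lit 12929, nat_lit 138846, nat_lit 287769,
  nat_lit 370172, nat_lit 415591, nat_lit 442367, nat_lit 454546, nat_lit 230695, nat_lit 8222,
  nat_lit 167848, nat_lit 325181, nat_lit 403412, nat_lit 447745, nat_lit 471372, nat_lit 484528,
  nat_lit 493406, nat_lit 168558, nat_lit 420601, nat_lit 463048, nat_lit 489214, nat_lit 504365,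
  nat_lit 513386, nat_lit 258308, nat_lit 233667, nat_lit 497972, nat_lit 514386, nat_lit 523978,
  nat_lit 529999, nat_lit 260125, nat_lit 529217, nat_lit 536090, nat_lit 269374, nat_lit 269852,
  nat_lit 543542, nat_lit 90799],
   [nat_lit 162, nat_lit 243, nat_lit 1420, nat_lit 2083, nat_lit 3999, nat_lit 22069,
  nat_lit 8939, nat_lit 52683, nat_lit 38708, nat_lit 15263, nat_lit 87863, nat_lit 136067,
  nat_lit 22957, nat_lit 119882, nat_lit 184720, nat_lit 100677, nat_lit 31213, nat_lit 147683,
  nat_lit 216020, nat_lit 229554, nat_lit 38327, nat_lit 172165, nat_lit 237628, nat_lit 249072,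
  nat_lit 129659, nat_lit 46210, nat_lit 191218, nat_lit 248652, nat_lit 262580, nat_lit 266813,
  nat_lit 53635, nat_lit 208602, nat_lit 261279, nat_lit 274789, nat_lit 275397, nat_lit 143115,
  nat_lit 59562, nat_lit 218878, nat_lit 264852, nat_lit 275583, nat_lit 271705, nat_lit 274112,
  nat_lit 64602, nat_lit 228108, nat_lit 269918, nat_lit 277121, nat_lit 276873, nat_lit 272047,
  nat_lit 140510, nat_lit 68045, nat_lit 234080, nat_lit 270470, nat_lit 279206, nat_lit 275986,
  nat_lit 271414, nat_lit 272211, nat_lit 70647, nat_lit 236996, nat_lit 273128, nat_lit 278372,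
  nat_lit 276614, nat_lit 270711, nat_lit 268063, nat_lit 135885, nat_lit 35646, nat_lit 239066,
  nat_lit 277208, nat_lit 278592, nat_lit 278613, nat_lit 269107, nat_lit 264264, nat_lit 265873,
  nat_lit 137947, nat_lit 276440, nat_lit 277159, nat_lit 269085, nat_lit 263336, nat_lit 266022,
  nat_lit 130424, nat_lit 139453, nat_lit 266425, nat_lit 259848, nat_lit 261945, nat_lit 257537,
  nat_lit 133542, nat_lit 259374, nat_lit 258745, nat_lit 128344, nat_lit 128825, nat_lit 254314,
  nat_lit 43037]),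
  ([nat_lit 42, nat_lit 0, nat_lit 0, nat_lit 0, nat_lit 0, nat_lit 0, nat_lit 1, nat_lit 2,
  nat_lit 2, nat_lit 5, nat_lit 15, nat_lit 56, nat_lit 10, nat_lit 52, nat_lit 303, nat_lit 271,
  nat_lit 17, nat_lit 147, nat_lit 1095, nat_lit 2634, nat_lit 26, nat_lit 407, nat_lit 3092,
  nat_lit 8464, nat_lit 5803, nat_lit 46, nat_lit 1096, nat_lit 8287, nat_lit 22299,
  nat_lit 33548, nat_lit 92, nat_lit 3287, nat_lit 22393, nat_lit 56719, nat_lit 87172,
  nat_lit 49574, nat_lit 260, nat_lit 11597, nat_lit 61989, nat_lit 131609, nat_lit 184985,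
  nat_lit 211319, nat_lit 1230, nat_lit 37211, nat_lit 134608, nat_lit 228411, nat_lit 286537,
  nat_lit 319182, nat_lit 165675, nat_lit 4976, nat_lit 81142, nat_lit 214527, nat_lit 309192,
  nat_lit 361570, nat_lit 395493, nat_lit 408670, nat_lit 11032, nat_lit 127700, nat_lit 276982,
  nat_lit 365082, nat_lit 415307, nat_lit 445399, nat_lit 459451, nat_lit 233522, nat_lit 7049,
  nat_lit 155394, nat_lit 315293, nat_lit 400466, nat_lit 450251, nat_lit 477621, nat_lit 493010,
  nat_lit 503134, nat_lit 163801, nat_lit 418880, nat_lit 467173, nat_lit 497530, nat_lit 515333,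
  nat_lit 526039, nat_lit 264894, nat_lit 235957, nat_lit 507358, nat_lit 526847, nat_lit 538414,
  nat_lit 545504, nat_lit 266561, nat_lit 544522, nat_lit 552765, nat_lit 277959, nat_lit 278425,
  nat_lit 561547, nat_lit 93874],
   [nat_lit 145, nat_lit 182, nat_lit 1095, nat_lit 1640, nat_lit 3224, nat_lit 18493,
  nat_lit 7479, nat_lit 46182, nat_lit 34407, nat_lit 13105, nat_lit 79356, nat_lit 125767,
  nat_lit 20133, nat_lit 110494, nat_lit 174963, nat_lit 96192, nat_lit 27795, nat_lit 138156,
  nat_lit 207914, nat_lit 223368, nat_lit 34496, nat_lit 162884, nat_lit 231306, nat_lit 245264,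
  nat_lit 128106, nat_lit 41980, nat_lit 182443, nat_lit 243971, nat_lit 260886, nat_lit 266316,
  nat_lit 49054, nat_lit 200365, nat_lit 257844, nat_lit 274732, nat_lit 276797, nat_lit 144182,
  nat_lit 54775, nat_lit 211241, nat_lit 262632, nat_lit 276806, nat_lit 274548, nat_lit 277789,
  nat_lit 59644, nat_lit 220937, nat_lit 268551, nat_lit 279320, nat_lit 280888, nat_lit 276848,
  nat_lit 143262, nat_lit 62971, nat_lit 227311, nat_lit 269696, nat_lit 282091, nat_lit 280844,
  nat_lit 277117, nat_lit 278552, nat_lit 65477, nat_lit 230522, nat_lit 272803, nat_lit 281712,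
  nat_lit 282177, nat_lit 277068, nat_lit 275076, nat_lit 139566, nat_lit 33048, nat_lit 232759,
  nat_lit 277084, nat_lit 282257, nat_lit 284512, nat_lit 275844, nat_lit 271601, nat_lit 273768,
  nat_lit 137946, nat_lit 280201, nat_lit 283477, nat_lit 276191, nat_lit 271009, nat_lit 274410,
  nat_lit 134561, nat_lit 142605, nat_lit 273572, nat_lit 267672, nat_lit 270473, nat_lit 266166,
  nat_lit 137574, nat_lit 268001, nat_lit 267608, nat_lit 132792, nat_lit 133253, nat_lit 263309,
  nat_lit 44583]),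
  ([nat_lit 44, nat_lit 0, nat_lit 0, nat_lit 0, nat_lit 0, nat_lit 0, nat_lit 1, nat_lit 1,
  nat_lit 1, nat_lit 4, nat_lit 10, nat_lit 40, nat_lit 8, nat_lit 37, nat_lit 227, nat_lit 206,
  nat_lit 14, nat_lit 110, nat_lit 862, nat_lit 2124, nat_lit 21, nat_lit 316, nat_lit 2530,
  nat_lit 7146, nat_lit 4953, nat_lit 38, nat_lit 877, nat_lit 7022, nat_lit 19535,
  nat_lit 29839, nat_lit 73, nat_lit 2717, nat_lit 19572, nat_lit 51250, nat_lit 80126,
  nat_lit 45810, nat_lit 206, nat_lit 9926, nat_lit 55917, nat_lit 122548, nat_lit 175322,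
  nat_lit 201851, nat_lit 997, nat_lit 32926, nat_lit 124938, nat_lit 218366, nat_lit 278385,
  nat_lit 312620, nat_lit 162716, nat_lit 4162, nat_lit 73488, nat_lit 203404, nat_lit 301106,
  nat_lit 357158, nat_lit 393723, nat_lit 408316, nat_lit 9409, nat_lit 117365, nat_lit 266263,
  nat_lit 359604, nat_lit 414523, nat_lit 447928, nat_lit 463871, nat_lit 236113, nat_lit 6041,
  nat_lit 143752, nat_lit 305320, nat_lit 397063, nat_lit 452259, nat_lit 483424, nat_lit 501102,
  nat_lit 512508, nat_lit 158979, nat_lit 416674, nat_lit 470819, nat_lit 505465, nat_lit 526003,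
  nat_lit 538461, nat_lit 271375, nat_lit 238013, nat_lit 516398, nat_lit 539078, nat_lit 552714,
  nat_lit 560917, nat_lit 272892, nat_lit 559734, nat_lit 569432, nat_lit 286550, nat_lit 287001,
  nat_lit 579612, nat_lit 96965],
   [nat_lit 141, nat_lit 136, nat_lit 844, nat_lit 1291, nat_lit 2598, nat_lit 15480,
  nat_lit 6253, nat_lit 40432, nat_lit 30537, nat_lit 11248, nat_lit 71583, nat_lit 116053,
  nat_lit 17650, nat_lit 101718, nat_lit 165468, nat_lit 91754, nat_lit 24745, nat_lit 129092,
  nat_lit 199827, nat_lit 217025, nat_lit 31041, nat_lit 153932, nat_lit 224851, nat_lit 241184,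
  nat_lit 126394, nat_lit 38128, nat_lit 173886, nat_lit 239075, nat_lit 258871, nat_lit 265474,
  nat_lit 44856, nat_lit 192258, nat_lit 254150, nat_lit 274340, nat_lit 277851, nat_lit 145086,
  nat_lit 50366, nat_lit 203668, nat_lit 260127, nat_lit 277704, nat_lit 277086, nat_lit 281192,
  nat_lit 55060, nat_lit 213784, nat_lit 266888, nat_lit 281213, nat_lit 284624, nat_lit 281413,
  nat_lit 145904, nat_lit 58270, nat_lit 220525, nat_lit 268628, nat_lit 284685, nat_lit 285457,
  nat_lit 282626, nat_lit 284726, nat_lit 60680, nat_lit 224010, nat_lit 272180, nat_lit 284777,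
  nat_lit 287525, nat_lit 283261, nat_lit 281971, nat_lit 143185, nat_lit 30636, nat_lit 226406,
  nat_lit 276656, nat_lit 285660, nat_lit 290213, nat_lit 282445, nat_lit 278855, nat_lit 281599,
  nat_lit 137794, nat_lit 283703, nat_lit 289611, nat_lit 283175, nat_lit 278622, nat_lit 282756,
  nat_lit 138686, nat_lit 145667, nat_lit 280611, nat_lit 275448, nat_lit 278979, nat_lit 274798,
  nat_lit 141580, nat_lit 276625, nat_lit 276486, nat_lit 137252, nat_lit 137687, nat_lit 272344,
  nat_lit 46135]),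
  ([nat_lit 41, nat_lit 0, nat_lit 0, nat_lit 0, nat_lit 0, nat_lit 0, nat_lit 1, nat_lit 1,
  nat_lit 1, nat_lit 3, nat_lit 7, nat_lit 28, nat_lit 7, nat_lit 27, nat_lit 170, nat_lit 156,
  nat_lit 12, nat_lit 82, nat_lit 677, nat_lit 1711, nat_lit 19, nat_lit 245, nat_lit 2069,
  nat_lit 6025, nat_lit 4221, nat_lit 32, nat_lit 701, nat_lit 5946, nat_lit 17092,
  nat_lit 26502, nat_lit 61, nat_lit 2244, nat_lit 17093, nat_lit 46257, nat_lit 73557,
  nat_lit 42276, nat_lit 166, nat_lit 8494, nat_lit 50399, nat_lit 113980, nat_lit 165951,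
  nat_lit 192550, nat_lit 812, nat_lit 29126, nat_lit 115853, nat_lit 208503, nat_lit 270114,
  nat_lit 305791, nat_lit 159599, nat_lit 3485, nat_lit 66526, nat_lit 192651, nat_lit 292871,
  nat_lit 352367, nat_lit 391483, nat_lit 407469, nat_lit 8030, nat_lit 107807, nat_lit 255668,
  nat_lit 353789, nat_lit 413266, nat_lit 449969, nat_lit 467815, nat_lit 238470, nat_lit 5179,
  nat_lit 132902, nat_lit 295324, nat_lit 393242, nat_lit 453785, nat_lit 488782, nat_lit 508799,
  nat_lit 521520, nat_lit 154121, nat_lit 414018, nat_lit 473995, nat_lit 513012, nat_lit 536363,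
  nat_lit 550633, nat_lit 277742, nat_lit 239838, nat_lit 525081, nat_lit 551060, nat_lit 566855,
  nat_lit 576215, nat_lit 279108, nat_lit 574829, nat_lit 586064, nat_lit 295135, nat_lit 295567,
  nat_lit 597712, nat_lit 100067],
   [nat_lit 138, nat_lit 103, nat_lit 652, nat_lit 1017, nat_lit 2096, nat_lit 12948,
  nat_lit 5230, nat_lit 35361, nat_lit 27066, nat_lit 9655, nat_lit 64503, nat_lit 106932,
  nat_lit 15477, nat_lit 93544, nat_lit 156274, nat_lit 87390, nat_lit 22032, nat_lit 120502,
  nat_lit 191806, nat_lit 210571, nat_lit 27936, nat_lit 145332, nat_lit 218306, nat_lit 236868,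
  nat_lit 124543, nat_lit 34634, nat_lit 165576, nat_lit 234003, nat_lit 256558, nat_lit 264307,
  nat_lit 41022, nat_lit 184313, nat_lit 250229, nat_lit 273629, nat_lit 278573, nat_lit 145830,
  nat_lit 46317, nat_lit 196193, nat_lit 257365, nat_lit 278290, nat_lit 279325, nat_lit 284321,
  nat_lit 50835, nat_lit 206683, nat_lit 264951, nat_lit 282806, nat_lit 288083, nat_lit 285739,
  nat_lit 148432, nat_lit 53926, nat_lit 213759, nat_lit 267286, nat_lit 286992, nat_lit 289824,
  nat_lit 287933, nat_lit 290724, nat_lit 56241, nat_lit 217497, nat_lit 271278, nat_lit 287569,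
  nat_lit 292651, nat_lit 289280, nat_lit 288737, nat_lit 146739, nat_lit 28403, nat_lit 220043,
  nat_lit 275941, nat_lit 288800, nat_lit 295708, nat_lit 288903, nat_lit 286014, nat_lit 289352,
  nat_lit 137500, nat_lit 286947, nat_lit 295554, nat_lit 290028, nat_lit 286162, nat_lit 291046,
  nat_lit 142790, nat_lit 148634, nat_lit 287535, nat_lit 283165, nat_lit 287451, nat_lit 283421,
  nat_lit 145555, nat_lit 285230, nat_lit 285366, nat_lit 141718, nat_lit 142120, nat_lit 281407,
  nat_lit 47691])]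

theorem run133 : run W133 data133 = true := by decide +kernel

end Vale.Agent.P154.AF.Eng
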