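import Vale.Agent.P154AF.Eng

/-! Run data, generations 42 to 49 (helper file). -/

namespace Vale.Agent.P154.AF.Eng

def W42 : List Nat :=
  [nat_lit 4640085, nat_lit 1585178, nat_lit 1218017, nat_lit 133197, nat_lit 909570,
  nat_lit 151828, nat_lit 736378, nat_lit 101640, nat_lit 41011, nat_lit 649941, nat_lit 76097,
  nat_lit 55189, nat_lit 597192, nat_lit 63200, nat_lit 39104, nat_lit 20699, nat_lit 559909,
  nat_lit 53718, nat_lit 31873, nat_lit 29568, nat_lit 538811, nat_lit 48085, nat_lit 26861,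
  nat_lit 22780, nat_lit 11556, nat_lit 530566, nat_lit 43646, nat_lit 23187, nat_lit 19342,
  nat_lit 17670, nat_lit 538996, nat_lit 41181, nat_lit 21826, nat_lit 17687, nat_lit 16331,
  nat_lit 7302, nat_lit 527158, nat_lit 38235, nat_lit 19497, nat_lit 14785, nat_lit 13495,
  nat_lit 11725, nat_lit 542172, nat_lit 36456, nat_lit 18185, nat_lit 13923, nat_lit 12834,
  nat_lit 10697, nat_lit 5335, nat_lit 556319, nat_lit 34941, nat_lit 17454, nat_lit 12977,
  nat_lit 11910, nat_lit 9532, nat_lit 9263, nat_lit 588194, nat_lit 34195, nat_lit 17025,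
  nat_lit 12384, nat_lit 11017, nat_lit 9225, nat_lit 8241, nat_lit 4355, nat_lit 333462,
  nat_lit 34074, nat_lit 17025, nat_lit 11988, nat_lit 11187, nat_lit 8856, nat_lit 8221,
  nat_lit 7864, nat_lit 8385, nat_lit 11725, nat_lit 10639, nat_lit 8655, nat_lit 7446,
  nat_lit 7322, nat_lit 3490, nat_lit 5144, nat_lit 8333, nat_lit 7190, nat_lit 7341,
  nat_lit 6782, nat_lit 3535, nat_lit 7123, nat_lit 6922, nat_lit 3298, nat_lit 3248,
  nat_lit 6182, nat_lit 1029]

def data42 : List (List Nat × List Nat) := [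
  ([nat_lit 649006, nat_lit 470691, nat_lit 415708, nat_lit 86553, nat_lit 340475, nat_lit 152394,
  nat_lit 301113, nat_lit 131623, nat_lit 68833, nat_lit 316847, nat_lit 120606, nat_lit 115820,
  nat_lit 289712, nat_lit 120707, nat_lit 106506, nat_lit 49478, nat_lit 322352, nat_lit 130270,
  nat_lit 111097, nat_lit 89267, nat_lit 353515, nat_lit 152708, nat_lit 111489, nat_lit 94016,
  nat_lit 44473, nat_lit 406960, nat_lit 181224, nat_lit 131057, nat_lit 113983, nat_lit 109588,
  nat_lit 535694, nat_lit 246702, nat_lit 190895, nat_lit 166943, nat_lit 150784, nat_lit 71980,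
  nat_lit 576085, nat_lit 309934, nat_lit 178761, nat_lit 100674, nat_lit 65090, nat_lit 57529,
  nat_lit 736962, nat_lit 313097, nat_lit 116613, nat_lit 69174, nat_lit 56596, nat_lit 47859,
  nat_lit 23987, nat_lit 968379, nat_lit 271576, nat_lit 101772, nat_lit 68496, nat_lit 52516,
  nat_lit 44730, nat_lit 43813, nat_lit 1546913, nat_lit 245931, nat_lit 96180, nat_lit 68264,
  nat_lit 53957, nat_lit 45551, nat_lit 42062, nat_lit 20718, nat_lit 1674245, nat_lit 232443,
  nat_lit 95483, nat_lit 69244, nat_lit 56292, nat_lit 47949, nat_lit 43754, nat_lit 40867,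
  nat_lit 48177, nat_lit 69681, nat_lit 57225, nat_lit 51879, nat_lit 42235, nat_lit 42986,
  nat_lit 19578, nat_lit 28495, nat_lit 50370, nat_lit 46741, nat_lit 44543, nat_lit 41584,
  nat_lit 25450, nat_lit 43527, nat_lit 44110, nat_lit 20673, nat_lit 20953, nat_lit 37941,
  nat_lit 6503],
   [nat_lit 4570738, nat_lit 1591551, nat_lit 1223446, nat_lit 136344, nat_lit 913426,
  nat_lit 155427, nat_lit 739377, nat_lit 104042, nat_lit 42010, nat_lit 652318, nat_lit 77909,
  nat_lit 56495, nat_lit 599192, nat_lit 64692, nat_lit 40026, nat_lit 21180, nat_lit 561574,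
  nat_lit 54981, nat_lit 32617, nat_lit 30253, nat_lit 540219, nat_lit 49209, nat_lit 27482,
  nat_lit 23316, nat_lit 11817, nat_lit 531683, nat_lit 44660, nat_lit 23725, nat_lit 19796,
  nat_lit 18079, nat_lit 539765, nat_lit 42137, nat_lit 22331, nat_lit 18104, nat_lit 16708,
  nat_lit 7473, nat_lit 528019, nat_lit 39122, nat_lit 19950, nat_lit 15131, nat_lit 13808,
  nat_lit 12000, nat_lit 542883, nat_lit 37303, nat_lit 18606, nat_lit 14252, nat_lit 13128,
  nat_lit 10948, nat_lit 5460, nat_lit 556895, nat_lit 35753, nat_lit 17859, nat_lit 13283,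
  nat_lit 12183, nat_lit 9758, nat_lit 9478, nat_lit 588168, nat_lit 34989, nat_lit 17418,
  nat_lit 12675, nat_lit 11269, nat_lit 9440, nat_lit 8438, nat_lit 4455, nat_lit 332257,
  nat_lit 34863, nat_lit 17416, nat_lit 12270, nat_lit 11441, nat_lit 9062, nat_lit 8414,
  nat_lit 8047, nat_lit 8579, nat_lit 12003, nat_lit 10881, nat_lit 8857, nat_lit 7622,
  nat_lit 7491, nat_lit 3572, nat_lit 5261, nat_lit 8527, nat_lit 7360, nat_lit 7512,
  nat_lit 6940, nat_lit 3620, nat_lit 7288, nat_lit 7083, nat_lit 3375, nat_lit 3323,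
  nat_lit 6327, nat_lit 1052]),
  ([nat_lit 629889, nat_lit 465718, nat_lit 412322, nat_lit 87289, nat_lit 337978, nat_lit 154043,
  nat_lit 299054, nat_lit 133141, nat_lit 69725, nat_lit 314565, nat_lit 122024, nat_lit 117402,
  nat_lit 287701, nat_lit 122087, nat_lit 107966, nat_lit 50176, nat_lit 319896, nat_lit 131711,
  nat_lit 112537, nat_lit 90516, nat_lit 350772, nat_lit 154279, nat_lit 112892, nat_lit 95237,
  nat_lit 45054, nat_lit 403769, nat_lit 183018, nat_lit 132554, nat_lit 115255, nat_lit 110758,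
  nat_lit 530755, nat_lit 248713, nat_lit 192572, nat_lit 168306, nat_lit 151974, nat_lit 72536,
  nat_lit 572729, nat_lit 312708, nat_lit 180769, nat_lit 102037, nat_lit 66148, nat_lit 58490,
  nat_lit 734161, nat_lit 316568, nat_lit 118257, nat_lit 70237, nat_lit 57442, nat_lit 48604,
  nat_lit 24352, nat_lit 966885, nat_lit 275212, nat_lit 103109, nat_lit 69409, nat_lit 53247,
  nat_lit 45363, nat_lit 44418, nat_lit 1544996, nat_lit 249489, nat_lit 97448, nat_lit 69048,
  nat_lit 54626, nat_lit 46141, nat_lit 42605, nat_lit 20988, nat_lit 1654139, nat_lit 235813,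
  nat_lit 96657, nat_lit 70023, nat_lit 56875, nat_lit 48499, nat_lit 44269, nat_lit 41360,
  nat_lit 48740, nat_lit 70437, nat_lit 57785, nat_lit 52355, nat_lit 42700, nat_lit 43441,
  nat_lit 19797, nat_lit 28794, nat_lit 50831, nat_lit 47166, nat_lit 44937, nat_lit 41940,
  nat_lit 25619, nat_lit 43919, nat_lit 44509, nat_lit 20867, nat_lit 21161, nat_lit 38341,
  nat_lit 6572],
   [nat_lit 4501908, nat_lit 1597557, nat_lit 1228668, nat_lit 139519, nat_lit 917158,
  nat_lit 159068, nat_lit 742292, nat_lit 106475, nat_lit 43023, nat_lit 654635, nat_lit 79746,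
  nat_lit 57819, nat_lit 601144, nat_lit 66205, nat_lit 40962, nat_lit 21667, nat_lit 563200,
  nat_lit 56261, nat_lit 33372, nat_lit 30947, nat_lit 541594, nat_lit 50349, nat_lit 28113,
  nat_lit 23860, nat_lit 12082, nat_lit 532774, nat_lit 45688, nat_lit 24272, nat_lit 20257,
  nat_lit 18493, nat_lit 540516, nat_lit 43107, nat_lit 22845, nat_lit 18528, nat_lit 17092,
  nat_lit 7645, nat_lit 528856, nat_lit 40022, nat_lit 20410, nat_lit 15483, nat_lit 14125,
  nat_lit 12279, nat_lit 543569, nat_lit 38161, nat_lit 19034, nat_lit 14586, nat_lit 13427,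
  nat_lit 11203, nat_lit 5586, nat_lit 557442, nat_lit 36577, nat_lit 18269, nat_lit 13595,
  nat_lit 12459, nat_lit 9987, nat_lit 9698, nat_lit 588116, nat_lit 35794, nat_lit 17817,
  nat_lit 12971, nat_lit 11525, nat_lit 9657, nat_lit 8639, nat_lit 4557, nat_lit 331079,
  nat_lit 35664, nat_lit 17812, nat_lit 12557, nat_lit 11699, nat_lit 9271, nat_lit 8610,
  nat_lit 8232, nat_lit 8776, nat_lit 12284, nat_lit 11127, nat_lit 9062, nat_lit 7801,
  nat_lit 7664, nat_lit 3655, nat_lit 5380, nat_lit 8725, nat_lit 7533, nat_lit 7685,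
  nat_lit 7101, nat_lit 3706, nat_lit 7456, nat_lit 7247, nat_lit 3453, nat_lit 3400,
  nat_lit 6475, nat_lit 1077]),
  ([nat_lit 611202, nat_lit 460634, nat_lit 408852, nat_lit 87990, nat_lit 335422, nat_lit 155648,
  nat_lit 296952, nat_lit 134630, nat_lit 70605, nat_lit 312249, nat_lit 123421, nat_lit 118974,
  nat_lit 285663, nat_lit 123450, nat_lit 109422, nat_lit 50873, nat_lit 317421, nat_lit 133134,
  nat_lit 113972, nat_lit 91767, nat_lit 348013, nat_lit 155832, nat_lit 114294, nat_lit 96461,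
  nat_lit 45636, nat_lit 400563, nat_lit 184792, nat_lit 134050, nat_lit 116530, nat_lit 111934,
  nat_lit 525839, nat_lit 250704, nat_lit 194249, nat_lit 169674, nat_lit 153172, nat_lit 73096,
  nat_lit 569345, nat_lit 315461, nat_lit 182784, nat_lit 103413, nat_lit 67218, nat_lit 59463,
  nat_lit 731318, nat_lit 320032, nat_lit 119917, nat_lit 71312, nat_lit 58297, nat_lit 49357,
  nat_lit 24721, nat_lit 965308, nat_lit 278854, nat_lit 104459, nat_lit 70331, nat_lit 53987,
  nat_lit 46003, nat_lit 45030, nat_lit 1542865, nat_lit 253060, nat_lit 98725, nat_lit 69841,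
  nat_lit 55301, nat_lit 46738, nat_lit 43153, nat_lit 21262, nat_lit 1634276, nat_lit 239201,
  nat_lit 97840, nat_lit 70809, nat_lit 57465, nat_lit 49054, nat_lit 44790, nat_lit 41858,
  nat_lit 49309, nat_lit 71200, nat_lit 58351, nat_lit 52836, nat_lit 43169, nat_lit 43900,
  nat_lit 20017, nat_lit 29095, nat_lit 51298, nat_lit 47595, nat_lit 45336, nat_lit 42301,
  nat_lit 25792, nat_lit 44315, nat_lit 44913, nat_lit 21064, nat_lit 21371, nat_lit 38745,
  nat_lit 6641],
   [nat_lit 4433518, nat_lit 1603204, nat_lit 1233691, nat_lit 142723, nat_lit 920769,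
  nat_lit 162754, nat_lit 745128, nat_lit 108940, nat_lit 44051, nat_lit 656893, nat_lit 81609,
  nat_lit 59162, nat_lit 603050, nat_lit 67740, nat_lit 41912, nat_lit 22161, nat_lit 564788,
  nat_lit 57560, nat_lit 34139, nat_lit 31652, nat_lit 542938, nat_lit 51506, nat_lit 28753,
  nat_lit 24414, nat_lit 12350, nat_lit 533839, nat_lit 46732, nat_lit 24828, nat_lit 20726,
  nat_lit 18914, nat_lit 541249, nat_lit 44091, nat_lit 23366, nat_lit 18958, nat_lit 17481,
  nat_lit 7821, nat_lit 529670, nat_lit 40935, nat_lit 20878, nat_lit 15841, nat_lit 14448,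
  nat_lit 12563, nat_lit 544231, nat_lit 39033, nat_lit 19468, nat_lit 14926, nat_lit 13731,
  nat_lit 11462, nat_lit 5715, nat_lit 557960, nat_lit 37415, nat_lit 18687, nat_lit 13912,
  nat_lit 12740, nat_lit 10221, nat_lit 9921, nat_lit 588039, nat_lit 36612, nat_lit 18223,
  nat_lit 13272, nat_lit 11786, nat_lit 9879, nat_lit 8843, nat_lit 4660, nat_lit 329928,
  nat_lit 36477, nat_lit 18216, nat_lit 12849, nat_lit 11960, nat_lit 9483, nat_lit 8809,
  nat_lit 8421, nat_lit 8976, nat_lit 12571, nat_lit 11377, nat_lit 9270, nat_lit 7983,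
  nat_lit 7840, nat_lit 3740, nat_lit 5501, nat_lit 8926, nat_lit 7709, nat_lit 7862,
  nat_lit 7265, nat_lit 3794, nat_lit 7627, nat_lit 7414, nat_lit 3532, nat_lit 3478,
  nat_lit 6625, nat_lit 1102]),
  ([nat_lit 592901, nat_lit 455440, nat_lit 405295, nat_lit 88655, nat_lit 332807, nat_lit 157210,
  nat_lit 294806, nat_lit 136090, nat_lit 71476, nat_lit 309895, nat_lit 124798, nat_lit 120537,
  nat_lit 283596, nat_lit 124795, nat_lit 110875, nat_lit 51570, nat_lit 314923, nat_lit 134542,
  nat_lit 115406, nat_lit 93020, nat_lit 345234, nat_lit 157369, nat_lit 115697, nat_lit 97689,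
  nat_lit 46221, nat_lit 397339, nat_lit 186549, nat_lit 135548, nat_lit 117810, nat_lit 113115,
  nat_lit 520943, nat_lit 252675, nat_lit 195929, nat_lit 171050, nat_lit 154378, nat_lit 73662,
  nat_lit 565930, nat_lit 318199, nat_lit 184807, nat_lit 104802, nat_lit 68302, nat_lit 60449,
  nat_lit 728432, nat_lit 323490, nat_lit 121593, nat_lit 72399, nat_lit 59163, nat_lit 50121,
  nat_lit 25095, nat_lit 963646, nat_lit 282505, nat_lit 105823, nat_lit 71263, nat_lit 54735,
  nat_lit 46651, nat_lit 45649, nat_lit 1540521, nat_lit 256647, nat_lit 100014, nat_lit 70644,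
  nat_lit 55984, nat_lit 47342, nat_lit 43708, nat_lit 21539, nat_lit 1614629, nat_lit 242611,
  nat_lit 99035, nat_lit 71603, nat_lit 58063, nat_lit 49615, nat_lit 45316, nat_lit 42362,
  nat_lit 49883, nat_lit 71971, nat_lit 58925, nat_lit 53324, nat_lit 43645, nat_lit 44365,
  nat_lit 20241, nat_lit 29400, nat_lit 51771, nat_lit 48030, nat_lit 45741, nat_lit 42669,
  nat_lit 25968, nat_lit 44716, nat_lit 45322, nat_lit 21264, nat_lit 21583, nat_lit 39154,
  nat_lit 6712],
   [nat_lit 4365465, nat_lit 1608497, nat_lit 1238520, nat_lit 145961, nat_lit 924264,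
  nat_lit 166490, nat_lit 747886, nat_lit 111442, nat_lit 45097, nat_lit 659095, nat_lit 83501,
  nat_lit 60528, nat_lit 604913, nat_lit 69300, nat_lit 42879, nat_lit 22663, nat_lit 566342,
  nat_lit 58881, nat_lit 34920, nat_lit 32369, nat_lit 544252, nat_lit 52682, nat_lit 29405,
  nat_lit 24977, nat_lit 12623, nat_lit 534879, nat_lit 47794, nat_lit 25394, nat_lit 21204,
  nat_lit 19342, nat_lit 541966, nat_lit 45092, nat_lit 23897, nat_lit 19396, nat_lit 17877,
  nat_lit 8000, nat_lit 530463, nat_lit 41864, nat_lit 21354, nat_lit 16205, nat_lit 14776,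
  nat_lit 12851, nat_lit 544870, nat_lit 39920, nat_lit 19911, nat_lit 15272, nat_lit 14040,
  nat_lit 11725, nat_lit 5846, nat_lit 558452, nat_lit 38266, nat_lit 19113, nat_lit 14235,
  nat_lit 13026, nat_lit 10458, nat_lit 10148, nat_lit 587939, nat_lit 37444, nat_lit 18636,
  nat_lit 13579, nat_lit 12051, nat_lit 10104, nat_lit 9051, nat_lit 4765, nat_lit 328800,
  nat_lit 37304, nat_lit 18626, nat_lit 13147, nat_lit 12226, nat_lit 9699, nat_lit 9012,
  nat_lit 8613, nat_lit 9180, nat_lit 12864, nat_lit 11631, nat_lit 9482, nat_lit 8169,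
  nat_lit 8018, nat_lit 3826, nat_lit 5625, nat_lit 9131, nat_lit 7889, nat_lit 8042,
  nat_lit 7432, nat_lit 3883, nat_lit 7801, nat_lit 7583, nat_lit 3613, nat_lit 3558,
  nat_lit 6778, nat_lit 1127]),
  ([nat_lit 574972, nat_lit 450132, nat_lit 401649, nat_lit 89285, nat_lit 330129, nat_lit 158730,
  nat_lit 292611, nat_lit 137523, nat_lit 72337, nat_lit 307501, nat_lit 126155, nat_lit 122093,
  nat_lit 281498, nat_lit 126124, nat_lit 112326, nat_lit 52268, nat_lit 312400, nat_lit 135935,
  nat_lit 116840, nat_lit 94279, nat_lit 342433, nat_lit 158892, nat_lit 117104, nat_lit 98924,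
  nat_lit 46810, nat_lit 394092, nat_lit 188291, nat_lit 137050, nat_lit 119097, nat_lit 114303,
  nat_lit 516055, nat_lit 254629, nat_lit 197615, nat_lit 172434, nat_lit 155595, nat_lit 74234,
  nat_lit 562481, nat_lit 320923, nat_lit 186843, nat_lit 106207, nat_lit 69401, nat_lit 61448,
  nat_lit 725498, nat_lit 326949, nat_lit 123288, nat_lit 73501, nat_lit 60041, nat_lit 50895,
  nat_lit 25474, nat_lit 961894, nat_lit 286171, nat_lit 107203, nat_lit 72207, nat_lit 55493,
  nat_lit 47309, nat_lit 46277, nat_lit 1537959, nat_lit 260256, nat_lit 101316, nat_lit 71458,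
  nat_lit 56676, nat_lit 47953, nat_lit 44271, nat_lit 21819, nat_lit 1595164, nat_lit 246047,
  nat_lit 100243, nat_lit 72406, nat_lit 58670, nat_lit 50183, nat_lit 45849, nat_lit 42873,
  nat_lit 50464, nat_lit 72751, nat_lit 59507, nat_lit 53820, nat_lit 44127, nat_lit 44836,
  nat_lit 20467, nat_lit 29708, nat_lit 52252, nat_lit 48472, nat_lit 46153, nat_lit 43044,
  nat_lit 26149, nat_lit 45124, nat_lit 45736, nat_lit 21466, nat_lit 21798, nat_lit 39568,
  nat_lit 6783],
   [nat_lit 4297682, nat_lit 1613440, nat_lit 1243159, nat_lit 149236, nat_lit 927645,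
  nat_lit 170282, nat_lit 750570, nat_lit 113982, nat_lit 46160, nat_lit 661244, nat_lit 85425,
  nat_lit 61917, nat_lit 606732, nat_lit 70887, nat_lit 43863, nat_lit 23173, nat_lit 567860,
  nat_lit 60225, nat_lit 35715, nat_lit 33098, nat_lit 545538, nat_lit 53880, nat_lit 30070,
  nat_lit 25551, nat_lit 12901, nat_lit 535895, nat_lit 48874, nat_lit 25971, nat_lit 21690,
  nat_lit 19778, nat_lit 542666, nat_lit 46111, nat_lit 24439, nat_lit 19842, nat_lit 18280,
  nat_lit 8181, nat_lit 531234, nat_lit 42810, nat_lit 21839, nat_lit 16577, nat_lit 15111,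
  nat_lit 13146, nat_lit 545485, nat_lit 40823, nat_lit 20362, nat_lit 15626, nat_lit 14355,
  nat_lit 11994, nat_lit 5979, nat_lit 558916, nat_lit 39134, nat_lit 19547, nat_lit 14565,
  nat_lit 13318, nat_lit 10700, nat_lit 10379, nat_lit 587814, nat_lit 38292, nat_lit 19058,
  nat_lit 13892, nat_lit 12321, nat_lit 10334, nat_lit 9263, nat_lit 4872, nat_lit 327693,
  nat_lit 38145, nat_lit 19045, nat_lit 13451, nat_lit 12498, nat_lit 9919, nat_lit 9218,
  nat_lit 8809, nat_lit 9388, nat_lit 13162, nat_lit 11890, nat_lit 9699, nat_lit 8358,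
  nat_lit 8201, nat_lit 3914, nat_lit 5751, nat_lit 9339, nat_lit 8072, nat_lit 8225,
  nat_lit 7601, nat_lit 3974, nat_lit 7978, nat_lit 7756, nat_lit 3695, nat_lit 3639,
  nat_lit 6935, nat_lit 1153]),
  ([nat_lit 557383, nat_lit 444709, nat_lit 397911, nat_lit 89881, nat_lit 327387, nat_lit 160208,
  nat_lit 290367, nat_lit 138930, nat_lit 73189, nat_lit 305064, nat_lit 127494, nat_lit 123643,
  nat_lit 279367, nat_lit 127438, nat_lit 113776, nat_lit 52966, nat_lit 309848, nat_lit 137315,
  nat_lit 118274, nat_lit 95544, nat_lit 339605, nat_lit 160400, nat_lit 118515, nat_lit 100165,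
  nat_lit 47402, nat_lit 390819, nat_lit 190018, nat_lit 138556, nat_lit 120392, nat_lit 115501,
  nat_lit 511173, nat_lit 256569, nat_lit 199307, nat_lit 173829, nat_lit 156824, nat_lit 74812,
  nat_lit 558992, nat_lit 323637, nat_lit 188894, nat_lit 107631, nat_lit 70518, nat_lit 62463,
  nat_lit 722511, nat_lit 330412, nat_lit 125006, nat_lit 74618, nat_lit 60932, nat_lit 51682,
  nat_lit 25860, nat_lit 960053, nat_lit 289855, nat_lit 108602, nat_lit 73163, nat_lit 56262,
  nat_lit 47977, nat_lit 46915, nat_lit 1535179, nat_lit 263891, nat_lit 102634, nat_lit 72284,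
  nat_lit 57377, nat_lit 48574, nat_lit 44843, nat_lit 22104, nat_lit 1575860, nat_lit 249512,
  nat_lit 101466, nat_lit 73221, nat_lit 59287, nat_lit 50758, nat_lit 46389, nat_lit 43392,
  nat_lit 51052, nat_lit 73542, nat_lit 60099, nat_lit 54324, nat_lit 44616, nat_lit 45313,
  nat_lit 20697, nat_lit 30020, nat_lit 52740, nat_lit 48920, nat_lit 46572, nat_lit 43427,
  nat_lit 26334, nat_lit 45538, nat_lit 46157, nat_lit 21672, nat_lit 22015, nat_lit 39988,
  nat_lit 6855],
   [nat_lit 4230089, nat_lit 1618035, nat_lit 1247609, nat_lit 152552, nat_lit 930914,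
  nat_lit 174133, nat_lit 753180, nat_lit 116566, nat_lit 47244, nat_lit 663340, nat_lit 87383,
  nat_lit 63332, nat_lit 608511, nat_lit 72502, nat_lit 44867, nat_lit 23694, nat_lit 569345,
  nat_lit 61594, nat_lit 36526, nat_lit 33840, nat_lit 546795, nat_lit 55099, nat_lit 30747,
  nat_lit 26137, nat_lit 13183, nat_lit 536888, nat_lit 49975, nat_lit 26560, nat_lit 22187,
  nat_lit 20222, nat_lit 543349, nat_lit 47149, nat_lit 24991, nat_lit 20297, nat_lit 18691,
  nat_lit 8367, nat_lit 531984, nat_lit 43774, nat_lit 22335, nat_lit 16957, nat_lit 15452,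
  nat_lit 13446, nat_lit 546079, nat_lit 41744, nat_lit 20823, nat_lit 15986, nat_lit 14677,
  nat_lit 12268, nat_lit 6115, nat_lit 559354, nat_lit 40018, nat_lit 19990, nat_lit 14902,
  nat_lit 13615, nat_lit 10948, nat_lit 10615, nat_lit 587665, nat_lit 39156, nat_lit 19488,
  nat_lit 14212, nat_lit 12597, nat_lit 10569, nat_lit 9479, nat_lit 4982, nat_lit 326605,
  nat_lit 39003, nat_lit 19472, nat_lit 13762, nat_lit 12774, nat_lit 10144, nat_lit 9429,
  nat_lit 9009, nat_lit 9601, nat_lit 13467, nat_lit 12155, nat_lit 9919, nat_lit 8552,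
  nat_lit 8387, nat_lit 4004, nat_lit 5879, nat_lit 9553, nat_lit 8259, nat_lit 8412,
  nat_lit 7775, nat_lit 4067, nat_lit 8159, nat_lit 7932, nat_lit 3779, nat_lit 3722,
  nat_lit 7094, nat_lit 1179]),
  ([nat_lit 540119, nat_lit 439167, nat_lit 394079, nat_lit 90441, nat_lit 324578, nat_lit 161645,
  nat_lit 288072, nat_lit 140311, nat_lit 74032, nat_lit 302582, nat_lit 128816, nat_lit 125189,
  nat_lit 277199, nat_lit 128738, nat_lit 115227, nat_lit 53666, nat_lit 307264, nat_lit 138682,
  nat_lit 119711, nat_lit 96816, nat_lit 336747, nat_lit 161897, nat_lit 119932, nat_lit 101416,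
  nat_lit 47999, nat_lit 387517, nat_lit 191733, nat_lit 140069, nat_lit 121696, nat_lit 116708,
  nat_lit 506288, nat_lit 258496, nat_lit 201008, nat_lit 175236, nat_lit 158067, nat_lit 75397,
  nat_lit 555461, nat_lit 326343, nat_lit 190961, nat_lit 109074, nat_lit 71653, nat_lit 63495,
  nat_lit 719468, nat_lit 333883, nat_lit 126747, nat_lit 75753, nat_lit 61837, nat_lit 52482,
  nat_lit 26251, nat_lit 958117, nat_lit 293563, nat_lit 110021, nat_lit 74135, nat_lit 57043,
  nat_lit 48656, nat_lit 47563, nat_lit 1532177, nat_lit 267555, nat_lit 103969, nat_lit 73123,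
  nat_lit 58089, nat_lit 49205, nat_lit 45423, nat_lit 22394, nat_lit 1556693, nat_lit 253012,
  nat_lit 102706, nat_lit 74047, nat_lit 59914, nat_lit 51342, nat_lit 46938, nat_lit 43918,
  nat_lit 51649, nat_lit 74344, nat_lit 60700, nat_lit 54836, nat_lit 45113, nat_lit 45798,
  nat_lit 20931, nat_lit 30336, nat_lit 53237, nat_lit 49375, nat_lit 46999, nat_lit 43818,
  nat_lit 26524, nat_lit 45959, nat_lit 46585, nat_lit 21881, nat_lit 22236, nat_lit 40415,
  nat_lit 6929],
   [nat_lit 4162625, nat_lit 1622282, nat_lit 1251873, nat_lit 155912, nat_lit 934074,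
  nat_lit 178050, nat_lit 755719, nat_lit 119196, nat_lit 48348, nat_lit 665384, nat_lit 89379,
  nat_lit 64775, nat_lit 610249, nat_lit 74149, nat_lit 45891, nat_lit 24224, nat_lit 570797,
  nat_lit 62990, nat_lit 37354, nat_lit 34598, nat_lit 548025, nat_lit 56343, nat_lit 31439,
  nat_lit 26735, nat_lit 13471, nat_lit 537858, nat_lit 51099, nat_lit 27162, nat_lit 22694,
  nat_lit 20675, nat_lit 544015, nat_lit 48208, nat_lit 25555, nat_lit 20762, nat_lit 19110,
  nat_lit 8556, nat_lit 532713, nat_lit 44757, nat_lit 22841, nat_lit 17345, nat_lit 15801,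
  nat_lit 13753, nat_lit 546649, nat_lit 42683, nat_lit 21294, nat_lit 16355, nat_lit 15005,
  nat_lit 12547, nat_lit 6254, nat_lit 559765, nat_lit 40920, nat_lit 20443, nat_lit 15246,
  nat_lit 13919, nat_lit 11200, nat_lit 10857, nat_lit 587491, nat_lit 40037, nat_lit 19927,
  nat_lit 14539, nat_lit 12879, nat_lit 10808, nat_lit 9700, nat_lit 5093, nat_lit 325533,
  nat_lit 39879, nat_lit 19909, nat_lit 14079, nat_lit 13057, nat_lit 10374, nat_lit 9645,
  nat_lit 9214, nat_lit 9818, nat_lit 13779, nat_lit 12425, nat_lit 10144, nat_lit 8749,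
  nat_lit 8577, nat_lit 4096, nat_lit 6011, nat_lit 9770, nat_lit 8450, nat_lit 8603,
  nat_lit 7952, nat_lit 4163, nat_lit 8344, nat_lit 8112, nat_lit 3865, nat_lit 3807,
  nat_lit 7258, nat_lit 1206])]

theorem run42 : run W42 data42 = true := by decide +kernel

end Vale.Agent.P154.AF.Eng
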