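import Vale.Agent.P154AF.Eng
import Vale.Agent.P154AF.Run42

/-! Run data, generations 91 to 98 (helper file). -/

namespace Vale.Agent.P154.AF.Eng

def W91 : List Nat :=
  [nat_lit 961701, nat_lit 1146870, nat_lit 1059836, nat_lit 362394, nat_lit 842618,
  nat_lit 483500, nat_lit 714599, nat_lit 343406, nat_lit 150970, nat_lit 642693, nat_lit 270841,
  nat_lit 202733, nat_lit 596651, nat_lit 228435, nat_lit 149503, nat_lit 74799, nat_lit 560123,
  nat_lit 197047, nat_lit 123216, nat_lit 109143, nat_lit 537650, nat_lit 177546, nat_lit 104580,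
  nat_lit 89360, nat_lit 41706, nat_lit 523485, nat_lit 162221, nat_lit 91896, nat_lit 76952,
  nat_lit 67107, nat_lit 521484, nat_lit 153057, nat_lit 86084, nat_lit 70254, nat_lit 62141,
  nat_lit 28204, nat_lit 512552, nat_lit 143167, nat_lit 77780, nat_lit 60443, nat_lit 52863,
  nat_lit 47150, nat_lit 517174, nat_lit 137322, nat_lit 73121, nat_lit 57395, nat_lit 49789,
  nat_lit 42622, nat_lit 21309, nat_lit 519854, nat_lit 132516, nat_lit 70382, nat_lit 54103,
  nat_lit 46297, nat_lit 38931, nat_lit 37441, nat_lit 525429, nat_lit 129659, nat_lit 68471,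
  nat_lit 51525, nat_lit 43668, nat_lit 36964, nat_lit 34344, nat_lit 17393, nat_lit 267931,
  nat_lit 128096, nat_lit 67795, nat_lit 50336, nat_lit 43249, nat_lit 35444, nat_lit 33190,
  nat_lit 31769, nat_lit 33735, nat_lit 49217, nat_lit 41704, nat_lit 34507, nat_lit 31159,
  nat_lit 29904, nat_lit 14436, nat_lit 20570, nat_lit 33900, nat_lit 30114, nat_lit 29765,
  nat_lit 27648, nat_lit 14974, nat_lit 28725, nat_lit 27667, nat_lit 13364, nat_lit 13332,
  nat_lit 25962, nat_lit 4254]

def data91 : List (List Nat × List Nat) := [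
  ([nat_lit 28704, nat_lit 75030, nat_lit 98149, nat_lit 49257, nat_lit 97243, nat_lit 126811,
  nat_lit 97659, nat_lit 132275, nat_lit 82445, nat_lit 107202, nat_lit 136338, nat_lit 168289,
  nat_lit 105770, nat_lit 143613, nat_lit 170964, nat_lit 85200, nat_lit 117251, nat_lit 161031,
  nat_lit 182506, nat_lit 168871, nat_lit 132191, nat_lit 190954, nat_lit 192570, nat_lit 179329,
  nat_lit 87134, nat_lit 157950, nat_lit 232409, nat_lit 222862, nat_lit 206962, nat_lit 200456,
  nat_lit 209376, nat_lit 308583, nat_lit 298609, nat_lit 272913, nat_lit 254048, nat_lit 122824,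
  nat_lit 278016, nat_lit 425299, nat_lit 332817, nat_lit 235011, nat_lit 182113, nat_lit 165338,
  nat_lit 427868, nat_lit 507216, nat_lit 277888, nat_lit 184742, nat_lit 151565, nat_lit 134332,
  nat_lit 65934, nat_lit 654891, nat_lit 520145, nat_lit 239917, nat_lit 167675, nat_lit 134648,
  nat_lit 118666, nat_lit 113782, nat_lit 1000765, nat_lit 513426, nat_lit 223505,
  nat_lit 156818, nat_lit 128630, nat_lit 113287, nat_lit 104916, nat_lit 51962, nat_lit 657147,
  nat_lit 503146, nat_lit 215825, nat_lit 153986, nat_lit 125193, nat_lit 109765, nat_lit 102265,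
  nat_lit 97694, nat_lit 106871, nat_lit 152188, nat_lit 123228, nat_lit 109173, nat_lit 96968,
  nat_lit 95628, nat_lit 45555, nat_lit 61504, nat_lit 106707, nat_lit 97979, nat_lit 93587,
  nat_lit 88476, nat_lit 49497, nat_lit 91364, nat_lit 91167, nat_lit 43869, nat_lit 44552,
  nat_lit 84583, nat_lit 14349],
   [nat_lit 886069, nat_lit 1103737, nat_lit 1033849, nat_lit 366064, nat_lit 826606,
  nat_lit 494358, nat_lit 703968, nat_lit 352967, nat_lit 155844, nat_lit 634761, nat_lit 279389,
  nat_lit 209761, nat_lit 590276, nat_lit 236053, nat_lit 155205, nat_lit 77401, nat_lit 554780,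
  nat_lit 203905, nat_lit 128089, nat_lit 113170, nat_lit 532924, nat_lit 183891, nat_lit 108830,
  nat_lit 92945, nat_lit 43262, nat_lit 519123, nat_lit 168142, nat_lit 95722, nat_lit 80131,
  nat_lit 69776, nat_lit 517199, nat_lit 158691, nat_lit 89676, nat_lit 73168, nat_lit 64607,
  nat_lit 29368, nat_lit 508464, nat_lit 148518, nat_lit 81073, nat_lit 63077, nat_lit 55055,
  nat_lit 49187, nat_lit 512866, nat_lit 142506, nat_lit 76265, nat_lit 59900, nat_lit 51848,
  nat_lit 44443, nat_lit 22231, nat_lit 515305, nat_lit 137567, nat_lit 73409, nat_lit 56504,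
  nat_lit 48228, nat_lit 40635, nat_lit 39091, nat_lit 520566, nat_lit 134611, nat_lit 71425,
  nat_lit 53822, nat_lit 45536, nat_lit 38569, nat_lit 35882, nat_lit 18155, nat_lit 265152,
  nat_lit 132966, nat_lit 70710, nat_lit 52604, nat_lit 45072, nat_lit 36996, nat_lit 34655,
  nat_lit 33181, nat_lit 35191, nat_lit 51426, nat_lit 43474, nat_lit 36003, nat_lit 32584,
  nat_lit 31255, nat_lit 15092, nat_lit 21467, nat_lit 35399, nat_lit 31491, nat_lit 31085,
  nat_lit 28893, nat_lit 15664, nat_lit 30003, nat_lit 28887, nat_lit 13967, nat_lit 13937,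
  nat_lit 27168, nat_lit 4449]),
  ([nat_lit 24417, nat_lit 66791, nat_lit 89456, nat_lit 45888, nat_lit 89790, nat_lit 120881,
  nat_lit 90958, nat_lit 127763, nat_lit 80353, nat_lit 100304, nat_lit 132856, nat_lit 166251,
  nat_lit 99459, nat_lit 140641, nat_lit 170211, nat_lit 85218, nat_lit 110433, nat_lit 158331,
  nat_lit 182463, nat_lit 170197, nat_lit 124839, nat_lit 188331, nat_lit 193409, nat_lit 181357,
  nat_lit 88295, nat_lit 149704, nat_lit 229993, nat_lit 224345, nat_lit 209567, nat_lit 203347,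
  nat_lit 199128, nat_lit 306151, nat_lit 300719, nat_lit 276277, nat_lit 257922, nat_lit 124843,
  nat_lit 266547, nat_lit 424191, nat_lit 337591, nat_lit 240875, nat_lit 187868, nat_lit 170777,
  nat_lit 413790, nat_lit 509620, nat_lit 284779, nat_lit 190483, nat_lit 156498, nat_lit 138964,
  nat_lit 68175, nat_lit 637294, nat_lit 526182, nat_lit 246401, nat_lit 172733, nat_lit 139010,
  nat_lit 122713, nat_lit 117610, nat_lit 971966, nat_lit 521313, nat_lit 229540, nat_lit 161470,
  nat_lit 132640, nat_lit 116993, nat_lit 108398, nat_lit 53689, nat_lit 632556, nat_lit 511925,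
  nat_lit 221638, nat_lit 158415, nat_lit 128995, nat_lit 113165, nat_lit 105498, nat_lit 100865,
  nat_lit 109736, nat_lit 156511, nat_lit 126887, nat_lit 112421, nat_lit 100074, nat_lit 98587,
  nat_lit 47039, nat_lit 63306, nat_lit 109931, nat_lit 100931, nat_lit 96427, nat_lit 91248,
  nat_lit 50948, nat_lit 94138, nat_lit 93851, nat_lit 45202, nat_lit 45887, nat_lit 87248,
  nat_lit 14789],
   [nat_lit 812613, nat_lit 1058565, nat_lit 1006024, nat_lit 369065, nat_lit 809289,
  nat_lit 504957, nat_lit 692361, nat_lit 362598, nat_lit 160822, nat_lit 626049, nat_lit 288126,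
  nat_lit 217028, nat_lit 583244, nat_lit 243894, nat_lit 161162, nat_lit 80100, nat_lit 548876,
  nat_lit 210998, nat_lit 133203, nat_lit 117378, nat_lit 527697, nat_lit 190475, nat_lit 113303,
  nat_lit 96713, nat_lit 44896, nat_lit 514309, nat_lit 174302, nat_lit 99755, nat_lit 83480,
  nat_lit 72590, nat_lit 512494, nat_lit 164563, nat_lit 93466, nat_lit 76244, nat_lit 67206,
  nat_lit 30600, nat_lit 503977, nat_lit 154102, nat_lit 84552, nat_lit 65866, nat_lit 57371,
  nat_lit 51349, nat_lit 508173, nat_lit 147920, nat_lit 79591, nat_lit 62553, nat_lit 54026,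
  nat_lit 46375, nat_lit 23210, nat_lit 510385, nat_lit 142846, nat_lit 76612, nat_lit 59050,
  nat_lit 50273, nat_lit 42447, nat_lit 40846, nat_lit 515355, nat_lit 139788, nat_lit 74551,
  nat_lit 56259, nat_lit 47516, nat_lit 40274, nat_lit 37520, nat_lit 18966, nat_lit 262213,
  nat_lit 138061, nat_lit 73796, nat_lit 55010, nat_lit 47005, nat_lit 38648, nat_lit 36215,
  nat_lit 34686, nat_lit 36733, nat_lit 53770, nat_lit 45349, nat_lit 37595, nat_lit 34104,
  nat_lit 32696, nat_lit 15792, nat_lit 22419, nat_lit 36993, nat_lit 32959, nat_lit 32491,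
  nat_lit 30221, nat_lit 16401, nat_lit 31364, nat_lit 30188, nat_lit 14611, nat_lit 14583,
  nat_lit 28456, nat_lit 4659]),
  ([nat_lit 20572, nat_lit 58996, nat_lit 81017, nat_lit 42475, nat_lit 82460, nat_lit 114650,
  nat_lit 84311, nat_lit 122905, nat_lit 78028, nat_lit 93438, nat_lit 129024, nat_lit 163797,
  nat_lit 93146, nat_lit 137321, nat_lit 169110, nat_lit 85086, nat_lit 103609, nat_lit 155267,
  nat_lit 182121, nat_lit 171334, nat_lit 117465, nat_lit 185314, nat_lit 193999, nat_lit 183261,
  nat_lit 89414, nat_lit 141413, nat_lit 227147, nat_lit 225615, nat_lit 212095, nat_lit 206212,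
  nat_lit 188804, nat_lit 303230, nat_lit 302628, nat_lit 279609, nat_lit 261842, nat_lit 126900,
  nat_lit 254862, nat_lit 422525, nat_lit 342299, nat_lit 246904, nat_lit 193857, nat_lit 176458,
  nat_lit 399275, nat_lit 511543, nat_lit 291836, nat_lit 196477, nat_lit 161679, nat_lit 143843,
  nat_lit 70537, nat_lit 618968, nat_lit 531930, nat_lit 253127, nat_lit 178039, nat_lit 143608,
  nat_lit 126992, nat_lit 121661, nat_lit 942228, nat_lit 529054, nat_lit 235824, nat_lit 166365,
  nat_lit 136877, nat_lit 120916, nat_lit 112090, nat_lit 55520, nat_lit 607909, nat_lit 520640,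
  nat_lit 227706, nat_lit 163081, nat_lit 133019, nat_lit 116772, nat_lit 108930, nat_lit 104231,
  nat_lit 112728, nat_lit 161066, nat_lit 130762, nat_lit 115871, nat_lit 103376, nat_lit 101732,
  nat_lit 48618, nat_lit 65215, nat_lit 113358, nat_lit 104072, nat_lit 99448, nat_lit 94202,
  nat_lit 52495, nat_lit 97093, nat_lit 96709, nat_lit 46622, nat_lit 47307, nat_lit 90087,
  nat_lit 15258],
   [nat_lit 741584, nat_lit 1011468, nat_lit 976347, nat_lit 371297, nat_lit 790633,
  nat_lit 515188, nat_lit 679741, nat_lit 372243, nat_lit 165884, nat_lit 616517, nat_lit 297021,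
  nat_lit 224526, nat_lit 575521, nat_lit 251940, nat_lit 167378, nat_lit 82896, nat_lit 542379,
  nat_lit 218318, nat_lit 138561, nat_lit 121771, nat_lit 521940, nat_lit 197296, nat_lit 118006,
  nat_lit 100668, nat_lit 46610, nat_lit 509016, nat_lit 180698, nat_lit 104004, nat_lit 87006,
  nat_lit 75557, nat_lit 507343, nat_lit 170670, nat_lit 97465, nat_lit 79487, nat_lit 69945,
  nat_lit 31906, nat_lit 499067, nat_lit 159921, nat_lit 88226, nat_lit 68818, nat_lit 59818,
  nat_lit 53643, nat_lit 503071, nat_lit 153568, nat_lit 83108, nat_lit 65360, nat_lit 56328,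
  nat_lit 48425, nat_lit 24251, nat_lit 505073, nat_lit 148356, nat_lit 79998, nat_lit 61747,
  nat_lit 52437, nat_lit 44372, nat_lit 42715, nat_lit 509775, nat_lit 145193, nat_lit 77858,
  nat_lit 58844, nat_lit 49614, nat_lit 42087, nat_lit 39263, nat_lit 19828, nat_lit 259104,
  nat_lit 143383, nat_lit 77063, nat_lit 57564, nat_lit 49054, nat_lit 40407, nat_lit 37878,
  nat_lit 36289, nat_lit 38365, nat_lit 56258, nat_lit 47335, nat_lit 39288, nat_lit 35725,
  nat_lit 34233, nat_lit 16538, nat_lit 23429, nat_lit 38688, nat_lit 34526, nat_lit 33989,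
  nat_lit 31639, nat_lit 17188, nat_lit 32817, nat_lit 31577, nat_lit 15299, nat_lit 15272,
  nat_lit 29832, nat_lit 4882]),
  ([nat_lit 17182, nat_lit 51678, nat_lit 72875, nat_lit 39044, nat_lit 75290, nat_lit 108149,
  nat_lit 77748, nat_lit 117709, nat_lit 75467, nat_lit 86633, nat_lit 124840, nat_lit 160904,
  nat_lit 86853, nat_lit 133647, nat_lit 167630, nat_lit 84788, nat_lit 96803, nat_lit 151825,
  nat_lit 181446, nat_lit 172249, nat_lit 110093, nat_lit 181884, nat_lit 194306, nat_lit 185014,
  nat_lit 90478, nat_lit 133100, nat_lit 223844, nat_lit 226639, nat_lit 214523, nat_lit 209031,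
  nat_lit 178429, nat_lit 299785, nat_lit 304298, nat_lit 282886, nat_lit 265792, nat_lit 128985,
  nat_lit 242985, nat_lit 420248, nat_lit 346907, nat_lit 253083, nat_lit 200079, nat_lit 182384,
  nat_lit 384342, nat_lit 512921, nat_lit 299040, nat_lit 202725, nat_lit 167116, nat_lit 148980,
  nat_lit 73025, nat_lit 599922, nat_lit 537325, nat_lit 260092, nat_lit 183599, nat_lit 148455,
  nat_lit 131514, nat_lit 125946, nat_lit 911585, nat_lit 536592, nat_lit 242360, nat_lit 171513,
  nat_lit 141352, nat_lit 125067, nat_lit 116005, nat_lit 57461, nat_lit 583229, nat_lit 529238,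
  nat_lit 234031, nat_lit 167993, nat_lit 137277, nat_lit 120596, nat_lit 112571, nat_lit 107807,
  nat_lit 115850, nat_lit 165866, nat_lit 134865, nat_lit 119535, nat_lit 106887, nat_lit 105074,
  nat_lit 50299, nat_lit 67237, nat_lit 116998, nat_lit 107416, nat_lit 102665, nat_lit 97349,
  nat_lit 54144, nat_lit 100240, nat_lit 99752, nat_lit 48136, nat_lit 48821, nat_lit 93113,
  nat_lit 15757],
   [nat_lit 673292, nat_lit 962588, nat_lit 944822, nat_lit 372654, nat_lit 770609,
  nat_lit 524925, nat_lit 666069, nat_lit 381839, nat_lit 171008, nat_lit 606130, nat_lit 306035,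
  nat_lit 232239, nat_lit 567071, nat_lit 260167, nat_lit 173852, nat_lit 85786, nat_lit 535256,
  nat_lit 225849, nat_lit 144168, nat_lit 126351, nat_lit 515622, nat_lit 204342, nat_lit 122945,
  nat_lit 104817, nat_lit 48410, nat_lit 503213, nat_lit 187324, nat_lit 108476, nat_lit 90715,
  nat_lit 78685, nat_lit 501719, nat_lit 177011, nat_lit 101677, nat_lit 82905, nat_lit 72829,
  nat_lit 33289, nat_lit 493708, nat_lit 165971, nat_lit 92102, nat_lit 71940, nat_lit 62403,
  nat_lit 56078, nat_lit 497536, nat_lit 159447, nat_lit 86823, nat_lit 68329, nat_lit 58762,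
  nat_lit 50602, nat_lit 25358, nat_lit 499347, nat_lit 154097, nat_lit 83574, nat_lit 64604,
  nat_lit 54727, nat_lit 46417, nat_lit 44703, nat_lit 503805, nat_lit 150826, nat_lit 81354,
  nat_lit 61584, nat_lit 51835, nat_lit 44014, nat_lit 41119, nat_lit 20746, nat_lit 255814,
  nat_lit 148934, nat_lit 80518, nat_lit 60272, nat_lit 51226, nat_lit 42278, nat_lit 39650,
  nat_lit 37999, nat_lit 40091, nat_lit 58896, nat_lit 49438, nat_lit 41090, nat_lit 37455,
  nat_lit 35873, nat_lit 17335, nat_lit 24500, nat_lit 40492, nat_lit 36197, nat_lit 35584,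
  nat_lit 33153, nat_lit 18028, nat_lit 34366, nat_lit 33059, nat_lit 16035, nat_lit 16008,
  nat_lit 31303, nat_lit 5122]),
  ([nat_lit 14203, nat_lit 44870, nat_lit 65081, nat_lit 35622, nat_lit 68322, nat_lit 101415,
  nat_lit 71307, nat_lit 112193, nat_lit 72670, nat_lit 79926, nat_lit 120308, nat_lit 157548,
  nat_lit 80613, nat_lit 129613, nat_lit 165740, nat_lit 84307, nat_lit 90048, nat_lit 147995,
  nat_lit 180406, nat_lit 172910, nat_lit 102757, nat_lit 178023, nat_lit 194295, nat_lit 186586,
  nat_lit 91473, nat_lit 124799, nat_lit 220059, nat_lit 227378, nat_lit 216822, nat_lit 211780,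
  nat_lit 168040, nat_lit 295781, nat_lit 305687, nat_lit 286079, nat_lit 269750, nat_lit 131091,
  nat_lit 230951, nat_lit 417306, nat_lit 351370, nat_lit 259396, nat_lit 206529, nat_lit 188554,
  nat_lit 369018, nat_lit 513682, nat_lit 306363, nat_lit 209227, nat_lit 172814, nat_lit 154382,
  nat_lit 75644, nat_lit 580180, nat_lit 542290, nat_lit 267287, nat_lit 189420, nat_lit 153558,
  nat_lit 136291, nat_lit 130477, nat_lit 880098, nat_lit 543858, nat_lit 249145, nat_lit 176921,
  nat_lit 146075, nat_lit 129460, nat_lit 120155, nat_lit 59517, nat_lit 558559, nat_lit 537655,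
  nat_lit 240616, nat_lit 173160, nat_lit 141780, nat_lit 124651, nat_lit 116434, nat_lit 111604,
  nat_lit 119103, nat_lit 170917, nat_lit 139209, nat_lit 123425, nat_lit 110619, nat_lit 108628,
  nat_lit 52086, nat_lit 69377, nat_lit 120864, nat_lit 110974, nat_lit 106089, nat_lit 100704,
  nat_lit 55903, nat_lit 103593, nat_lit 102994, nat_lit 49749, nat_lit 50432, nat_lit 96338,
  nat_lit 16288],
   [nat_lit 607965, nat_lit 912131, nat_lit 911489, nat_lit 373022, nat_lit 749215,
  nat_lit 534026, nat_lit 651329, nat_lit 391304, nat_lit 176163, nat_lit 594863, nat_lit 315120,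
  nat_lit 240146, nat_lit 557869, nat_lit 268541, nat_lit 180577, nat_lit 88765, nat_lit 527484,
  nat_lit 233569, nat_lit 150023, nat_lit 131118, nat_lit 508719, nat_lit 211598, nat_lit 128123,
  nat_lit 109161, nat_lit 50296, nat_lit 496880, nat_lit 194170, nat_lit 113174, nat_lit 94611,
  nat_lit 81978, nat_lit 495601, nat_lit 183576, nat_lit 106110, nat_lit 86503, nat_lit 75864,
  nat_lit 34755, nat_lit 487882, nat_lit 172248, nat_lit 96188, nat_lit 75240, nat_lit 65132,
  nat_lit 58661, nat_lit 491551, nat_lit 165554, nat_lit 90743, nat_lit 71466, nat_lit 61332,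
  nat_lit 52912, nat_lit 26534, nat_lit 493191, nat_lit 160066, nat_lit 87348, nat_lit 67626,
  nat_lit 57149, nat_lit 48591, nat_lit 46819, nat_lit 497430, nat_lit 156685, nat_lit 85045,
  nat_lit 64486, nat_lit 54186, nat_lit 46062, nat_lit 43095, nat_lit 21722, nat_lit 252335,
  nat_lit 154711, nat_lit 84169, nat_lit 63141, nat_lit 53528, nat_lit 44270, nat_lit 41538,
  nat_lit 39822, nat_lit 41914, nat_lit 61691, nat_lit 51665, nat_lit 43007, nat_lit 39300,
  nat_lit 37623, nat_lit 18185, nat_lit 25637, nat_lit 42411, nat_lit 37979, nat_lit 37283,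
  nat_lit 34770, nat_lit 18926, nat_lit 36019, nat_lit 34642, nat_lit 16821, nat_lit 16794,
  nat_lit 32876, nat_lit 5377]),
  ([nat_lit 11613, nat_lit 38594, nat_lit 57674, nat_lit 32241, nat_lit 61593, nat_lit 94496,
  nat_lit 65020, nat_lit 106382, nat_lit 69644, nat_lit 73349, nat_lit 115437, nat_lit 153714,
  nat_lit 74453, nat_lit 125220, nat_lit 163412, nat_lit 83627, nat_lit 83372, nat_lit 143771,
  nat_lit 178966, nat_lit 173279, nat_lit 95485, nat_lit 173722, nat_lit 193928, nat_lit 187941,
  nat_lit 92384, nat_lit 116542, nat_lit 215774, nat_lit 227795, nat_lit 218961, nat_lit 214432,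
  nat_lit 157671, nat_lit 291188, nat_lit 306751, nat_lit 289157, nat_lit 273694, nat_lit 133207,
  nat_lit 218794, nat_lit 413649, nat_lit 355642, nat_lit 265820, nat_lit 213198, nat_lit 194965,
  nat_lit 353337, nat_lit 513756, nat_lit 313774, nat_lit 215978, nat_lit 178778, nat_lit 160058,
  nat_lit 78397, nat_lit 559769, nat_lit 546751, nat_lit 274699, nat_lit 195505, nat_lit 158927,
  nat_lit 141334, nat_lit 135266, nat_lit 847823, nat_lit 550780, nat_lit 256175, nat_lit 182596,
  nat_lit 151059, nat_lit 134105, nat_lit 124552, nat_lit 61697, nat_lit 533929, nat_lit 545819,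
  nat_lit 247459, nat_lit 178591, nat_lit 146539, nat_lit 128949, nat_lit 120534, nat_lit 115635,
  nat_lit 122487, nat_lit 176230, nat_lit 143805, nat_lit 127555, nat_lit 114587, nat_lit 112405,
  nat_lit 53988, nat_lit 71644, nat_lit 124971, nat_lit 114761, nat_lit 109735, nat_lit 104281,
  nat_lit 57777, nat_lit 107166, nat_lit 106448, nat_lit 51469, nat_lit 52150, nat_lit 99776,
  nat_lit 16853],
   [nat_lit 545828, nat_lit 860330, nat_lit 876405, nat_lit 372296, nat_lit 726453,
  nat_lit 542338, nat_lit 635500, nat_lit 400553, nat_lit 181314, nat_lit 582691, nat_lit 324220,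
  nat_lit 248221, nat_lit 547889, nat_lit 277026, nat_lit 187548, nat_lit 91829, nat_lit 519037,
  nat_lit 241453, nat_lit 156126, nat_lit 136072, nat_lit 501206, nat_lit 219046, nat_lit 133542,
  nat_lit 113704, nat_lit 52271, nat_lit 489992, nat_lit 201221, nat_lit 118104, nat_lit 98698,
  nat_lit 85446, nat_lit 488967, nat_lit 190356, nat_lit 110768, nat_lit 90286, nat_lit 79057,
  nat_lit 36307, nat_lit 481568, nat_lit 178743, nat_lit 100488, nat_lit 78723, nat_lit 68010,
  nat_lit 61400, nat_lit 485098, nat_lit 171883, nat_lit 94875, nat_lit 74777, nat_lit 64046,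
  nat_lit 55363, nat_lit 27784, nat_lit 486589, nat_lit 166258, nat_lit 91326, nat_lit 70821,
  nat_lit 59710, nat_lit 50900, nat_lit 49070, nat_lit 490632, nat_lit 162764, nat_lit 88939,
  nat_lit 67557, nat_lit 56674, nat_lit 48239, nat_lit 45199, nat_lit 22760, nat_lit 248660,
  nat_lit 160711, nat_lit 88023, nat_lit 66177, nat_lit 55966, nat_lit 46389, nat_lit 43551,
  nat_lit 41765, nat_lit 43837, nat_lit 64650, nat_lit 54022, nat_lit 45047, nat_lit 41267,
  nat_lit 39491, nat_lit 19093, nat_lit 26841, nat_lit 44453, nat_lit 39881, nat_lit 39093,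
  nat_lit 36498, nat_lit 19885, nat_lit 37783, nat_lit 36333, nat_lit 17663, nat_lit 17634,
  nat_lit 34556, nat_lit 5651]),
  ([nat_lit 9389, nat_lit 32867, nat_lit 50692, nat_lit 28930, nat_lit 55140, nat_lit 87446,
  nat_lit 58920, nat_lit 100308, nat_lit 66399, nat_lit 66934, nat_lit 110243, nat_lit 149389,
  nat_lit 68405, nat_lit 120478, nat_lit 160621, nat_lit 82729, nat_lit 76807, nat_lit 139154,
  nat_lit 177096, nat_lit 173319, nat_lit 88311, nat_lit 168974, nat_lit 193168, nat_lit 189044,
  nat_lit 93192, nat_lit 108362, nat_lit 210973, nat_lit 227846, nat_lit 220904, nat_lit 216959,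
  nat_lit 147360, nat_lit 285980, nat_lit 307445, nat_lit 292087, nat_lit 277596, nat_lit 135320,
  nat_lit 206554, nat_lit 409227, nat_lit 359672, nat_lit 272328, nat_lit 220072, nat_lit 201610,
  nat_lit 337335, nat_lit 513072, nat_lit 321236, nat_lit 222971, nat_lit 185010, nat_lit 166013,
  nat_lit 81289, nat_lit 538725, nat_lit 550624, nat_lit 282312, nat_lit 201855, nat_lit 164570,
  nat_lit 146653, nat_lit 140323, nat_lit 814830, nat_lit 557278, nat_lit 263444, nat_lit 188545,
  nat_lit 156313, nat_lit 139016, nat_lit 129211, nat_lit 64005, nat_lit 509375, nat_lit 553655,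
  nat_lit 254557, nat_lit 184295, nat_lit 151567, nat_lit 133504, nat_lit 124882, nat_lit 119915,
  nat_lit 126002, nat_lit 181814, nat_lit 148666, nat_lit 131939, nat_lit 118805, nat_lit 116421,
  nat_lit 56011, nat_lit 74042, nat_lit 129330, nat_lit 118792, nat_lit 113615, nat_lit 108093,
  nat_lit 59774, nat_lit 110973, nat_lit 110128, nat_lit 53303, nat_lit 53981, nat_lit 103441,
  nat_lit 17456],
   [nat_lit 487092, nat_lit 807460, nat_lit 839658, nat_lit 370371, nat_lit 702344,
  nat_lit 549700, nat_lit 618576, nat_lit 409487, nat_lit 186423, nat_lit 569597, nat_lit 333270,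
  nat_lit 256432, nat_lit 537109, nat_lit 285577, nat_lit 194752, nat_lit 94971, nat_lit 509893,
  nat_lit 249468, nat_lit 162472, nat_lit 141212, nat_lit 493061, nat_lit 226662, nat_lit 139203,
  nat_lit 118446, nat_lit 54339, nat_lit 482528, nat_lit 208460, nat_lit 123267, nat_lit 102980,
  nat_lit 89093, nat_lit 481796, nat_lit 197336, nat_lit 115656, nat_lit 94259, nat_lit 82413,
  nat_lit 37951, nat_lit 474745, nat_lit 185446, nat_lit 105008, nat_lit 82397, nat_lit 71045,
  nat_lit 64303, nat_lit 478157, nat_lit 178424, nat_lit 99223, nat_lit 78268, nat_lit 66911,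
  nat_lit 57963, nat_lit 29111, nat_lit 479523, nat_lit 172663, nat_lit 95514, nat_lit 74195,
  nat_lit 62416, nat_lit 53354, nat_lit 51466, nat_lit 483395, nat_lit 169056, nat_lit 93041,
  nat_lit 70804, nat_lit 59304, nat_lit 50553, nat_lit 47439, nat_lit 23865, nat_lit 244778,
  nat_lit 166928, nat_lit 92087, nat_lit 69389, nat_lit 58547, nat_lit 48645, nat_lit 45696,
  nat_lit 43836, nat_lit 45864, nat_lit 67780, nat_lit 56515, nat_lit 47218, nat_lit 43366,
  nat_lit 41484, nat_lit 20061, nat_lit 28116, nat_lit 46624, nat_lit 41909, nat_lit 41022,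
  nat_lit 38343, nat_lit 20910, nat_lit 39665, nat_lit 38139, nat_lit 18563, nat_lit 18531,
  nat_lit 36353, nat_lit 5944])]

theorem run91 : run W91 data91 = true := by decide +kernel

end Vale.Agent.P154.AF.Eng
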