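import Vale.Agent.P154AF.Eng
import Vale.Agent.P154AF.Run91

/-! Run data, generations 140 to 142 (helper file). -/

namespace Vale.Agent.P154.AF.Eng

def W140 : List Nat :=
  [nat_lit 138, nat_lit 103, nat_lit 652, nat_lit 1017, nat_lit 2096, nat_lit 12948,
  nat_lit 5230, nat_lit 35361, nat_lit 27066, nat_lit 9655, nat_lit 64503, nat_lit 106932,
  nat_lit 15477, nat_lit 93544, nat_lit 156274, nat_lit 87390, nat_lit 22032, nat_lit 120502,
  nat_lit 191806, nat_lit 210571, nat_lit 27936, nat_lit 145332, nat_lit 218306, nat_lit 236868,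
  nat_lit 124543, nat_lit 34634, nat_lit 165576, nat_lit 234003, nat_lit 256558, nat_lit 264307,
  nat_lit 41022, nat_lit 184313, nat_lit 250229, nat_lit 273629, nat_lit 278573, nat_lit 145830,
  nat_lit 46317, nat_lit 196193, nat_lit 257365, nat_lit 278290, nat_lit 279325, nat_lit 284321,
  nat_lit 50835, nat_lit 206683, nat_lit 264951, nat_lit 282806, nat_lit 288083, nat_lit 285739,
  nat_lit 148432, nat_lit 53926, nat_lit 213759, nat_lit 267286, nat_lit 286992, nat_lit 289824,
  nat_lit 287933, nat_lit 290724, nat_lit 56241, nat_lit 217497, nat_lit 271278, nat_lit 287569,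
  nat_lit 292651, nat_lit 289280, nat_lit 288737, nat_lit 146739, nat_lit 28403, nat_lit 220043,
  nat_lit 275941, nat_lit 288800, nat_lit 295708, nat_lit 288903, nat_lit 286014, nat_lit 289352,
  nat_lit 137500, nat_lit 286947, nat_lit 295554, nat_lit 290028, nat_lit 286162, nat_lit 291046,
  nat_lit 142790, nat_lit 148634, nat_lit 287535, nat_lit 283165, nat_lit 287451, nat_lit 283421,
  nat_lit 145555, nat_lit 285230, nat_lit 285366, nat_lit 141718, nat_lit 142120, nat_lit 281407,
  nat_lit 47691]

def data140 : List (List Nat × List Nat) := [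
  ([nat_lit 44, nat_lit 0, nat_lit 0, nat_lit 0, nat_lit 0, nat_lit 0, nat_lit 1, nat_lit 0,
  nat_lit 0, nat_lit 3, nat_lit 5, nat_lit 19, nat_lit 6, nat_lit 19, nat_lit 127, nat_lit 119,
  nat_lit 11, nat_lit 61, nat_lit 532, nat_lit 1377, nat_lit 17, nat_lit 190, nat_lit 1691,
  nat_lit 5074, nat_lit 3594, nat_lit 28, nat_lit 561, nat_lit 5032, nat_lit 14939,
  nat_lit 23511, nat_lit 52, nat_lit 1855, nat_lit 14920, nat_lit 41714, nat_lit 67456,
  nat_lit 38972, nat_lit 136, nat_lit 7270, nat_lit 45400, nat_lit 105909, nat_lit 156905,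
  nat_lit 183462, nat_lit 663, nat_lit 25764, nat_lit 107348, nat_lit 198869, nat_lit 261779,
  nat_lit 298751, nat_lit 156353, nat_lit 2920, nat_lit 60210, nat_lit 182299, nat_lit 284543,
  nat_lit 347244, nat_lit 388812, nat_lit 406159, nat_lit 6856, nat_lit 98990, nat_lit 245247,
  nat_lit 347687, nat_lit 411570, nat_lit 451540, nat_lit 471293, nat_lit 240596, nat_lit 4442,
  nat_lit 122815, nat_lit 285360, nat_lit 389046, nat_lit 454847, nat_lit 493700, nat_lit 516096,
  nat_lit 530160, nat_lit 149257, nat_lit 410950, nat_lit 476715, nat_lit 520168, nat_lit 546400,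
  nat_lit 562537, nat_lit 283985, nat_lit 241438, nat_lit 533402, nat_lit 562778, nat_lit 580816,
  nat_lit 591374, nat_lit 285200, nat_lit 589785, nat_lit 602635, nat_lit 303701, nat_lit 304110,
  nat_lit 615818, nat_lit 103176],
   [nat_lit 142, nat_lit 78, nat_lit 504, nat_lit 801, nat_lit 1691, nat_lit 10826, nat_lit 4376,
  nat_lit 30904, nat_lit 23966, nat_lit 8290, nat_lit 58078, nat_lit 98407, nat_lit 13574,
  nat_lit 85957, nat_lit 147414, nat_lit 83121, nat_lit 19622, nat_lit 112390, nat_lit 183894,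
  nat_lit 204054, nat_lit 25146, nat_lit 137102, nat_lit 211715, nat_lit 232354, nat_lit 122570,
  nat_lit 31465, nat_lit 157540, nat_lit 228792, nat_lit 253978, nat_lit 262843, nat_lit 37522,
  nat_lit 176560, nat_lit 246116, nat_lit 272622, nat_lit 278979, nat_lit 146421, nat_lit 42601,
  nat_lit 188847, nat_lit 254375, nat_lit 278577, nat_lit 281273, nat_lit 287181, nat_lit 46943,
  nat_lit 199669, nat_lit 262767, nat_lit 284110, nat_lit 291268, nat_lit 289826, nat_lit 150845,
  nat_lit 49916, nat_lit 207046, nat_lit 265694, nat_lit 289019, nat_lit 293943, nat_lit 293034,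
  nat_lit 296539, nat_lit 52137, nat_lit 211016, nat_lit 270117, nat_lit 290093, nat_lit 297552,
  nat_lit 295121, nat_lit 295364, nat_lit 150220, nat_lit 26337, nat_lit 213703, nat_lit 274961,
  nat_lit 291680, nat_lit 300995, nat_lit 295209, nat_lit 293067, nat_lit 297016, nat_lit 137073,
  nat_lit 289935, nat_lit 301300, nat_lit 296743, nat_lit 293618, nat_lit 299269, nat_lit 146869,
  nat_lit 151503, nat_lit 294332, nat_lit 290810, nat_lit 295875, nat_lit 292021, nat_lit 149493,
  nat_lit 293804, nat_lit 294235, nat_lit 146184, nat_lit 146547, nat_lit 290482, nat_lit 49248]),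
  ([nat_lit 41, nat_lit 0, nat_lit 0, nat_lit 0, nat_lit 0, nat_lit 0, nat_lit 1, nat_lit 0,
  nat_lit 0, nat_lit 2, nat_lit 3, nat_lit 14, nat_lit 6, nat_lit 14, nat_lit 95, nat_lit 90,
  nat_lit 10, nat_lit 46, nat_lit 418, nat_lit 1107, nat_lit 16, nat_lit 147, nat_lit 1381,
  nat_lit 4271, nat_lit 3057, nat_lit 26, nat_lit 449, nat_lit 4258, nat_lit 13049,
  nat_lit 20839, nat_lit 46, nat_lit 1534, nat_lit 13020, nat_lit 37592, nat_lit 61808,
  nat_lit 35895, nat_lit 114, nat_lit 6225, nat_lit 40882, nat_lit 98332, nat_lit 148209,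
  nat_lit 174622, nat_lit 545, nat_lit 22794, nat_lit 99410, nat_lit 189502, nat_lit 253433,
  nat_lit 291553, nat_lit 153003, nat_lit 2451, nat_lit 54489, nat_lit 172371, nat_lit 276173,
  nat_lit 341836, nat_lit 385749, nat_lit 404420, nat_lit 5859, nat_lit 90875, nat_lit 235046,
  nat_lit 341348, nat_lit 409468, nat_lit 452660, nat_lit 474318, nat_lit 242496, nat_lit 3813,
  nat_lit 113460, nat_lit 275481, nat_lit 384518, nat_lit 455469, nat_lit 498184, nat_lit 522993,
  nat_lit 538424, nat_lit 144413, nat_lit 407508, nat_lit 478992, nat_lit 526933, nat_lit 556105,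
  nat_lit 574159, nat_lit 290098, nat_lit 242819, nat_lit 541354, nat_lit 574217, nat_lit 594577,
  nat_lit 606373, nat_lit 291161, nat_lit 604581, nat_lit 619122, nat_lit 312234, nat_lit 312618,
  nat_lit 633906, nat_lit 106286],
   [nat_lit 133, nat_lit 59, nat_lit 391, nat_lit 633, nat_lit 1367, nat_lit 9051, nat_lit 3664,
  nat_lit 26996, nat_lit 21205, nat_lit 7123, nat_lit 52262, nat_lit 90467, nat_lit 11912,
  nat_lit 78937, nat_lit 138913, nat_lit 78967, nat_lit 17483, nat_lit 104756, nat_lit 176129,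
  nat_lit 197514, nat_lit 22644, nat_lit 129253, nat_lit 205117, nat_lit 227677, nat_lit 120496,
  nat_lit 28597, nat_lit 149797, nat_lit 223480, nat_lit 251159, nat_lit 261106, nat_lit 34333,
  nat_lit 169024, nat_lit 241843, nat_lit 271340, nat_lit 279087, nat_lit 146866, nat_lit 39196,
  nat_lit 181658, nat_lit 251187, nat_lit 278583, nat_lit 282941, nat_lit 289777, nat_lit 43363,
  nat_lit 192768, nat_lit 260362, nat_lit 285136, nat_lit 294183, nat_lit 293674, nat_lit 153141,
  nat_lit 46219, nat_lit 200415, nat_lit 263874, nat_lit 290774, nat_lit 297816, nat_lit 297927,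
  nat_lit 302165, nat_lit 48347, nat_lit 204595, nat_lit 268719, nat_lit 292354, nat_lit 302227,
  nat_lit 300778, nat_lit 301844, nat_lit 153627, nat_lit 24429, nat_lit 207414, nat_lit 273737,
  nat_lit 294305, nat_lit 306070, nat_lit 301358, nat_lit 300004, nat_lit 304580, nat_lit 136523,
  nat_lit 292671, nat_lit 306843, nat_lit 303311, nat_lit 300981, nat_lit 307411, nat_lit 150916,
  nat_lit 154272, nat_lit 300997, nat_lit 298372, nat_lit 304239, nat_lit 300587, nat_lit 153388,
  nat_lit 302333, nat_lit 303080, nat_lit 150641, nat_lit 150960, nat_lit 299558, nat_lit 50805])]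

theorem run140 : run W140 data140 = true := by decide +kernel

end Vale.Agent.P154.AF.Eng
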