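import Vale.Agent.P154AF.Eng
import Vale.Agent.P154AF.Run0

/-! Run data, generations 49 to 56 (helper file). -/

namespace Vale.Agent.P154.AF.Eng

def W49 : List Nat :=
  [nat_lit 4162625, nat_lit 1622282, nat_lit 1251873, nat_lit 155912, nat_lit 934074,
  nat_lit 178050, nat_lit 755719, nat_lit 119196, nat_lit 48348, nat_lit 665384, nat_lit 89379,
  nat_lit 64775, nat_lit 610249, nat_lit 74149, nat_lit 45891, nat_lit 24224, nat_lit 570797,
  nat_lit 62990, nat_lit 37354, nat_lit 34598, nat_lit 548025, nat_lit 56343, nat_lit 31439,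
  nat_lit 26735, nat_lit 13471, nat_lit 537858, nat_lit 51099, nat_lit 27162, nat_lit 22694,
  nat_lit 20675, nat_lit 544015, nat_lit 48208, nat_lit 25555, nat_lit 20762, nat_lit 19110,
  nat_lit 8556, nat_lit 532713, nat_lit 44757, nat_lit 22841, nat_lit 17345, nat_lit 15801,
  nat_lit 13753, nat_lit 546649, nat_lit 42683, nat_lit 21294, nat_lit 16355, nat_lit 15005,
  nat_lit 12547, nat_lit 6254, nat_lit 559765, nat_lit 40920, nat_lit 20443, nat_lit 15246,
  nat_lit 13919, nat_lit 11200, nat_lit 10857, nat_lit 587491, nat_lit 40037, nat_lit 19927,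
  nat_lit 14539, nat_lit 12879, nat_lit 10808, nat_lit 9700, nat_lit 5093, nat_lit 325533,
  nat_lit 39879, nat_lit 19909, nat_lit 14079, nat_lit 13057, nat_lit 10374, nat_lit 9645,
  nat_lit 9214, nat_lit 9818, nat_lit 13779, nat_lit 12425, nat_lit 10144, nat_lit 8749,
  nat_lit 8577, nat_lit 4096, nat_lit 6011, nat_lit 9770, nat_lit 8450, nat_lit 8603,
  nat_lit 7952, nat_lit 4163, nat_lit 8344, nat_lit 8112, nat_lit 3865, nat_lit 3807,
  nat_lit 7258, nat_lit 1206]

def data49 : List (List Nat × List Nat) := [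
  ([nat_lit 523150, nat_lit 433505, nat_lit 390151, nat_lit 90966, nat_lit 321701, nat_lit 163040,
  nat_lit 285723, nat_lit 141666, nat_lit 74867, nat_lit 300052, nat_lit 130120, nat_lit 126731,
  nat_lit 274993, nat_lit 130024, nat_lit 116679, nat_lit 54369, nat_lit 304647, nat_lit 140038,
  nat_lit 121152, nat_lit 98097, nat_lit 333857, nat_lit 163381, nat_lit 121356, nat_lit 102677,
  nat_lit 48602, nat_lit 384181, nat_lit 193436, nat_lit 141590, nat_lit 123011, nat_lit 117928,
  nat_lit 501394, nat_lit 260411, nat_lit 202719, nat_lit 176657, nat_lit 159326, nat_lit 75990,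
  nat_lit 551882, nat_lit 329043, nat_lit 193047, nat_lit 110539, nat_lit 72808, nat_lit 64546,
  nat_lit 716363, nat_lit 337363, nat_lit 128515, nat_lit 76907, nat_lit 62758, nat_lit 53297,
  nat_lit 26650, nat_lit 956085, nat_lit 297296, nat_lit 111463, nat_lit 75121, nat_lit 57837,
  nat_lit 49348, nat_lit 48223, nat_lit 1528952, nat_lit 271254, nat_lit 105322, nat_lit 73978,
  nat_lit 58812, nat_lit 49847, nat_lit 46014, nat_lit 22688, nat_lit 1537643, nat_lit 256551,
  nat_lit 103965, nat_lit 74886, nat_lit 60553, nat_lit 51936, nat_lit 47496, nat_lit 44453,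
  nat_lit 52255, nat_lit 75160, nat_lit 61313, nat_lit 55358, nat_lit 45619, nat_lit 46292,
  nat_lit 21169, nat_lit 30657, nat_lit 53743, nat_lit 49839, nat_lit 47434, nat_lit 44218,
  nat_lit 26718, nat_lit 46389, nat_lit 47020, nat_lit 22093, nat_lit 22459, nat_lit 40849,
  nat_lit 7003],
   [nat_lit 4095210, nat_lit 1626177, nat_lit 1255953, nat_lit 159320, nat_lit 937125,
  nat_lit 182036, nat_lit 758189, nat_lit 121876, nat_lit 49476, nat_lit 667379, nat_lit 91414,
  nat_lit 66248, nat_lit 611949, nat_lit 75830, nat_lit 46937, nat_lit 24765, nat_lit 572218,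
  nat_lit 64415, nat_lit 38200, nat_lit 35371, nat_lit 549228, nat_lit 57613, nat_lit 32147,
  nat_lit 27346, nat_lit 13765, nat_lit 538806, nat_lit 52246, nat_lit 27777, nat_lit 23213,
  nat_lit 21138, nat_lit 544664, nat_lit 49290, nat_lit 26131, nat_lit 21238, nat_lit 19538,
  nat_lit 8749, nat_lit 533421, nat_lit 45761, nat_lit 23358, nat_lit 17742, nat_lit 16158,
  nat_lit 14067, nat_lit 547197, nat_lit 43642, nat_lit 21776, nat_lit 16733, nat_lit 15340,
  nat_lit 12834, nat_lit 6397, nat_lit 560149, nat_lit 41842, nat_lit 20906, nat_lit 15599,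
  nat_lit 14229, nat_lit 11459, nat_lit 11104, nat_lit 587293, nat_lit 40938, nat_lit 20377,
  nat_lit 14874, nat_lit 13168, nat_lit 11054, nat_lit 9927, nat_lit 5208, nat_lit 324475,
  nat_lit 40773, nat_lit 20355, nat_lit 14405, nat_lit 13345, nat_lit 10608, nat_lit 9865,
  nat_lit 9422, nat_lit 10040, nat_lit 14099, nat_lit 12702, nat_lit 10374, nat_lit 8952,
  nat_lit 8772, nat_lit 4190, nat_lit 6145, nat_lit 9993, nat_lit 8646, nat_lit 8799,
  nat_lit 8133, nat_lit 4260, nat_lit 8533, nat_lit 8296, nat_lit 3953, nat_lit 3893,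
  nat_lit 7425, nat_lit 1233]),
  ([nat_lit 506463, nat_lit 427719, nat_lit 386123, nat_lit 91455, nat_lit 318751, nat_lit 164394,
  nat_lit 283318, nat_lit 142997, nat_lit 75694, nat_lit 297473, nat_lit 131408, nat_lit 128270,
  nat_lit 272747, nat_lit 131297, nat_lit 118135, nat_lit 55075, nat_lit 301991, nat_lit 141383,
  nat_lit 122597, nat_lit 99388, nat_lit 330929, nat_lit 164856, nat_lit 122788, nat_lit 103950,
  nat_lit 49211, nat_lit 380807, nat_lit 195129, nat_lit 143121, nat_lit 124339, nat_lit 119160,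
  nat_lit 496484, nat_lit 262315, nat_lit 204442, nat_lit 178093, nat_lit 160601, nat_lit 76593,
  nat_lit 548251, nat_lit 331741, nat_lit 195155, nat_lit 112028, nat_lit 73986, nat_lit 65617,
  nat_lit 713193, nat_lit 340859, nat_lit 130312, nat_lit 78082, nat_lit 63697, nat_lit 54128,
  nat_lit 27056, nat_lit 953951, nat_lit 301061, nat_lit 112929, nat_lit 76126, nat_lit 58646,
  nat_lit 50053, nat_lit 48895, nat_lit 1525498, nat_lit 274991, nat_lit 106697, nat_lit 74848,
  nat_lit 59548, nat_lit 50501, nat_lit 46616, nat_lit 22988, nat_lit 1518683, nat_lit 260132,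
  nat_lit 105243, nat_lit 75739, nat_lit 61205, nat_lit 52539, nat_lit 48063, nat_lit 44999,
  nat_lit 52871, nat_lit 75989, nat_lit 61937, nat_lit 55891, nat_lit 46135, nat_lit 46794,
  nat_lit 21411, nat_lit 30983, nat_lit 54260, nat_lit 50312, nat_lit 47879, nat_lit 44627,
  nat_lit 26918, nat_lit 46827, nat_lit 47463, nat_lit 22310, nat_lit 22687, nat_lit 41291,
  nat_lit 7079],
   [nat_lit 4027775, nat_lit 1629720, nat_lit 1259846, nat_lit 162780, nat_lit 940067,
  nat_lit 186097, nat_lit 760588, nat_lit 124610, nat_lit 50629, nat_lit 669324, nat_lit 93493,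
  nat_lit 67754, nat_lit 613609, nat_lit 77547, nat_lit 48007, nat_lit 25318, nat_lit 573607,
  nat_lit 65872, nat_lit 39066, nat_lit 36162, nat_lit 550405, nat_lit 58912, nat_lit 32871,
  nat_lit 27972, nat_lit 14066, nat_lit 539731, nat_lit 53420, nat_lit 28407, nat_lit 23745,
  nat_lit 21611, nat_lit 545296, nat_lit 50396, nat_lit 26722, nat_lit 21725, nat_lit 19977,
  nat_lit 8946, nat_lit 534109, nat_lit 46789, nat_lit 23888, nat_lit 18149, nat_lit 16522,
  nat_lit 14388, nat_lit 547722, nat_lit 44624, nat_lit 22269, nat_lit 17120, nat_lit 15683,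
  nat_lit 13127, nat_lit 6542, nat_lit 560506, nat_lit 42786, nat_lit 21381, nat_lit 15961,
  nat_lit 14547, nat_lit 11724, nat_lit 11357, nat_lit 587070, nat_lit 41860, nat_lit 20838,
  nat_lit 15218, nat_lit 13463, nat_lit 11305, nat_lit 10159, nat_lit 5325, nat_lit 323430,
  nat_lit 41687, nat_lit 20813, nat_lit 14738, nat_lit 13641, nat_lit 10849, nat_lit 10091,
  nat_lit 9637, nat_lit 10267, nat_lit 14426, nat_lit 12985, nat_lit 10610, nat_lit 9159,
  nat_lit 8971, nat_lit 4286, nat_lit 6283, nat_lit 10222, nat_lit 8846, nat_lit 8999,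
  nat_lit 8318, nat_lit 4360, nat_lit 8727, nat_lit 8484, nat_lit 4043, nat_lit 3982,
  nat_lit 7596, nat_lit 1261]),
  ([nat_lit 490047, nat_lit 421806, nat_lit 381991, nat_lit 91908, nat_lit 315727, nat_lit 165706,
  nat_lit 280854, nat_lit 144301, nat_lit 76513, nat_lit 294839, nat_lit 132680, nat_lit 129807,
  nat_lit 270456, nat_lit 132557, nat_lit 119596, nat_lit 55784, nat_lit 299295, nat_lit 142717,
  nat_lit 124048, nat_lit 100691, nat_lit 327962, nat_lit 166320, nat_lit 124231, nat_lit 105236,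
  nat_lit 49826, nat_lit 377392, nat_lit 196813, nat_lit 144663, nat_lit 125682, nat_lit 120407,
  nat_lit 491553, nat_lit 264211, nat_lit 206180, nat_lit 179546, nat_lit 161895, nat_lit 77205,
  nat_lit 544562, nat_lit 334437, nat_lit 197288, nat_lit 113543, nat_lit 75187, nat_lit 66709,
  nat_lit 709953, nat_lit 344372, nat_lit 132141, nat_lit 79280, nat_lit 64654, nat_lit 54976,
  nat_lit 27470, nat_lit 951712, nat_lit 304862, nat_lit 114421, nat_lit 77149, nat_lit 59470,
  nat_lit 50772, nat_lit 49581, nat_lit 1521806, nat_lit 278771, nat_lit 108095, nat_lit 75736,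
  nat_lit 60298, nat_lit 51168, nat_lit 47230, nat_lit 23294, nat_lit 1499795, nat_lit 263761,
  nat_lit 106544, nat_lit 76608, nat_lit 61870, nat_lit 53154, nat_lit 48642, nat_lit 45554,
  nat_lit 53498, nat_lit 76833, nat_lit 62575, nat_lit 56435, nat_lit 46660, nat_lit 47307,
  nat_lit 21659, nat_lit 31315, nat_lit 54788, nat_lit 50795, nat_lit 48334, nat_lit 45046,
  nat_lit 27124, nat_lit 47274, nat_lit 47915, nat_lit 22531, nat_lit 22919, nat_lit 41741,
  nat_lit 7157],
   [nat_lit 3960278, nat_lit 1632902, nat_lit 1263552, nat_lit 166295, nat_lit 942900,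
  nat_lit 190239, nat_lit 762917, nat_lit 127401, nat_lit 51808, nat_lit 671218, nat_lit 95619,
  nat_lit 69294, nat_lit 615230, nat_lit 79303, nat_lit 49103, nat_lit 25884, nat_lit 574964,
  nat_lit 67362, nat_lit 39953, nat_lit 36971, nat_lit 551555, nat_lit 60241, nat_lit 33613,
  nat_lit 28614, nat_lit 14373, nat_lit 540633, nat_lit 54621, nat_lit 29053, nat_lit 24289,
  nat_lit 22096, nat_lit 545910, nat_lit 51528, nat_lit 27327, nat_lit 22224, nat_lit 20426,
  nat_lit 9148, nat_lit 534776, nat_lit 47840, nat_lit 24432, nat_lit 18567, nat_lit 16896,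
  nat_lit 14718, nat_lit 548224, nat_lit 45629, nat_lit 22775, nat_lit 17517, nat_lit 16035,
  nat_lit 13427, nat_lit 6691, nat_lit 560835, nat_lit 43752, nat_lit 21868, nat_lit 16332,
  nat_lit 14872, nat_lit 11995, nat_lit 11616, nat_lit 586820, nat_lit 42804, nat_lit 21311,
  nat_lit 15570, nat_lit 13766, nat_lit 11562, nat_lit 10397, nat_lit 5445, nat_lit 322396,
  nat_lit 42623, nat_lit 21282, nat_lit 15081, nat_lit 13943, nat_lit 11095, nat_lit 10322,
  nat_lit 9856, nat_lit 10501, nat_lit 14762, nat_lit 13275, nat_lit 10852, nat_lit 9372,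
  nat_lit 9176, nat_lit 4385, nat_lit 6424, nat_lit 10456, nat_lit 9052, nat_lit 9204,
  nat_lit 8509, nat_lit 4462, nat_lit 8925, nat_lit 8677, nat_lit 4135, nat_lit 4073,
  nat_lit 7772, nat_lit 1290]),
  ([nat_lit 473880, nat_lit 415763, nat_lit 377753, nat_lit 92324, nat_lit 312625, nat_lit 166975,
  nat_lit 278328, nat_lit 145581, nat_lit 77325, nat_lit 292150, nat_lit 133935, nat_lit 131344,
  nat_lit 268120, nat_lit 133805, nat_lit 121061, nat_lit 56498, nat_lit 296554, nat_lit 144041,
  nat_lit 125507, nat_lit 102007, nat_lit 324952, nat_lit 167775, nat_lit 125684, nat_lit 106537,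
  nat_lit 50449, nat_lit 373933, nat_lit 198488, nat_lit 146217, nat_lit 127039, nat_lit 121670,
  nat_lit 486595, nat_lit 266098, nat_lit 207934, nat_lit 181019, nat_lit 163208, nat_lit 77827,
  nat_lit 540813, nat_lit 337133, nat_lit 199447, nat_lit 115085, nat_lit 76414, nat_lit 67825,
  nat_lit 706637, nat_lit 347905, nat_lit 134003, nat_lit 80501, nat_lit 65632, nat_lit 55842,
  nat_lit 27894, nat_lit 949363, nat_lit 308700, nat_lit 115943, nat_lit 78192, nat_lit 60312,
  nat_lit 51507, nat_lit 50281, nat_lit 1517875, nat_lit 282598, nat_lit 109517, nat_lit 76643,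
  nat_lit 61063, nat_lit 51849, nat_lit 47857, nat_lit 23606, nat_lit 1480965, nat_lit 267441,
  nat_lit 107868, nat_lit 77494, nat_lit 62550, nat_lit 53782, nat_lit 49232, nat_lit 46122,
  nat_lit 54137, nat_lit 77695, nat_lit 63226, nat_lit 56991, nat_lit 47197, nat_lit 47829,
  nat_lit 21911, nat_lit 31653, nat_lit 55328, nat_lit 51288, nat_lit 48799, nat_lit 45476,
  nat_lit 27335, nat_lit 47732, nat_lit 48377, nat_lit 22757, nat_lit 23156, nat_lit 42201,
  nat_lit 7236],
   [nat_lit 3892645, nat_lit 1635718, nat_lit 1267068, nat_lit 169869, nat_lit 945622,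
  nat_lit 194467, nat_lit 765176, nat_lit 130254, nat_lit 53016, nat_lit 673063, nat_lit 97793,
  nat_lit 70871, nat_lit 616812, nat_lit 81101, nat_lit 50227, nat_lit 26463, nat_lit 576289,
  nat_lit 68889, nat_lit 40863, nat_lit 37800, nat_lit 552678, nat_lit 61602, nat_lit 34375,
  nat_lit 29272, nat_lit 14687, nat_lit 541513, nat_lit 55852, nat_lit 29716, nat_lit 24849,
  nat_lit 22593, nat_lit 546505, nat_lit 52687, nat_lit 27948, nat_lit 22736, nat_lit 20886,
  nat_lit 9356, nat_lit 535422, nat_lit 48918, nat_lit 24990, nat_lit 18996, nat_lit 17280,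
  nat_lit 15056, nat_lit 548702, nat_lit 46659, nat_lit 23295, nat_lit 17925, nat_lit 16396,
  nat_lit 13735, nat_lit 6844, nat_lit 561137, nat_lit 44742, nat_lit 22368, nat_lit 16713,
  nat_lit 15206, nat_lit 12274, nat_lit 11882, nat_lit 586544, nat_lit 43771, nat_lit 21797,
  nat_lit 15932, nat_lit 14077, nat_lit 11826, nat_lit 10641, nat_lit 5568, nat_lit 321370,
  nat_lit 43582, nat_lit 21763, nat_lit 15432, nat_lit 14254, nat_lit 11348, nat_lit 10559,
  nat_lit 10081, nat_lit 10740, nat_lit 15108, nat_lit 13573, nat_lit 11099, nat_lit 9591,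
  nat_lit 9386, nat_lit 4486, nat_lit 6569, nat_lit 10696, nat_lit 9263, nat_lit 9415,
  nat_lit 8704, nat_lit 4568, nat_lit 9129, nat_lit 8875, nat_lit 4229, nat_lit 4167,
  nat_lit 7952, nat_lit 1320]),
  ([nat_lit 457953, nat_lit 409586, nat_lit 373404, nat_lit 92701, nat_lit 309443, nat_lit 168200,
  nat_lit 275738, nat_lit 146834, nat_lit 78130, nat_lit 289402, nat_lit 135174, nat_lit 132880,
  nat_lit 265734, nat_lit 135041, nat_lit 122532, nat_lit 57216, nat_lit 293767, nat_lit 145356,
  nat_lit 126974, nat_lit 103336, nat_lit 321896, nat_lit 169221, nat_lit 127151, nat_lit 107853,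
  nat_lit 51080, nat_lit 370425, nat_lit 200155, nat_lit 147787, nat_lit 128414, nat_lit 122951,
  nat_lit 481603, nat_lit 267978, nat_lit 209704, nat_lit 182511, nat_lit 164544, nat_lit 78460,
  nat_lit 536998, nat_lit 339832, nat_lit 201636, nat_lit 116659, nat_lit 77669, nat_lit 68967,
  nat_lit 703241, nat_lit 351461, nat_lit 135902, nat_lit 81750, nat_lit 66631, nat_lit 56729,
  nat_lit 28327, nat_lit 946899, nat_lit 312582, nat_lit 117495, nat_lit 79257, nat_lit 61171,
  nat_lit 52259, nat_lit 50997, nat_lit 1513695, nat_lit 286477, nat_lit 110967, nat_lit 77569,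
  nat_lit 61844, nat_lit 52545, nat_lit 48497, nat_lit 23925, nat_lit 1462170, nat_lit 271176,
  nat_lit 109219, nat_lit 78398, nat_lit 63246, nat_lit 54422, nat_lit 49836, nat_lit 46702,
  nat_lit 54789, nat_lit 78574, nat_lit 63892, nat_lit 57560, nat_lit 47746, nat_lit 48364,
  nat_lit 22170, nat_lit 31998, nat_lit 55880, nat_lit 51793, nat_lit 49275, nat_lit 45917,
  nat_lit 27553, nat_lit 48200, nat_lit 48849, nat_lit 22988, nat_lit 23397, nat_lit 42671,
  nat_lit 7316],
   [nat_lit 3824826, nat_lit 1638157, nat_lit 1270390, nat_lit 173505, nat_lit 948233,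
  nat_lit 198786, nat_lit 767363, nat_lit 133173, nat_lit 54254, nat_lit 674857, nat_lit 100021,
  nat_lit 72488, nat_lit 618355, nat_lit 82944, nat_lit 51379, nat_lit 27056, nat_lit 577583,
  nat_lit 70454, nat_lit 41797, nat_lit 38650, nat_lit 553775, nat_lit 62998, nat_lit 35157,
  nat_lit 29948, nat_lit 15010, nat_lit 542369, nat_lit 57114, nat_lit 30397, nat_lit 25423,
  nat_lit 23102, nat_lit 547082, nat_lit 53877, nat_lit 28585, nat_lit 23261, nat_lit 21358,
  nat_lit 9568, nat_lit 536046, nat_lit 50024, nat_lit 25563, nat_lit 19436, nat_lit 17674,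
  nat_lit 15403, nat_lit 549156, nat_lit 47716, nat_lit 23829, nat_lit 18344, nat_lit 16767,
  nat_lit 14051, nat_lit 7002, nat_lit 561410, nat_lit 45758, nat_lit 22882, nat_lit 17105,
  nat_lit 15549, nat_lit 12561, nat_lit 12156, nat_lit 586240, nat_lit 44765, nat_lit 22296,
  nat_lit 16305, nat_lit 14396, nat_lit 12098, nat_lit 10893, nat_lit 5695, nat_lit 320352,
  nat_lit 44566, nat_lit 22258, nat_lit 15794, nat_lit 14572, nat_lit 11607, nat_lit 10803,
  nat_lit 10313, nat_lit 10986, nat_lit 15463, nat_lit 13879, nat_lit 11354, nat_lit 9815,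
  nat_lit 9601, nat_lit 4590, nat_lit 6718, nat_lit 10943, nat_lit 9481, nat_lit 9632,
  nat_lit 8905, nat_lit 4676, nat_lit 9338, nat_lit 9078, nat_lit 4326, nat_lit 4263,
  nat_lit 8138, nat_lit 1350]),
  ([nat_lit 442256, nat_lit 403272, nat_lit 368940, nat_lit 93039, nat_lit 306176, nat_lit 169380,
  nat_lit 273081, nat_lit 148061, nat_lit 78927, nat_lit 286591, nat_lit 136397, nat_lit 134416,
  nat_lit 263297, nat_lit 136264, nat_lit 124011, nat_lit 57939, nat_lit 290930, nat_lit 146661,
  nat_lit 128450, nat_lit 104681, nat_lit 318788, nat_lit 170658, nat_lit 128630, nat_lit 109186,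
  nat_lit 51720, nat_lit 366863, nat_lit 201815, nat_lit 149371, nat_lit 129808, nat_lit 124250,
  nat_lit 476573, nat_lit 269852, nat_lit 211494, nat_lit 184026, nat_lit 165903, nat_lit 79106,
  nat_lit 533113, nat_lit 342536, nat_lit 203856, nat_lit 118264, nat_lit 78953, nat_lit 70135,
  nat_lit 699760, nat_lit 355045, nat_lit 137841, nat_lit 83026, nat_lit 67653, nat_lit 57636,
  nat_lit 28770, nat_lit 944314, nat_lit 316510, nat_lit 119081, nat_lit 80346, nat_lit 62051,
  nat_lit 53030, nat_lit 51731, nat_lit 1509259, nat_lit 290410, nat_lit 112446, nat_lit 78518,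
  nat_lit 62643, nat_lit 53257, nat_lit 49153, nat_lit 24252, nat_lit 1443395, nat_lit 274972,
  nat_lit 110597, nat_lit 79322, nat_lit 63958, nat_lit 55077, nat_lit 50452, nat_lit 47295,
  nat_lit 55455, nat_lit 79472, nat_lit 64575, nat_lit 58143, nat_lit 48308, nat_lit 48910,
  nat_lit 22434, nat_lit 32350, nat_lit 56446, nat_lit 52310, nat_lit 49764, nat_lit 46371,
  nat_lit 27777, nat_lit 48680, nat_lit 49333, nat_lit 23224, nat_lit 23644, nat_lit 43152,
  nat_lit 7399],
   [nat_lit 3756762, nat_lit 1640209, nat_lit 1273513, nat_lit 177208, nat_lit 950728,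
  nat_lit 203203, nat_lit 769478, nat_lit 136162, nat_lit 55524, nat_lit 676599, nat_lit 102305,
  nat_lit 74147, nat_lit 619858, nat_lit 84834, nat_lit 52564, nat_lit 27665, nat_lit 578844,
  nat_lit 72060, nat_lit 42757, nat_lit 39523, nat_lit 554844, nat_lit 64431, nat_lit 35960,
  nat_lit 30642, nat_lit 15340, nat_lit 543202, nat_lit 58411, nat_lit 31097, nat_lit 26014,
  nat_lit 23626, nat_lit 547638, nat_lit 55098, nat_lit 29241, nat_lit 23802, nat_lit 21843,
  nat_lit 9787, nat_lit 536647, nat_lit 51160, nat_lit 26153, nat_lit 19890, nat_lit 18079,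
  nat_lit 15761, nat_lit 549584, nat_lit 48802, nat_lit 24379, nat_lit 18776, nat_lit 17148,
  nat_lit 14376, nat_lit 7163, nat_lit 561653, nat_lit 46803, nat_lit 23411, nat_lit 17509,
  nat_lit 15902, nat_lit 12855, nat_lit 12437, nat_lit 585908, nat_lit 45785, nat_lit 22809,
  nat_lit 16688, nat_lit 14725, nat_lit 12377, nat_lit 11151, nat_lit 5825, nat_lit 319340,
  nat_lit 45577, nat_lit 22767, nat_lit 16167, nat_lit 14900, nat_lit 11874, nat_lit 11053,
  nat_lit 10551, nat_lit 11239, nat_lit 15829, nat_lit 14193, nat_lit 11616, nat_lit 10047,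
  nat_lit 9824, nat_lit 4698, nat_lit 6871, nat_lit 11198, nat_lit 9704, nat_lit 9855,
  nat_lit 9111, nat_lit 4787, nat_lit 9554, nat_lit 9287, nat_lit 4426, nat_lit 4362,
  nat_lit 8329, nat_lit 1382]),
  ([nat_lit 426770, nat_lit 396816, nat_lit 364358, nat_lit 93336, nat_lit 302822, nat_lit 170513,
  nat_lit 270353, nat_lit 149260, nat_lit 79716, nat_lit 283715, nat_lit 137602, nat_lit 135953,
  nat_lit 260805, nat_lit 137475, nat_lit 125497, nat_lit 58669, nat_lit 288038, nat_lit 147956,
  nat_lit 129937, nat_lit 106042, nat_lit 315627, nat_lit 172087, nat_lit 130125, nat_lit 110538,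
  nat_lit 52370, nat_lit 363246, nat_lit 203468, nat_lit 150973, nat_lit 131221, nat_lit 125570,
  nat_lit 471498, nat_lit 271720, nat_lit 213305, nat_lit 185565, nat_lit 167287, nat_lit 79764,
  nat_lit 529151, nat_lit 345244, nat_lit 206111, nat_lit 119905, nat_lit 80269, nat_lit 71333,
  nat_lit 696187, nat_lit 358657, nat_lit 139822, nat_lit 84334, nat_lit 68700, nat_lit 58567,
  nat_lit 29224, nat_lit 941605, nat_lit 320489, nat_lit 120703, nat_lit 81461, nat_lit 62951,
  nat_lit 53819, nat_lit 52482, nat_lit 1504556, nat_lit 294404, nat_lit 113956, nat_lit 79489,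
  nat_lit 63461, nat_lit 53987, nat_lit 49826, nat_lit 24587, nat_lit 1424623, nat_lit 278833,
  nat_lit 112007, nat_lit 80267, nat_lit 64689, nat_lit 55747, nat_lit 51084, nat_lit 47903,
  nat_lit 56136, nat_lit 80391, nat_lit 65275, nat_lit 58741, nat_lit 48884, nat_lit 49471,
  nat_lit 22706, nat_lit 32711, nat_lit 57028, nat_lit 52840, nat_lit 50266, nat_lit 46838,
  nat_lit 28008, nat_lit 49172, nat_lit 49828, nat_lit 23467, nat_lit 23897, nat_lit 43644,
  nat_lit 7483],
   [nat_lit 3688395, nat_lit 1641860, nat_lit 1276432, nat_lit 180981, nat_lit 953105,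
  nat_lit 207724, nat_lit 771519, nat_lit 139226, nat_lit 56829, nat_lit 678290, nat_lit 104649,
  nat_lit 75852, nat_lit 621320, nat_lit 86775, nat_lit 53782, nat_lit 28291, nat_lit 580072,
  nat_lit 73710, nat_lit 43744, nat_lit 40419, nat_lit 555885, nat_lit 65904, nat_lit 36788,
  nat_lit 31358, nat_lit 15680, nat_lit 544010, nat_lit 59744, nat_lit 31818, nat_lit 26622,
  nat_lit 24164, nat_lit 548174, nat_lit 56353, nat_lit 29917, nat_lit 24359, nat_lit 22341,
  nat_lit 10011, nat_lit 537226, nat_lit 52327, nat_lit 26760, nat_lit 20358, nat_lit 18496,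
  nat_lit 16129, nat_lit 549987, nat_lit 49918, nat_lit 24945, nat_lit 19221, nat_lit 17540,
  nat_lit 14711, nat_lit 7330, nat_lit 561866, nat_lit 47877, nat_lit 23956, nat_lit 17926,
  nat_lit 16265, nat_lit 13159, nat_lit 12727, nat_lit 585546, nat_lit 46834, nat_lit 23338,
  nat_lit 17084, nat_lit 15063, nat_lit 12664, nat_lit 11418, nat_lit 5959, nat_lit 318332,
  nat_lit 46616, nat_lit 23291, nat_lit 16552, nat_lit 15237, nat_lit 12149, nat_lit 11311,
  nat_lit 10796, nat_lit 11500, nat_lit 16207, nat_lit 14517, nat_lit 11885, nat_lit 10285,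
  nat_lit 10052, nat_lit 4808, nat_lit 7029, nat_lit 11460, nat_lit 9935, nat_lit 10085,
  nat_lit 9324, nat_lit 4902, nat_lit 9775, nat_lit 9502, nat_lit 4529, nat_lit 4464,
  nat_lit 8526, nat_lit 1414])]

theorem run49 : run W49 data49 = true := by decide +kernel

end Vale.Agent.P154.AF.Eng
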