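import Vale.Agent.P154AF.Eng
import Vale.Agent.P154AF.Run49

/-! Run data, generations 98 to 105 (helper file). -/

namespace Vale.Agent.P154.AF.Eng

def W98 : List Nat :=
  [nat_lit 487092, nat_lit 807460, nat_lit 839658, nat_lit 370371, nat_lit 702344,
  nat_lit 549700, nat_lit 618576, nat_lit 409487, nat_lit 186423, nat_lit 569597, nat_lit 333270,
  nat_lit 256432, nat_lit 537109, nat_lit 285577, nat_lit 194752, nat_lit 94971, nat_lit 509893,
  nat_lit 249468, nat_lit 162472, nat_lit 141212, nat_lit 493061, nat_lit 226662, nat_lit 139203,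
  nat_lit 118446, nat_lit 54339, nat_lit 482528, nat_lit 208460, nat_lit 123267, nat_lit 102980,
  nat_lit 89093, nat_lit 481796, nat_lit 197336, nat_lit 115656, nat_lit 94259, nat_lit 82413,
  nat_lit 37951, nat_lit 474745, nat_lit 185446, nat_lit 105008, nat_lit 82397, nat_lit 71045,
  nat_lit 64303, nat_lit 478157, nat_lit 178424, nat_lit 99223, nat_lit 78268, nat_lit 66911,
  nat_lit 57963, nat_lit 29111, nat_lit 479523, nat_lit 172663, nat_lit 95514, nat_lit 74195,
  nat_lit 62416, nat_lit 53354, nat_lit 51466, nat_lit 483395, nat_lit 169056, nat_lit 93041,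
  nat_lit 70804, nat_lit 59304, nat_lit 50553, nat_lit 47439, nat_lit 23865, nat_lit 244778,
  nat_lit 166928, nat_lit 92087, nat_lit 69389, nat_lit 58547, nat_lit 48645, nat_lit 45696,
  nat_lit 43836, nat_lit 45864, nat_lit 67780, nat_lit 56515, nat_lit 47218, nat_lit 43366,
  nat_lit 41484, nat_lit 20061, nat_lit 28116, nat_lit 46624, nat_lit 41909, nat_lit 41022,
  nat_lit 38343, nat_lit 20910, nat_lit 39665, nat_lit 38139, nat_lit 18563, nat_lit 18531,
  nat_lit 36353, nat_lit 5944]

def data98 : List (List Nat × List Nat) := [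
  ([nat_lit 7506, nat_lit 27695, nat_lit 44168, nat_lit 25722, nat_lit 48997, nat_lit 80327,
  nat_lit 53042, nat_lit 94010, nat_lit 62949, nat_lit 60716, nat_lit 104750, nat_lit 144569,
  nat_lit 62500, nat_lit 115399, nat_lit 157343, nat_lit 81600, nat_lit 70386, nat_lit 134150,
  nat_lit 174765, nat_lit 172992, nat_lit 81269, nat_lit 163777, nat_lit 191977, nat_lit 189857,
  nat_lit 93881, nat_lit 100294, nat_lit 205644, nat_lit 227491, nat_lit 222613, nat_lit 219326,
  nat_lit 137147, nat_lit 280134, nat_lit 307717, nat_lit 294828, nat_lit 281424, nat_lit 137417,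
  nat_lit 194276, nat_lit 403994, nat_lit 363402, nat_lit 278887, nat_lit 227135, nat_lit 208479,
  nat_lit 321058, nat_lit 511554, nat_lit 328704, nat_lit 230196, nat_lit 191510, nat_lit 172252,
  nat_lit 84321, nat_lit 517095, nat_lit 553821, nat_lit 290105, nat_lit 208471, nat_lit 170493,
  nat_lit 152259, nat_lit 145661, nat_lit 781205, nat_lit 563268, nat_lit 270940, nat_lit 194772,
  nat_lit 161847, nat_lit 144202, nat_lit 134143, nat_lit 66449, nat_lit 484939, nat_lit 561078,
  nat_lit 261903, nat_lit 190277, nat_lit 156874, nat_lit 138329, nat_lit 129493, nat_lit 124458,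
  nat_lit 129644, nat_lit 187675, nat_lit 153802, nat_lit 136590, nat_lit 123287, nat_lit 120689,
  nat_lit 58163, nat_lit 76577, nat_lit 133956, nat_lit 123080, nat_lit 117746, nat_lit 112155,
  nat_lit 61903, nat_lit 115029, nat_lit 114049, nat_lit 55259, nat_lit 55932, nat_lit 107350,
  nat_lit 18098],
   [nat_lit 431940, nat_lit 753837, nat_lit 801366, nat_lit 367148, nat_lit 676928,
  nat_lit 555935, nat_lit 600562, nat_lit 417996, nat_lit 191444, nat_lit 555571, nat_lit 342195,
  nat_lit 264743, nat_lit 525514, nat_lit 294139, nat_lit 202173, nat_lit 98184, nat_lit 500035,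
  nat_lit 257577, nat_lit 169052, nat_lit 146533, nat_lit 484266, nat_lit 234417, nat_lit 145103,
  nat_lit 123387, nat_lit 56502, nat_lit 474469, nat_lit 215864, nat_lit 128664, nat_lit 107458,
  nat_lit 92927, nat_lit 474071, nat_lit 204497, nat_lit 120774, nat_lit 98427, nat_lit 85939,
  nat_lit 39692, nat_lit 467398, nat_lit 192341, nat_lit 109751, nat_lit 86264, nat_lit 74243,
  nat_lit 67379, nat_lit 470714, nat_lit 185164, nat_lit 103793, nat_lit 81944, nat_lit 69932,
  nat_lit 60721, nat_lit 30521, nat_lit 471981, nat_lit 179271, nat_lit 99916, nat_lit 77753,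
  nat_lit 65275, nat_lit 55959, nat_lit 54013, nat_lit 475704, nat_lit 175549, nat_lit 97356,
  nat_lit 74233, nat_lit 62084, nat_lit 53012, nat_lit 49823, nat_lit 25039, nat_lit 240684,
  nat_lit 173351, nat_lit 96366, nat_lit 72780, nat_lit 61277, nat_lit 51044, nat_lit 47982,
  nat_lit 46044, nat_lit 47998, nat_lit 71087, nat_lit 59151, nat_lit 49529, nat_lit 45604,
  nat_lit 43611, nat_lit 21095, nat_lit 29466, nat_lit 48933, nat_lit 44073, nat_lit 43076,
  nat_lit 40313, nat_lit 22004, nat_lit 41673, nat_lit 40069, nat_lit 19525, nat_lit 19489,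
  nat_lit 38272, nat_lit 6258]),
  ([nat_lit 5929, nat_lit 23078, nat_lit 38130, nat_lit 22646, nat_lit 43198, nat_lit 73203,
  nat_lit 47420, nat_lit 87537, nat_lit 59315, nat_lit 54728, nat_lit 98988, nat_lit 139256,
  nat_lit 56769, nat_lit 110003, nat_lit 153563, nat_lit 80225, nat_lit 64142, nat_lit 128771,
  nat_lit 171946, nat_lit 172259, nat_lit 74394, nat_lit 158137, nat_lit 190318, nat_lit 190338,
  nat_lit 94430, nat_lit 92378, nat_lit 199784, nat_lit 226686, nat_lit 224049, nat_lit 221497,
  nat_lit 127077, nat_lit 273634, nat_lit 307516, nat_lit 297338, nat_lit 285144, nat_lit 139480,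
  nat_lit 182010, nat_lit 397908, nat_lit 366771, nat_lit 285461, nat_lit 234365, nat_lit 215558,
  nat_lit 304561, nat_lit 509128, nat_lit 336127, nat_lit 237637, nat_lit 198277, nat_lit 178776,
  nat_lit 87496, nat_lit 494938, nat_lit 556253, nat_lit 298050, nat_lit 215349, nat_lit 176703,
  nat_lit 158159, nat_lit 151289, nat_lit 747043, nat_lit 568659, nat_lit 278648, nat_lit 201279,
  nat_lit 167669, nat_lit 149675, nat_lit 139361, nat_lit 69034, nat_lit 460665, nat_lit 567997,
  nat_lit 269487, nat_lit 196541, nat_lit 162470, nat_lit 143437, nat_lit 134380, nat_lit 129277,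
  nat_lit 133409, nat_lit 193819, nat_lit 159225, nat_lit 141521, nat_lit 128047, nat_lit 125224,
  nat_lit 60451, nat_lit 79255, nat_lit 138861, nat_lit 127640, nat_lit 122140, nat_lit 116483,
  nat_lit 64169, nat_lit 119349, nat_lit 118227, nat_lit 57343, nat_lit 58011, nat_lit 111517,
  nat_lit 18781],
   [nat_lit 380509, nat_lit 699815, nat_lit 761684, nat_lit 362543, nat_lit 650268,
  nat_lit 560864, nat_lit 581479, nat_lit 425961, nat_lit 196325, nat_lit 540616, nat_lit 350910,
  nat_lit 273106, nat_lit 513099, nat_lit 302652, nat_lit 209789, nat_lit 101457, nat_lit 489453,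
  nat_lit 265731, nat_lit 175855, nat_lit 152030, nat_lit 474810, nat_lit 242274, nat_lit 151237,
  nat_lit 128524, nat_lit 58762, nat_lit 465803, nat_lit 223402, nat_lit 134292, nat_lit 112132,
  nat_lit 96954, nat_lit 465778, nat_lit 211815, nat_lit 126122, nat_lit 102790, nat_lit 89638,
  nat_lit 41533, nat_lit 459514, nat_lit 199406, nat_lit 114719, nat_lit 90331, nat_lit 77609,
  nat_lit 70636, nat_lit 462758, nat_lit 192085, nat_lit 108585, nat_lit 85809, nat_lit 73116,
  nat_lit 63645, nat_lit 32018, nat_lit 463951, nat_lit 186065, nat_lit 104534, nat_lit 81500,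
  nat_lit 68292, nat_lit 58725, nat_lit 56720, nat_lit 467549, nat_lit 182229, nat_lit 101888,
  nat_lit 77849, nat_lit 65018, nat_lit 55624, nat_lit 52359, nat_lit 26288, nat_lit 236372,
  nat_lit 179965, nat_lit 100864, nat_lit 76357, nat_lit 64165, nat_lit 53596, nat_lit 50417,
  nat_lit 48396, nat_lit 50239, nat_lit 74577, nat_lit 61935, nat_lit 51988, nat_lit 47989,
  nat_lit 45879, nat_lit 22198, nat_lit 30895, nat_lit 51387, nat_lit 46378, nat_lit 45263,
  nat_lit 42418, nat_lit 23173, nat_lit 43816, nat_lit 42131, nat_lit 20555, nat_lit 20513,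
  nat_lit 40323, nat_lit 6593]),
  ([nat_lit 4625, nat_lit 19006, nat_lit 32597, nat_lit 19730, nat_lit 37769, nat_lit 66148,
  nat_lit 42082, nat_lit 80943, nat_lit 55523, nat_lit 49003, nat_lit 92996, nat_lit 133464,
  nat_lit 51244, nat_lit 104319, nat_lit 149270, nat_lit 78593, nat_lit 58108, nat_lit 123038,
  nat_lit 168617, nat_lit 171081, nat_lit 67720, nat_lit 152068, nat_lit 188157, nat_lit 190447,
  nat_lit 94818, nat_lit 84651, nat_lit 193396, nat_lit 225388, nat_lit 225168, nat_lit 223434,
  nat_lit 117196, nat_lit 266470, nat_lit 306792, nat_lit 299571, nat_lit 288714, nat_lit 141491,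
  nat_lit 169808, nat_lit 390934, nat_lit 369710, nat_lit 292002, nat_lit 241734, nat_lit 222826,
  nat_lit 287904, nat_lit 505726, nat_lit 343446, nat_lit 245273, nat_lit 205302, nat_lit 185584,
  nat_lit 90814, nat_lit 472322, nat_lit 557825, nat_lit 306113, nat_lit 222482, nat_lit 183200,
  nat_lit 164361, nat_lit 157215, nat_lit 712449, nat_lit 573355, nat_lit 286547, nat_lit 208065,
  nat_lit 173786, nat_lit 155446, nat_lit 144876, nat_lit 71767, nat_lit 436602, nat_lit 574317,
  nat_lit 277296, nat_lit 203092, nat_lit 168363, nat_lit 148839, nat_lit 139557, nat_lit 134386,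
  nat_lit 137291, nat_lit 200251, nat_lit 164945, nat_lit 146745, nat_lit 133099, nat_lit 130040,
  nat_lit 62883, nat_lit 82082, nat_lit 144059, nat_lit 132487, nat_lit 126814, nat_lit 121093,
  nat_lit 66582, nat_lit 123948, nat_lit 122676, nat_lit 59565, nat_lit 60226, nat_lit 115959,
  nat_lit 19510],
   [nat_lit 332907, nat_lit 645779, nat_lit 720799, nat_lit 356484, nat_lit 622446,
  nat_lit 564301, nat_lit 561360, nat_lit 433252, nat_lit 201009, nat_lit 524742, nat_lit 359319,
  nat_lit 281469, nat_lit 499862, nat_lit 311043, nat_lit 217573, nat_lit 104779, nat_lit 478143,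
  nat_lit 273879, nat_lit 182865, nat_lit 157695, nat_lit 464683, nat_lit 250191, nat_lit 157596,
  nat_lit 133852, nat_lit 61121, nat_lit 456520, nat_lit 231042, nat_lit 140145, nat_lit 117000,
  nat_lit 101178, nat_lit 456908, nat_lit 219260, nat_lit 131699, nat_lit 107350, nat_lit 93517,
  nat_lit 43479, nat_lit 451084, nat_lit 206618, nat_lit 119911, nat_lit 94600, nat_lit 81149,
  nat_lit 74081, nat_lit 454281, nat_lit 199165, nat_lit 113602, nat_lit 89866, nat_lit 76469,
  nat_lit 66743, nat_lit 33606, nat_lit 455426, nat_lit 193024, nat_lit 109370, nat_lit 85440,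
  nat_lit 71475, nat_lit 61660, nat_lit 59597, nat_lit 458921, nat_lit 189075, nat_lit 106637,
  nat_lit 81656, nat_lit 68114, nat_lit 58399, nat_lit 55055, nat_lit 27615, nat_lit 231837,
  nat_lit 186753, nat_lit 105584, nat_lit 80124, nat_lit 67215, nat_lit 56309, nat_lit 53010,
  nat_lit 50902, nat_lit 52589, nat_lit 78253, nat_lit 64875, nat_lit 54602, nat_lit 50530,
  nat_lit 48297, nat_lit 23375, nat_lit 32404, nat_lit 53995, nat_lit 48835, nat_lit 47592,
  nat_lit 44666, nat_lit 24421, nat_lit 46101, nat_lit 44334, nat_lit 21656, nat_lit 21606,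
  nat_lit 42513, nat_lit 6952]),
  ([nat_lit 3557, nat_lit 15461, nat_lit 27582, nat_lit 17000, nat_lit 32735, nat_lit 59233,
  nat_lit 37056, nat_lit 74290, nat_lit 51607, nat_lit 43569, nat_lit 86818, nat_lit 127218,
  nat_lit 45955, nat_lit 98382, nat_lit 144462, nat_lit 76694, nat_lit 52315, nat_lit 116980,
  nat_lit 164760, nat_lit 169421, nat_lit 61283, nat_lit 145591, nat_lit 185465, nat_lit 190140,
  nat_lit 95023, nat_lit 77151, nat_lit 186493, nat_lit 223557, nat_lit 225924, nat_lit 225092,
  nat_lit 107548, nat_lit 258644, nat_lit 305489, nat_lit 301476, nat_lit 292091, nat_lit 143429,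
  nat_lit 157728, nat_lit 383044, nat_lit 372151, nat_lit 298462, nat_lit 249208, nat_lit 230259,
  nat_lit 271154, nat_lit 501279, nat_lit 350594, nat_lit 253077, nat_lit 212576, nat_lit 192673,
  nat_lit 94274, nat_lit 449327, nat_lit 558444, nat_lit 314254, nat_lit 229859, nat_lit 189986,
  nat_lit 170869, nat_lit 163447, nat_lit 677542, nat_lit 577257, nat_lit 294613, nat_lit 215127,
  nat_lit 180204, nat_lit 161522, nat_lit 150702, nat_lit 74654, nat_lit 412799, nat_lit 579935,
  nat_lit 285310, nat_lit 209928, nat_lit 174561, nat_lit 154548, nat_lit 145037, nat_lit 139799,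
  nat_lit 141282, nat_lit 206972, nat_lit 170970, nat_lit 152275, nat_lit 138458, nat_lit 135152,
  nat_lit 65466, nat_lit 85063, nat_lit 149563, nat_lit 137635, nat_lit 131783, nat_lit 126001,
  nat_lit 69148, nat_lit 128843, nat_lit 127415, nat_lit 61933, nat_lit 62586, nat_lit 120692,
  nat_lit 20285],
   [nat_lit 289176, nat_lit 592142, nat_lit 678933, nat_lit 348925, nat_lit 593571,
  nat_lit 566064, nat_lit 540254, nat_lit 439730, nat_lit 205434, nat_lit 507973, nat_lit 367319,
  nat_lit 289773, nat_lit 485816, nat_lit 319235, nat_lit 225491, nat_lit 108138, nat_lit 466107,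
  nat_lit 281959, nat_lit 190060, nat_lit 163518, nat_lit 453885, nat_lit 258118, nat_lit 164166,
  nat_lit 139365, nat_lit 63579, nat_lit 446616, nat_lit 238741, nat_lit 146217, nat_lit 122059,
  nat_lit 105604, nat_lit 447455, nat_lit 226797, nat_lit 137497, nat_lit 112107, nat_lit 97579,
  nat_lit 45535, nat_lit 442102, nat_lit 213945, nat_lit 125325, nat_lit 99071, nat_lit 84868,
  nat_lit 77722, nat_lit 445277, nat_lit 206376, nat_lit 118841, nat_lit 94118, nat_lit 79997,
  nat_lit 70024, nat_lit 35288, nat_lit 446404, nat_lit 200125, nat_lit 114424, nat_lit 89575,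
  nat_lit 74830, nat_lit 64773, nat_lit 62650, nat_lit 449817, nat_lit 196065, nat_lit 111605,
  nat_lit 85659, nat_lit 71378, nat_lit 61344, nat_lit 57922, nat_lit 29023, nat_lit 227077,
  nat_lit 193693, nat_lit 110526, nat_lit 84085, nat_lit 70436, nat_lit 59191, nat_lit 55769,
  nat_lit 53568, nat_lit 55049, nat_lit 82122, nat_lit 67977, nat_lit 57383, nat_lit 53236,
  nat_lit 50874, nat_lit 24629, nat_lit 33997, nat_lit 56765, nat_lit 51451, nat_lit 50070,
  nat_lit 47065, nat_lit 25752, nat_lit 48537, nat_lit 46686, nat_lit 22832, nat_lit 22773,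
  nat_lit 44851, nat_lit 7336]),
  ([nat_lit 2709, nat_lit 12414, nat_lit 23086, nat_lit 14477, nat_lit 28110, nat_lit 52532,
  nat_lit 32364, nat_lit 67643, nat_lit 47603, nat_lit 38451, nat_lit 80509, nat_lit 120552,
  nat_lit 40928, nat_lit 92237, nat_lit 139146, nat_lit 74525, nat_lit 46791, nat_lit 110633,
  nat_lit 160366, nat_lit 167247, nat_lit 55114, nat_lit 138738, nat_lit 182214, nat_lit 189376,
  nat_lit 95024, nat_lit 69915, nat_lit 179096, nat_lit 221154, nat_lit 226271, nat_lit 226427,
  nat_lit 98180, nat_lit 250166, nat_lit 303559, nat_lit 303001, nat_lit 295227, nat_lit 145270,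
  nat_lit 145827, nat_lit 374225, nat_lit 374019, nat_lit 304782, nat_lit 256747, nat_lit 237826,
  nat_lit 254383, nat_lit 495731, nat_lit 357499, nat_lit 261018, nat_lit 220085, nat_lit 200035,
  nat_lit 97874, nat_lit 426039, nat_lit 558019, nat_lit 322426, nat_lit 237466, nat_lit 197058,
  nat_lit 177686, nat_lit 169989, nat_lit 642447, nat_lit 580265, nat_lit 302813, nat_lit 222460,
  nat_lit 186925, nat_lit 167911, nat_lit 156845, nat_lit 77698, nat_lit 389307, nat_lit 584747,
  nat_lit 293505, nat_lit 217049, nat_lit 181071, nat_lit 160574, nat_lit 150831, nat_lit 145529,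
  nat_lit 145370, nat_lit 213981, nat_lit 177308, nat_lit 158122, nat_lit 144138, nat_lit 140576,
  nat_lit 68207, nat_lit 88200, nat_lit 155384, nat_lit 143100, nat_lit 137061, nat_lit 131222,
  nat_lit 71875, nat_lit 134050, nat_lit 132458, nat_lit 64455, nat_lit 65098, nat_lit 125734,
  nat_lit 21111],
   [nat_lit 249351, nat_lit 539320, nat_lit 636333, nat_lit 339842, nat_lit 563771,
  nat_lit 565975, nat_lit 518227, nat_lit 445254, nat_lit 209533, nat_lit 490344, nat_lit 374798,
  nat_lit 297949, nat_lit 470977, nat_lit 327142, nat_lit 233503, nat_lit 111518, nat_lit 453355,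
  nat_lit 289904, nat_lit 197413, nat_lit 169487, nat_lit 442420, nat_lit 265999, nat_lit 170931,
  nat_lit 145053, nat_lit 66137, nat_lit 436093, nat_lit 246455, nat_lit 152493, nat_lit 127305,
  nat_lit 110236, nat_lit 437420, nat_lit 234387, nat_lit 143509, nat_lit 117059, nat_lit 101828,
  nat_lit 47705, nat_lit 432568, nat_lit 221354, nat_lit 130955, nat_lit 103747, nat_lit 88771,
  nat_lit 81566, nat_lit 435748, nat_lit 213688, nat_lit 124298, nat_lit 98565, nat_lit 83706,
  nat_lit 73495, nat_lit 37070, nat_lit 436882, nat_lit 207337, nat_lit 119693, nat_lit 93908,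
  nat_lit 78362, nat_lit 68071, nat_lit 65889, nat_lit 440233, nat_lit 203171, nat_lit 116788,
  nat_lit 89860, nat_lit 74814, nat_lit 64469, nat_lit 60965, nat_lit 30518, nat_lit 222091,
  nat_lit 200757, nat_lit 115689, nat_lit 88241, nat_lit 73832, nat_lit 62251, nat_lit 58703,
  nat_lit 56405, nat_lit 57616, nat_lit 86184, nat_lit 71247, nat_lit 60338, nat_lit 56113,
  nat_lit 53618, nat_lit 25966, nat_lit 35678, nat_lit 59706, nat_lit 54235, nat_lit 52706,
  nat_lit 49624, nat_lit 27171, nat_lit 51133, nat_lit 49198, nat_lit 24089, nat_lit 24018,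
  nat_lit 47344, nat_lit 7746]),
  ([nat_lit 2030, nat_lit 9835, nat_lit 19106, nat_lit 12177, nat_lit 23906, nat_lit 46113,
  nat_lit 28025, nat_lit 61071, nat_lit 43552, nat_lit 33674, nat_lit 74127, nat_lit 113512,
  nat_lit 36190, nat_lit 85932, nat_lit 133341, nat_lit 72084, nat_lit 41565, nat_lit 104043,
  nat_lit 155433, nat_lit 164530, nat_lit 49245, nat_lit 131547, nat_lit 178386, nat_lit 188115,
  nat_lit 94798, nat_lit 62981, nat_lit 171236, nat_lit 218147, nat_lit 226162, nat_lit 227393,
  nat_lit 89138, nat_lit 241056, nat_lit 300952, nat_lit 304091, nat_lit 298068, nat_lit 146989,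
  nat_lit 134167, nat_lit 364468, nat_lit 375239, nat_lit 310898, nat_lit 264303, nat_lit 245491,
  nat_lit 237674, nat_lit 489027, nat_lit 364078, nat_lit 269055, nat_lit 227809, nat_lit 207658,
  nat_lit 101610, nat_lit 402561, nat_lit 556459, nat_lit 330573, nat_lit 245283, nat_lit 204409,
  nat_lit 184813, nat_lit 176847, nat_lit 607302, nat_lit 582278, nat_lit 311112, nat_lit 230052,
  nat_lit 193949, nat_lit 174620, nat_lit 163317, nat_lit 80905, nat_lit 366186, nat_lit 588647,
  nat_lit 301852, nat_lit 224447, nat_lit 187896, nat_lit 166927, nat_lit 156951, nat_lit 151589,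
  nat_lit 149542, nat_lit 221277, nat_lit 183965, nat_lit 164297, nat_lit 150152, nat_lit 146325,
  nat_lit 71114, nat_lit 91498, nat_lit 161533, nat_lit 148895, nat_lit 142665, nat_lit 136773,
  nat_lit 74771, nat_lit 139583, nat_lit 137822, nat_lit 67139, nat_lit 67772, nat_lit 131101,
  nat_lit 21990],
   [nat_lit 213364, nat_lit 487749, nat_lit 593286, nat_lit 329241, nat_lit 533203,
  nat_lit 563871, nat_lit 495368, nat_lit 449677, nat_lit 213236, nat_lit 471908, nat_lit 381636,
  nat_lit 305922, nat_lit 455381, nat_lit 334667, nat_lit 241561, nat_lit 114903, nat_lit 439910,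
  nat_lit 297637, nat_lit 204892, nat_lit 175585, nat_lit 430305, nat_lit 273772, nat_lit 177868,
  nat_lit 150904, nat_lit 68796, nat_lit 424963, nat_lit 254129, nat_lit 158960, nat_lit 132727,
  nat_lit 115075, nat_lit 426811, nat_lit 241982, nat_lit 149722, nat_lit 122200, nat_lit 106267,
  nat_lit 49991, nat_lit 422490, nat_lit 228802, nat_lit 136792, nat_lit 108623, nat_lit 92861,
  nat_lit 85618, nat_lit 425699, nat_lit 221063, nat_lit 129967, nat_lit 103206, nat_lit 87600,
  nat_lit 77165, nat_lit 38955, nat_lit 426870, nat_lit 214626, nat_lit 125171, nat_lit 98439,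
  nat_lit 82077, nat_lit 71563, nat_lit 69321, nat_lit 430177, nat_lit 210358, nat_lit 122183,
  nat_lit 94260, nat_lit 78429, nat_lit 67782, nat_lit 64195, nat_lit 32103, nat_lit 216882,
  nat_lit 207914, nat_lit 121070, nat_lit 92595, nat_lit 77411, nat_lit 65497, nat_lit 61820,
  nat_lit 59419, nat_lit 60290, nat_lit 90442, nat_lit 74692, nat_lit 63476, nat_lit 59172,
  nat_lit 56537, nat_lit 27389, nat_lit 37449, nat_lit 62825, nat_lit 57194, nat_lit 55508,
  nat_lit 52352, nat_lit 28683, nat_lit 53897, nat_lit 51877, nat_lit 25431, nat_lit 25346,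
  nat_lit 50001, nat_lit 8183]),
  ([nat_lit 1507, nat_lit 7682, nat_lit 15624, nat_lit 10109, nat_lit 20126, nat_lit 40043,
  nat_lit 24050, nat_lit 54646, nat_lit 39500, nat_lit 29250, nat_lit 67736, nat_lit 106161,
  nat_lit 31757, nat_lit 79526, nat_lit 127076, nat_lit 69376, nat_lit 36657, nat_lit 97262,
  nat_lit 149969, nat_lit 161248, nat_lit 43701, nat_lit 124068, nat_lit 173971, nat_lit 186320,
  nat_lit 94326, nat_lit 56378, nat_lit 162957, nat_lit 214507, nat_lit 225551, nat_lit 227942,
  nat_lit 80463, nat_lit 231350, nat_lit 297625, nat_lit 304690, nat_lit 300562, nat_lit 148559,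
  nat_lit 122805, nat_lit 353787, nat_lit 375736, nat_lit 316742, nat_lit 271825, nat_lit 253211,
  nat_lit 221106, nat_lit 481132, nat_lit 370247, nat_lit 277145, nat_lit 235723, nat_lit 215525,
  nat_lit 105474, nat_lit 378996, nat_lit 553684, nat_lit 338634, nat_lit 253284, nat_lit 212030,
  nat_lit 192247, nat_lit 184020, nat_lit 572243, nat_lit 583199, nat_lit 319465, nat_lit 237889,
  nat_lit 201276, nat_lit 181650, nat_lit 170123, nat_lit 84279, nat_lit 343488, nat_lit 591529,
  nat_lit 310316, nat_lit 232114, nat_lit 195037, nat_lit 173614, nat_lit 163408, nat_lit 157990,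
  nat_lit 153781, nat_lit 228851, nat_lit 190944, nat_lit 170811, nat_lit 156511, nat_lit 152413,
  nat_lit 74193, nat_lit 94960, nat_lit 168021, nat_lit 155035, nat_lit 148608, nat_lit 142669,
  nat_lit 77842, nat_lit 145459, nat_lit 143524, nat_lit 69994, nat_lit 70616, nat_lit 136811,
  nat_lit 22925],
   [nat_lit 181152, nat_lit 437839, nat_lit 550092, nat_lit 317165, nat_lit 502038,
  nat_lit 559609, nat_lit 471774, nat_lit 452856, nat_lit 216469, nat_lit 452725, nat_lit 387711,
  nat_lit 313612, nat_lit 439067, nat_lit 341713, nat_lit 249611, nat_lit 118276, nat_lit 425797,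
  nat_lit 305078, nat_lit 212460, nat_lit 181794, nat_lit 417558, nat_lit 281366, nat_lit 184953,
  nat_lit 156902, nat_lit 71553, nat_lit 413237, nat_lit 261706, nat_lit 165596, nat_lit 138319,
  nat_lit 120122, nat_lit 415638, nat_lit 249532, nat_lit 156121, nat_lit 127527, nat_lit 110898,
  nat_lit 52396, nat_lit 411875, nat_lit 236244, nat_lit 142827, nat_lit 113698, nat_lit 97143,
  nat_lit 89884, nat_lit 415140, nat_lit 228458, nat_lit 135838, nat_lit 108039, nat_lit 91685,
  nat_lit 81041, nat_lit 40945, nat_lit 416373, nat_lit 221952, nat_lit 130851, nat_lit 103167,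
  nat_lit 85982, nat_lit 75257, nat_lit 72953, nat_lit 419653, nat_lit 217590, nat_lit 127783,
  nat_lit 98859, nat_lit 82229, nat_lit 71292, nat_lit 67618, nat_lit 33783, nat_lit 211452,
  nat_lit 215127, nat_lit 126664, nat_lit 97145, nat_lit 81177, nat_lit 68938, nat_lit 65128,
  nat_lit 62619, nat_lit 63067, nat_lit 94898, nat_lit 78317, nat_lit 66806, nat_lit 62419,
  nat_lit 59641, nat_lit 28904, nat_lit 39313, nat_lit 66132, nat_lit 60337, nat_lit 58485,
  nat_lit 55258, nat_lit 30293, nat_lit 56837, nat_lit 54734, nat_lit 26861, nat_lit 26761,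
  nat_lit 52831, nat_lit 8651])]

theorem run98 : run W98 data98 = true := by decide +kernel

end Vale.Agent.P154.AF.Eng
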