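import Vale.Agent.P154AF.Run0
import Vale.Agent.P154AF.Run7
import Vale.Agent.P154AF.Run14
import Vale.Agent.P154AF.Run21
import Vale.Agent.P154AF.Run28
import Vale.Agent.P154AF.Run35
import Vale.Agent.P154AF.Run42
import Vale.Agent.P154AF.Run49
import Vale.Agent.P154AF.Run56
import Vale.Agent.P154AF.Run63
import Vale.Agent.P154AF.Run70
import Vale.Agent.P154AF.Run77
import Vale.Agent.P154AF.Run84
import Vale.Agent.P154AF.Run91
import Vale.Agent.P154AF.Run98
import Vale.Agent.P154AF.Run105
import Vale.Agent.P154AF.Run112
import Vale.Agent.P154AF.Run119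
import Vale.Agent.P154AF.Run126
import Vale.Agent.P154AF.Run133
import Vale.Agent.P154AF.Run140
import Vale.Agent.P154AF.ENG1
import Vale.Agent.P154AF.ENG2
import Vale.Agent.P154AF.ENG3
import Vale.Agent.P154AF.ENG4

/-! The whole run of the quantised density evolution (helper file). -/

namespace Vale.Agent.P154.AF

open Finset Eng

/-- the law `W` dominates all trees of depth `n` with at most four children per vertex -/
def GoodW (n : ℕ) (W : List ℕ) : Prop :=
  W.length = 91 ∧ sumL W = 16777216 ∧ ∀ (d : ℕ) (lam : ℝ), d ≤ 4 → -1/2 ≤ lam → lam ≤ 0 →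
    DomW (tch 3 lam n (dary d n)) W

theorem GoodW.step {n m : ℕ} {W W' : List ℕ} {data : List (List ℕ × List ℕ)} (h : GoodW n W)
    (hr : run W data = true) (hm : data.length = m) (hW : lastW W data = W') :
    GoodW (n + m) W' := by
  subst hm
  subst hW
  obtain ⟨h1, h2, h3⟩ := h
  obtain ⟨k1, k2, k3⟩ := runS stage1 stage2 W data hr h1 h2
  exact ⟨k1, k2, fun d lam hd hl0 hl1 => k3 d lam hd hl0 hl1 n (h3 d lam hd hl0 hl1)⟩

theorem W0_eq : W0 = 16777216 :: List.replicate 90 0 := by decide +kernel

theorem good0 : GoodW 0 W0 := by
  refine ⟨by decide +kernel, by decide +kernel, fun d lam _ _ _ => ?_⟩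
  rw [W0_eq]
  exact start d lam

theorem good7 : GoodW 7 W7 :=
  good0.step (m := 7) run0 (by decide +kernel) (by decide +kernel)

theorem good14 : GoodW 14 W14 :=
  good7.step (m := 7) run7 (by decide +kernel) (by decide +kernel)

theorem good21 : GoodW 21 W21 :=
  good14.step (m := 7) run14 (by decide +kernel) (by decide +kernel)

theorem good28 : GoodW 28 W28 :=
  good21.step (m := 7) run21 (by decide +kernel) (by decide +kernel)

theorem good35 : GoodW 35 W35 :=
  good28.step (m := 7) run28 (by decide +kernel) (by decide +kernel)

theorem good42 : GoodW 42 W42 :=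
  good35.step (m := 7) run35 (by decide +kernel) (by decide +kernel)

theorem good49 : GoodW 49 W49 :=
  good42.step (m := 7) run42 (by decide +kernel) (by decide +kernel)

theorem good56 : GoodW 56 W56 :=
  good49.step (m := 7) run49 (by decide +kernel) (by decide +kernel)

theorem good63 : GoodW 63 W63 :=
  good56.step (m := 7) run56 (by decide +kernel) (by decide +kernel)

theorem good70 : GoodW 70 W70 :=
  good63.step (m := 7) run63 (by decide +kernel) (by decide +kernel)

theorem good77 : GoodW 77 W77 :=
  good70.step (m := 7) run70 (by decide +kernel) (by decide +kernel)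

theorem good84 : GoodW 84 W84 :=
  good77.step (m := 7) run77 (by decide +kernel) (by decide +kernel)

theorem good91 : GoodW 91 W91 :=
  good84.step (m := 7) run84 (by decide +kernel) (by decide +kernel)

theorem good98 : GoodW 98 W98 :=
  good91.step (m := 7) run91 (by decide +kernel) (by decide +kernel)

theorem good105 : GoodW 105 W105 :=
  good98.step (m := 7) run98 (by decide +kernel) (by decide +kernel)

theorem good112 : GoodW 112 W112 :=
  good105.step (m := 7) run105 (by decide +kernel) (by decide +kernel)

theorem good119 : GoodW 119 W119 :=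
  good112.step (m := 7) run112 (by decide +kernel) (by decide +kernel)

theorem good126 : GoodW 126 W126 :=
  good119.step (m := 7) run119 (by decide +kernel) (by decide +kernel)

theorem good133 : GoodW 133 W133 :=
  good126.step (m := 7) run126 (by decide +kernel) (by decide +kernel)

theorem good140 : GoodW 140 W140 :=
  good133.step (m := 7) run133 (by decide +kernel) (by decide +kernel)

/-- the final weights -/
def WF : List ℕ := lastW W140 data140

theorem goodF : GoodW 142 WF :=
  good140.step (m := 2) run140 (by decide +kernel) rfl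

theorem end_check : 100 * fhN ptsG WF ≤ 38 * 16777216 * 2700000000 := by decide +kernel

theorem run_final (d : ℕ) (lam : ℝ) (hd : d ≤ 4) (h0 : -1/2 ≤ lam) (h1 : lam ≤ 0) :
    KF F4 d lam 142 ≤ 38 / 100 :=
  endS WF end_check d 142 lam h0 h1 (goodF.2.2 d lam hd h0 h1)

end Vale.Agent.P154.AF
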